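import Crest.Agent.N49.Rf.Nar
import Crest.Agent.N49.Sp.Sp
import Crest.Agent.N49.Top.Tri

/-!
# Row 49 (helper90): costs of a container, events and moves of the regularisation loop
-/

set_option autoImplicit false

open Matrix Finset

noncomputable section

namespace Crest.Agent.N49.Tw

open Po

/-- the Gaussian mass of the kernel of `π` on level one -/
def TS.g1 {σ : Type} (T : TS σ) (π : T.C → ℤ) : ℝ :=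
  Sp.gk (T.D.submatrix (Subtype.val : {c // T.lev c = 1} → T.C) Subtype.val)⁻¹
    {n | (fun c : {c // T.lev c = 1} => π c.1) ⬝ᵥ n = 0}

/-- the semantic cost of level one -/
def Ctr.g1 (V : Ctr) : ℝ := V.T.g1 V.π

/-- the cumulative rank -/
def Ctr.Rc (V : Ctr) (s l : ℕ) : ℕ := ∑ j ∈ Icc l s, V.T.R j

/-- `c` bounds the costs of `V`; there are `2 s + 1` costs -/
structure Ctr.Cs (s N : ℕ) (V : Ctr) (c : ℕ → ℕ) : Prop where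
  ok : V.Ok s
  R : ∀ l ∈ Icc 1 s, V.Rc s l ≤ c (s - l)
  ct : ∀ l ∈ Icc 1 s, V.T.ct l ≤ 2 ^ c (2 * s - l)
  g : N * V.g1 ≤ 2 ^ c (2 * s - 1)
  z : V.T.Zc ≤ 2 ^ c (2 * s) * V.T.Z

namespace Rf

/-- the base of the costs of index `≥ i` -/
abbrev bb (s m : ℕ) (c : ℕ → ℕ) (i : ℕ) : ℕ := Top.bs (2 * s + 1) m c c i

/-- relations `JB T l k q r`: the symbol of `k` is trivial with denominator `q` and norm `r` -/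
abbrev Jb : Type 1 := (T : TS Unit) → ℕ → (T.C → ℤ) → ℕ → ℝ → Prop

/-- the data of an event at level `l` -/
def Evd (JB : Jb) (s K m : ℕ) (V : Ctr) (c : ℕ → ℕ) : Prop :=
  ∃ l ∈ Icc 1 s, ∃ k : V.T.C → ℤ, k ≠ 0 ∧ (∀ F, k F ≠ 0 → V.T.lev F = l) ∧
    qf V.T.D (zc k) ≤ 2 ^ bb s m c (2 * s - l) ^ K ∧
    (2 ≤ l → ∃ (q : ℕ) (r : ℝ), 1 ≤ q ∧ q ≤ 2 ^ bb s m c (2 * s - l + 1) ^ K ∧ 0 ≤ r ∧
      r ≤ 2 ^ bb s m c (2 * s - l + 1) ^ K ∧ JB V.T l k q r)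

/-- a move at level `l`: the own level costs `Y`, the lower levels cost `X` -/
structure Mv (s l X Y : ℕ) (ε : ℝ) (A : Set ℤ) (V V' : Ctr) : Prop where
  ok : V'.Ok s
  Rl : V'.T.R l + 1 = V.T.R l
  Rhi : ∀ j, l < j → V'.T.R j = V.T.R j
  Rc : ∀ j ∈ Icc 1 s, V'.Rc s j ≤ V.Rc s j
  chi : ∀ j, l < j → V'.T.ct j ≤ V.T.ct j
  cl : V'.T.ct l ≤ 2 ^ Y * V.T.ct l
  clo : ∀ j < l, V'.T.ct j ≤ 2 ^ X * V.T.ct j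
  g : V'.g1 ≤ 2 ^ (if l = 1 then Y else X) * V.g1
  z : V.T.Z / V.T.Zc ≤ 2 ^ X * (V'.T.Z / V'.T.Zc)
  den : V.den A - ε ≤ V'.den A

/-- **one event**: the loss is `2 ^ (-e)` -/
def EV (JB : Jb) : Prop := ∀ s K a : ℕ, ∃ K', ∀ (N m e : ℕ) (A : Set ℤ) (V : Ctr) (c : ℕ → ℕ),
  2 ≤ m → e ≤ a * bb s m c s → V.Cs s N c → V.T.K = 1 → Evd JB s K m V c →
  ∃ l ∈ Icc 1 s, ∃ V', Mv s l (bb s m c (2 * s - l + 1) ^ K') (bb s m c (2 * s - l) ^ K')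
    (1 / 2 ^ e) A V V'

/-- **regularisation** for an arbitrary notion `Rg` of regularity -/
def REG (JB : Jb) : Prop := ∀ s K j : ℕ, ∃ K', ∀ (N m : ℕ) (L : ℝ) (A : Set ℤ) (α : ℝ)
  (Rg : Ctr → (ℕ → ℕ) → Prop), 2 ≤ m →
  (∀ V c, V.Cs s N c → V.T.K = 1 → Top.Ok (2 * s + 1) K m L c → ¬ Rg V c → Evd JB s K m V c) →
  Top.Arr (2 * s + 1) K' m L (fun v : Ctr × (ℕ → ℕ) => v.2) (fun v : Ctr × (ℕ → ℕ) => v.2)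
    (fun v => v.1.Cs s N v.2 ∧ α ≤ v.1.den A)
    fun _ w => w.1.Cs s N w.2 ∧ w.1.T.K = 1 ∧ Rg w.1 w.2 ∧ α - 1 / 2 ^ (m + j) ≤ w.1.den A

/-- **level one slices** (leaf) -/
def SL1 : Prop := ∀ (s : ℕ) (V : Ctr) (k b : V.T.C → ℤ) (A : Set ℤ) (ε : ℝ), V.Ok s →
  (∀ F, k F ≠ 0 → V.T.lev F = 1) → (∀ F, b F ≠ 0 → V.T.lev F = 1) → k ⬝ᵥ b = 1 → 0 < ε → ε ≤ 1 →
  ∃ V' : Ctr, V'.Ok s ∧ V'.T.R 1 + 1 = V.T.R 1 ∧ (∀ j, 1 < j → V'.T.R j = V.T.R j) ∧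
    (∀ j, 1 < j → V'.T.ct j ≤ V.T.ct j) ∧
    V'.T.ct 1 ≤ (1 + √(qf V.T.D (zc k))) * V.T.ct 1 ∧
    V'.g1 ≤ 3 * (1 + √(qf V.T.D (zc k))) * V.g1 ∧
    ε * (V.T.Z / V.T.Zc) ≤ 6 * (1 + (√(qf V.T.D (zc k)))⁻¹) * (V'.T.Z / V'.T.Zc) ∧
    V.den A - ε ≤ V'.den A

end Rf

end Crest.Agent.N49.Tw

end
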