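import Mathlib

/-!
# Row 49 (helper13): the weight filtration of polynomial rings
-/

set_option autoImplicit false

open MvPolynomial Finset

noncomputable section

namespace Crest.Agent.N49.Rf

variable {C C' R : Type} [CommRing R] {w : C → ℕ} {w' : C' → ℕ}

/-- all the monomials have weight `< n` -/
def Wt (w : C → ℕ) (n : ℕ) (P : MvPolynomial C R) : Prop :=
  ∀ m ∈ P.support, Finsupp.weight w m < n

theorem Wt.mono {n n' : ℕ} {P : MvPolynomial C R} (h : Wt w n P) (e : n ≤ n') : Wt w n' P :=
  fun m hm => (h m hm).trans_le e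

theorem Wt.zero (n : ℕ) : Wt w n (0 : MvPolynomial C R) := fun m hm => by simp at hm

theorem Wt.add {n : ℕ} {P Q : MvPolynomial C R} (h : Wt w n P) (h' : Wt w n Q) :
    Wt w n (P + Q) := fun m hm => by
  classical
  rcases mem_union.1 (support_add hm) with e | e
  exacts [h m e, h' m e]

theorem Wt.neg {n : ℕ} {P : MvPolynomial C R} (h : Wt w n P) : Wt w n (-P) := fun m hm =>
  h m (by rwa [support_neg] at hm)

theorem Wt.sub {n : ℕ} {P Q : MvPolynomial C R} (h : Wt w n P) (h' : Wt w n Q) :
    Wt w n (P - Q) := by rw [sub_eq_add_neg]; exact h.add h'.neg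

theorem Wt.sum {ι : Type*} {n : ℕ} (s : Finset ι) {P : ι → MvPolynomial C R}
    (h : ∀ i ∈ s, Wt w n (P i)) : Wt w n (∑ i ∈ s, P i) :=
  Finset.sum_induction P (Wt w n) (fun _ _ => Wt.add) (Wt.zero n) h

theorem Wt.mul {a b : ℕ} {P Q : MvPolynomial C R} (h : Wt w a P) (h' : Wt w (b + 1) Q) :
    Wt w (a + b) (P * Q) := fun m hm => by
  classical
  obtain ⟨x, hx, y, hy, rfl⟩ := mem_add.1 (support_mul P Q hm)
  have := h x hx
  have := h' y hy
  rw [map_add]
  omega

theorem Wt.monomial {n : ℕ} {m : C →₀ ℕ} (h : Finsupp.weight w m < n) (a : R) :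
    Wt w n (monomial m a) := fun m' hm => by
  classical
  rw [mem_singleton.1 (support_monomial_subset hm)]; exact h

theorem Wt.cst {n : ℕ} (h : 0 < n) (a : R) : Wt w n (MvPolynomial.C a) :=
  Wt.monomial (by simpa using h) a

theorem Wt.X (c : C) : Wt w (w c + 1) (X c : MvPolynomial C R) :=
  Wt.monomial (by simp [Finsupp.weight_single]) 1

theorem Wt.C_mul {n : ℕ} {P : MvPolynomial C R} (h : Wt w n P) (a : R) :
    Wt w n (MvPolynomial.C a * P) := by
  rw [mul_comm]; exact h.mul (b := 0) (Wt.cst one_pos a)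

theorem Wt.smul {n : ℕ} {P : MvPolynomial C R} (h : Wt w n P) (a : R) : Wt w n (a • P) := by
  rw [smul_eq_C_mul]; exact h.C_mul a

theorem Wt.of_hom {n : ℕ} {P : MvPolynomial C R} (h : P.IsWeightedHomogeneous w n) :
    Wt w (n + 1) P := fun _ hm => Nat.lt_succ_of_le (h (mem_support_iff.1 hm)).le

theorem Wt.sub_top {n : ℕ} {P : MvPolynomial C R} (h : Wt w (n + 1) P) :
    Wt w n (P - weightedHomogeneousComponent w n P) := fun m hm => by
  have h1 := mem_support_iff.1 hm
  rw [coeff_sub, coeff_weightedHomogeneousComponent] at h1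
  split_ifs at h1 with e
  · simp at h1
  · have := h m (mem_support_iff.2 (by simpa using h1))
    omega

/-- same top part in weight `n` -/
structure Eqt (w : C → ℕ) (n : ℕ) (P Q : MvPolynomial C R) : Prop where
  l : Wt w (n + 1) P
  r : Wt w (n + 1) Q
  d : Wt w n (P - Q)

theorem Eqt.one : Eqt w 0 (1 : MvPolynomial C R) 1 :=
  ⟨Wt.cst one_pos 1, Wt.cst one_pos 1, by rw [sub_self]; exact Wt.zero 0⟩

theorem Eqt.mul {a b : ℕ} {P Q P' Q' : MvPolynomial C R} (h : Eqt w a P Q) (h' : Eqt w b P' Q') :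
    Eqt w (a + b) (P * P') (Q * Q') where
  l := (h.l.mul h'.l).mono (by omega)
  r := (h.r.mul h'.r).mono (by omega)
  d := by
    rw [show P * P' - Q * Q' = (P - Q) * P' + (P' - Q') * Q by ring]
    exact (h.d.mul h'.l).add ((h'.d.mul h.r).mono (by omega))

theorem Eqt.pow {a : ℕ} {P Q : MvPolynomial C R} (h : Eqt w a P Q) (k : ℕ) :
    Eqt w (k * a) (P ^ k) (Q ^ k) := by
  induction k with
  | zero => simpa using Eqt.one
  | succ k ih => rw [pow_succ, pow_succ, add_mul, one_mul]; exact ih.mul h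

theorem Eqt.prod {ι : Type*} (s : Finset ι) {a : ι → ℕ} {P Q : ι → MvPolynomial C R}
    (h : ∀ i ∈ s, Eqt w (a i) (P i) (Q i)) :
    Eqt w (∑ i ∈ s, a i) (∏ i ∈ s, P i) (∏ i ∈ s, Q i) := by
  classical
  induction s using Finset.induction_on with
  | empty => simpa using Eqt.one
  | insert i s hi ih =>
    rw [sum_insert hi, prod_insert hi, prod_insert hi]
    exact (h i (mem_insert_self _ _)).mul (ih fun j hj => h j (mem_insert_of_mem hj))

theorem Eqt.monomial {F G : C → MvPolynomial C' R} (h : ∀ c, Eqt w' (w c) (F c) (G c))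
    (m : C →₀ ℕ) (a : R) :
    Eqt w' (Finsupp.weight w m) (aeval F (monomial m a)) (aeval G (monomial m a)) := by
  have h1 := Eqt.prod m.support fun c _ => (h c).pow (m c)
  have e : Finsupp.weight w m = ∑ c ∈ m.support, m c * w c := by
    simp [Finsupp.weight_apply, Finsupp.sum]
  rw [aeval_monomial, aeval_monomial, e, algebraMap_eq]
  exact ⟨h1.l.C_mul a, h1.r.C_mul a, by rw [← mul_sub]; exact h1.d.C_mul a⟩

/-- substitutions with the same top parts -/
theorem Wt.aeval_sub {F G : C → MvPolynomial C' R} (h : ∀ c, Eqt w' (w c) (F c) (G c)) {n : ℕ}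
    {P : MvPolynomial C R} (hP : Wt w (n + 1) P) : Wt w' n (aeval F P - aeval G P) := by
  rw [P.as_sum, map_sum, map_sum, ← sum_sub_distrib]
  exact Wt.sum _ fun m hm => (Eqt.monomial h m _).d.mono (Nat.le_of_lt_succ (hP m hm))

/-- substitutions preserve the filtration -/
theorem Wt.aeval {F : C → MvPolynomial C' R} (h : ∀ c, Wt w' (w c + 1) (F c)) {n : ℕ}
    {P : MvPolynomial C R} (hP : Wt w n P) : Wt w' n (aeval F P) := by
  rw [P.as_sum, map_sum]
  exact Wt.sum _ fun m hm => (Eqt.monomial (G := F) (fun c => ⟨h c, h c, by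
    rw [sub_self]; exact Wt.zero _⟩) m _).l.mono (hP m hm)

theorem Wt.rename (f : C → C') {n : ℕ} {P : MvPolynomial C R} (hP : Wt (w' ∘ f) n P) :
    Wt w' n (rename f P) := by
  rw [rename_eq_aeval]
  exact Wt.aeval (fun c => Wt.X (f c)) hP

theorem hom_monomial {F : C → MvPolynomial C' R} (h : ∀ c, (F c).IsWeightedHomogeneous w' (w c))
    (m : C →₀ ℕ) (a : R) :
    (aeval F (monomial m a)).IsWeightedHomogeneous w' (Finsupp.weight w m) := by
  have e : Finsupp.weight w m = ∑ c ∈ m.support, m c • w c := by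
    simp [Finsupp.weight_apply, Finsupp.sum]
  rw [aeval_monomial, e, algebraMap_eq]
  exact (IsWeightedHomogeneous.prod _ _ _ fun c _ => (h c).pow (m c)).C_mul a

/-- homogeneous substitutions commute with the homogeneous components -/
theorem comp_aeval_hom {F : C → MvPolynomial C' R}
    (h : ∀ c, (F c).IsWeightedHomogeneous w' (w c)) (n : ℕ) (P : MvPolynomial C R) :
    weightedHomogeneousComponent w' n (aeval F P) =
      aeval F (weightedHomogeneousComponent w n P) := by
  conv_lhs => rw [P.as_sum]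
  conv_rhs => rw [P.as_sum]
  simp only [map_sum]
  refine sum_congr rfl fun m _ => ?_
  have h1 := isWeightedHomogeneous_monomial w m (coeff m P) rfl
  have h2 := hom_monomial h m (coeff m P)
  by_cases e : n = Finsupp.weight w m
  · subst e
    rw [h1.weightedHomogeneousComponent_same, h2.weightedHomogeneousComponent_same]
  · rw [h1.weightedHomogeneousComponent_ne n e, h2.weightedHomogeneousComponent_ne n e, map_zero]

theorem hom_aeval {F : C → MvPolynomial C' R} (h : ∀ c, (F c).IsWeightedHomogeneous w' (w c))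
    {n : ℕ} {P : MvPolynomial C R} (hP : P.IsWeightedHomogeneous w n) :
    (aeval F P).IsWeightedHomogeneous w' n := by
  rw [← hP.weightedHomogeneousComponent_same, ← comp_aeval_hom h]
  exact weightedHomogeneousComponent_isWeightedHomogeneous _ _

theorem comp_map {S : Type} [CommRing S] (f : R →+* S) (n : ℕ) (P : MvPolynomial C R) :
    weightedHomogeneousComponent w n (map f P) = map f (weightedHomogeneousComponent w n P) := by
  ext m
  simp only [coeff_weightedHomogeneousComponent, coeff_map]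
  split_ifs <;> simp

theorem eval_aeval (y : C' → R) (F : C → MvPolynomial C' R) (P : MvPolynomial C R) :
    eval y (aeval F P) = eval (fun c => eval y (F c)) P := by
  induction P using MvPolynomial.induction_on with
  | C a => simp
  | add p q hp hq => simp only [map_add, hp, hq]
  | mul_X p c hp => simp only [map_mul, hp, aeval_X, eval_X]

theorem eval_cast (y : C → ℤ) (P : MvPolynomial C ℤ) :
    eval (fun c => (y c : ℝ)) (map (Int.castRingHom ℝ) P) = (eval y P : ℤ) := by
  induction P using MvPolynomial.induction_on with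
  | C a => simp
  | add p q hp hq => simp [hp, hq]
  | mul_X p c hp => simp [hp]

theorem dvd_aeval {S : Type} [CommRing S] [Algebra R S] {N : S} {F G : C → S}
    (h : ∀ c, N ∣ F c - G c) (P : MvPolynomial C R) : N ∣ aeval F P - aeval G P := by
  induction P using MvPolynomial.induction_on with
  | C a => simp
  | add p q hp hq =>
    rw [map_add, map_add, add_sub_add_comm]; exact hp.add hq
  | mul_X p c hp =>
    rw [map_mul, map_mul, aeval_X, aeval_X,
      show aeval F p * F c - aeval G p * G c =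
        (aeval F p - aeval G p) * F c + aeval G p * (F c - G c) by ring]
    exact (hp.mul_right _).add ((h c).mul_left _)

/-- an integer polynomial on a residue class -/
theorem exists_res (a : C → ℤ) {N n : ℤ} (hN : N ≠ 0) (hn : N ∣ n) {l : ℕ} {I : MvPolynomial C ℤ}
    (hI : Wt w (l + 1) I) : ∃ J : MvPolynomial C ℤ, Wt w (l + 1) J ∧
      ∀ y : C → ℤ, eval (fun c => a c + n * y c) I = eval a I + N * eval y J := by
  obtain ⟨J, hJ⟩ := dvd_aeval (N := (MvPolynomial.C N : MvPolynomial C ℤ))
    (F := fun c => MvPolynomial.C (a c) + MvPolynomial.C n * X c)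
    (G := fun c => MvPolynomial.C (a c)) (fun c => by
      rw [add_sub_cancel_left]; exact (_root_.map_dvd _ hn).mul_right _) I
  refine ⟨J, fun m hm => ?_, fun y => ?_⟩
  · have h1 : Wt w (l + 1) (MvPolynomial.C N * J) := by
      rw [← hJ]
      exact (Wt.aeval (fun c => (Wt.cst (Nat.succ_pos _) _).add ((Wt.X c).C_mul n)) hI).sub
        (Wt.aeval (fun c => Wt.cst (Nat.succ_pos _) _) hI)
    exact h1 m (mem_support_iff.2 (by
      rw [coeff_C_mul]; exact mul_ne_zero hN (mem_support_iff.1 hm)))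
  · have := congrArg (eval y) hJ
    rw [map_sub, eval_aeval, eval_aeval, map_mul] at this
    simp only [map_add, map_mul, eval_C, eval_X] at this
    linear_combination this

section bound
variable [Fintype C] [DecidableEq C]

theorem mono_sum_le {t : C → ℝ} (ht : ∀ c, 0 ≤ t c) (j : ℕ) {S : Finset (C →₀ ℕ)}
    (hS : ∀ m ∈ S, m.degree = j) : ∑ m ∈ S, ∏ c, t c ^ m c ≤ (∑ c, t c) ^ j := by
  rw [Finset.sum_pow_eq_sum_piAntidiag]
  have p : ∀ k : C → ℕ, 0 ≤ ∏ c, t c ^ k c := fun k => prod_nonneg fun c _ => pow_nonneg (ht c) _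
  calc ∑ m ∈ S, ∏ c, t c ^ m c = ∑ k ∈ S.image fun m : C →₀ ℕ => (m : C → ℕ), ∏ c, t c ^ k c :=
        (sum_image (g := fun m : C →₀ ℕ => (m : C → ℕ)) (f := fun k : C → ℕ => ∏ c, t c ^ k c)
          fun _ _ _ _ e => DFunLike.coe_injective e).symm
    _ ≤ ∑ k ∈ piAntidiag univ j, ∏ c, t c ^ k c := by
        refine sum_le_sum_of_subset_of_nonneg (fun k hk => ?_) fun k _ _ => p k
        obtain ⟨m, hm, rfl⟩ := mem_image.1 hk
        refine mem_piAntidiag.2 ⟨?_, fun c _ => mem_univ c⟩
        rw [← hS m hm, Finsupp.degree_eq_sum]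
    _ ≤ _ := sum_le_sum fun k _ => le_mul_of_one_le_left (p k)
        (by exact_mod_cast Nat.multinomial_pos _ _)

omit [DecidableEq C] in
theorem deg_le_weight (hw : ∀ c, 0 < w c) (m : C →₀ ℕ) : m.degree ≤ Finsupp.weight w m := by
  rw [Finsupp.degree_eq_sum, Finsupp.weight_apply, Finsupp.sum_fintype _ _ (by simp)]
  exact sum_le_sum fun c _ => Nat.le_mul_of_pos_right _ (hw c)

/-- a homogeneous form of positive weight is small near `0` -/
theorem eval_sq_le (hw : ∀ c, 0 < w c) {l : ℕ} (hl : 0 < l) {g : MvPolynomial C ℝ}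
    (hg : g.IsWeightedHomogeneous w l) {v : C → ℝ} (hv : ∑ c, v c ^ 2 ≤ 1) :
    eval v g ^ 2 ≤ (∑ m ∈ g.support, coeff m g ^ 2) * (l * ∑ c, v c ^ 2) := by
  have p : 0 ≤ ∑ c, v c ^ 2 := sum_nonneg fun c _ => sq_nonneg _
  rw [eval_eq']
  refine (sum_mul_sq_le_sq_mul_sq _ _ _).trans (mul_le_mul_of_nonneg_left ?_
    (sum_nonneg fun m _ => sq_nonneg _))
  have hm : ∀ m ∈ g.support, m.degree ∈ Icc 1 l := fun m hm => by
    have e := hg (mem_support_iff.1 hm)
    refine mem_Icc.2 ⟨Nat.one_le_iff_ne_zero.2 fun z => ?_, e ▸ deg_le_weight hw m⟩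
    rw [Finsupp.degree_eq_zero_iff] at z
    rw [z, map_zero] at e
    omega
  rw [← sum_fiberwise_of_maps_to hm]
  calc _ ≤ ∑ j ∈ Icc 1 l, ∑ c, v c ^ 2 := sum_le_sum fun j hj => by
        have h1 := mono_sum_le (t := fun c => v c ^ 2) (fun c => sq_nonneg _) j
          (S := {m ∈ g.support | m.degree = j}) fun m hm => (mem_filter.1 hm).2
        refine le_trans (le_of_eq (sum_congr rfl fun m _ => ?_)) (h1.trans ?_)
        · rw [← prod_pow]
          exact prod_congr rfl fun c _ => by ring
        · exact pow_le_of_le_one p hv (by have := (mem_Icc.1 hj).1; omega)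
    _ = _ := by simp

end bound

end Crest.Agent.N49.Rf

end
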