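import Crest.Agent.N49.Rf.Res
import Crest.Agent.N49.Rf.Wl
import Crest.Agent.N49.Tw.Ap2

/-!
# Row 49 (helper62): residue classes and dilations of twisted laws are twists
-/

set_option autoImplicit false
set_option linter.unusedSectionVars false

open Matrix MvPolynomial Finset

noncomputable section

namespace Crest.Agent.N49.Tw

open Po

theorem aeval_scale {C R : Type} [CommRing R] (d : C → R) (m : C →₀ ℕ) (a : R) :
    aeval (fun c => MvPolynomial.C (d c) * X c : C → MvPolynomial C R) (monomial m a) =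
      monomial m (a * m.prod fun c k => d c ^ k) := by
  rw [aeval_monomial, monomial_eq, algebraMap_eq, map_mul, mul_assoc, Finsupp.prod, Finsupp.prod,
    Finsupp.prod, map_prod, ← prod_mul_distrib]
  simp only [mul_pow, map_pow]

theorem coeff_scale {C R : Type} [CommRing R] (d : C → R) (m : C →₀ ℕ) (P : MvPolynomial C R) :
    coeff m (aeval (fun c => MvPolynomial.C (d c) * X c : C → MvPolynomial C R) P) =
      coeff m P * m.prod fun c k => d c ^ k := by
  classical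
  induction P using MvPolynomial.induction_on' with
  | add p q a b => rw [map_add, coeff_add, coeff_add, a, b, add_mul]
  | monomial m' a =>
    rw [aeval_scale, coeff_monomial, coeff_monomial]
    split_ifs with e
    · rw [e]
    · rw [zero_mul]

theorem prod_pow_weight {C R : Type} [CommMonoid R] (n : R) (w : C → ℕ) (m : C →₀ ℕ) :
    (m.prod fun c k => (n ^ w c) ^ k) = n ^ Finsupp.weight w m := by
  simp only [Finsupp.prod, Finsupp.weight_apply, Finsupp.sum, ← pow_mul, prod_pow_eq_pow_sum,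
    smul_eq_mul, mul_comm]

theorem dt_diag {C : Type} [Fintype C] [DecidableEq C] (K : Matrix C C ℝ) (s : C → ℝ) :
    dt (diagonal s * K * diagonal s)⁻¹ = |∏ c, s c| * dt K⁻¹ := by
  rw [dt_inv, dt_inv, dt, dt, inv_inv, inv_inv, det_mul, det_mul, det_diagonal, mul_right_comm,
    ← sq, Real.sqrt_mul (sq_nonneg _), Real.sqrt_sq_eq_abs]

theorem gs_diag {C : Type} [Fintype C] [DecidableEq C] {K : Matrix C C ℝ} (hK : K.det ≠ 0)
    {s : C → ℝ} (hs : ∀ c, s c ≠ 0) (x : C → ℝ) :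
    gs (diagonal s * K * diagonal s)⁻¹ (fun c => s c * x c) = gs K⁻¹ x := by
  have := gs_conj hK (S := diagonal s) (N := diagonal fun c => (s c)⁻¹)
    (by simp [diagonal_mul_diagonal, hs]) (by simp [diagonal_mul_diagonal, hs]) x
  rw [diagonal_transpose] at this
  rw [← this]
  exact congrArg _ (funext fun c => (mulVec_diagonal s x c).symm)

namespace Sh

variable {σ τ : Type} {S : Sh σ τ} {d : S.W → ℝ}

/-- characters: the dilation by `d` is a ring map -/
def Chr (S : Sh σ τ) (d : S.W → ℝ) : Prop :=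
  ∀ w m, S.r w m ≠ 0 → (m.prod fun w k => d w ^ k) = d w

/-- the dilation -/
def dil (S : Sh σ τ) (d : S.W → ℝ) : MvPolynomial S.W ℝ →ₐ[ℝ] MvPolynomial S.W ℝ :=
  aeval fun w => MvPolynomial.C (d w) * X w

theorem chr_one (S : Sh σ τ) : S.Chr fun _ => 1 := fun _ _ _ => by simp

theorem Ok.chr_pow (o : S.Ok) (t : ℝ) : S.Chr fun w => t ^ S.dg w := fun w m h => by
  rw [prod_pow_weight, o.gr_dg h]

theorem dil_one (P : MvPolynomial S.W ℝ) : S.dil (fun _ => 1) P = P := by simp [dil]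

theorem Chr.cf (h : S.Chr d) (w : S.W) (P : MvPolynomial S.W ℝ) :
    S.cf ℝ w (S.dil d P) = d w * S.cf ℝ w P := by
  induction P using MvPolynomial.induction_on' with
  | add p q a b => simp only [map_add, a, b, mul_add]
  | monomial m a =>
    rw [dil, aeval_scale, cf_monomial, cf_monomial]
    by_cases z : S.r w m = 0
    · simp [z]
    · rw [h w m z]; ring

theorem dil_hom {M : Type} [AddCommMonoid M] {w : S.W → M} {n : M} {P : MvPolynomial S.W ℝ}
    (h : P.IsWeightedHomogeneous w n) : (S.dil d P).IsWeightedHomogeneous w n := fun _ hm =>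
  h (left_ne_zero_of_mul ((coeff_scale d _ P).symm.trans_ne hm))

theorem dil_el {x : S.W → ℤ} (h : ∀ w, x w ≠ 0 → d w = 1) : S.dil d (S.el x) = S.el x := by
  simp only [el, map_sum, map_zsmul, dil, aeval_X]
  refine sum_congr rfl fun w _ => ?_
  by_cases z : x w = 0
  · simp [z]
  · simp [h w z]

theorem Ok.setK (o : S.Ok) {K : Matrix S.W S.W ℝ} (h : K.PosDef)
    (b : ∀ w w', K w w' ≠ 0 → S.cd w = S.cd w') : (S.setK K).Ok :=
  ⟨o.ne, o.one, o.gr, o.mul, o.eps, h, b⟩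

end Sh

namespace TS

variable {σ τ : Type} {T : TS σ}

/-- residues with signed moduli -/
theorem Tri.res_pickZ (h : T.Tri) {n : T.C → ℤ} (hn : ∀ c, n c ≠ 0) {g : (T.C → ℤ) → ℝ}
    (hg : Bb g) : ∃ r : T.C → ℤ, T.N g ≤ (∑' y : T.C → ℤ, T.wt (fun c => r c + n c * y c) *
      g fun c => r c + n c * y c) / (T.Zc / |∏ c, (n c : ℝ)|) := by
  obtain ⟨r, -, hr⟩ := h.res_pick (n := fun c => (n c).natAbs)
    (fun c => Int.natAbs_pos.2 (hn c)) hg
  refine ⟨r, hr.trans_eq ?_⟩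
  have i : Function.Involutive fun (y : T.C → ℤ) c => (n c).sign * y c := fun y => funext fun c => by
    change (n c).sign * ((n c).sign * y c) = y c
    rcases (hn c).lt_or_gt with a | a
    · simp [Int.sign_eq_neg_one_of_neg a]
    · simp [Int.sign_eq_one_of_pos a]
  have e : ∀ y, emb (fun c => (n c).natAbs) r (i.toPerm _ y) = fun c => r c + n c * y c :=
    fun y => funext fun c => by
      change r c + (n c).natAbs * ((n c).sign * y c) = _
      rw [← mul_assoc, mul_comm _ (n c).sign, Int.sign_mul_natAbs]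
  rw [N, h.res_Zc, abs_prod]
  simp only [Nat.cast_natAbs, Int.cast_abs]
  refine congrArg (· / _) (((i.toPerm _).tsum_eq _).symm.trans (tsum_congr fun y => ?_))
  rw [← e]
  exact congrArg (· * _) (T.res_wt _ r _)

variable [DecidableEq σ] {S : Sh σ τ} {st : T.C → ℕ} {Ψ : T.Twd S} {d : S.W → ℝ}

theorem Adm.gr' (h : T.Adm S st Ψ) (F : T.C) :
    Gr (fun m μ => Finsupp.weight S.dg m + Finsupp.weight T.lev μ = T.lev F) (Ψ F) :=
  fun μ m z => by
    have a := h.gr F μ z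
    have b := (h.le F μ (mem_support_iff.2 fun e => z (by rw [e, coeff_zero]))).1
    omega

theorem Adm.of_gr (g : ∀ F, Gr (fun m μ => Finsupp.weight S.dg m + Finsupp.weight T.lev μ =
    T.lev F) (Ψ F)) (l : ∀ F, WL st (st F) (Ψ F)) (t : ∀ F m, Finsupp.weight T.lev m = T.lev F →
      coeff m (Ψ F) = MvPolynomial.C (coeff m (T.Φ F))) : T.Adm S st Ψ where
  gr F μ m z := by have := g F μ m z; omega
  le F μ z := by
    obtain ⟨m, hm⟩ := ne_zero_iff.1 (mem_support_iff.1 z)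
    have := g F μ m hm
    exact ⟨by omega, l F μ z⟩
  top := t

theorem grC {ι κ : Type} {r : (ι →₀ ℕ) → (κ →₀ ℕ) → Prop} {c : MvPolynomial ι ℝ}
    (h : ∀ m, coeff m c ≠ 0 → r m 0) : Gr r (MvPolynomial.C c) := fun μ m z => by
  classical
  rw [coeff_C] at z
  split_ifs at z with e
  · exact e ▸ h m z
  · exact absurd rfl z

theorem gr_add {ι κ : Type} {r : (ι →₀ ℕ) → (κ →₀ ℕ) → Prop}
    {P Q : MvPolynomial κ (MvPolynomial ι ℝ)} (h : Gr r P) (h' : Gr r Q) : Gr r (P + Q) :=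
  fun μ m z => by
    rw [coeff_add, coeff_add] at z
    by_cases a : coeff m (coeff μ P) = 0
    · exact h' μ m fun b => z (by rw [a, b, add_zero])
    · exact h μ m a

variable (T S) in
/-- the twist dilated by a character -/
def tdl (d : S.W → ℝ) (Ψ : T.Twd S) : T.Twd S :=
  fun F => MvPolynomial.map (S.dil d).toRingHom (Ψ F)

theorem Adm.tdl (h : T.Adm S st Ψ) (d : S.W → ℝ) : T.Adm S st (T.tdl S d Ψ) where
  gr F m := by rw [TS.tdl, coeff_map]; exact Sh.dil_hom (h.gr F m)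
  le F m hm := h.le F m (support_map_subset _ _ hm)
  top F m e := by rw [TS.tdl, coeff_map, h.top F m e]; exact algHom_C _ _

variable (T S) in
/-- the substitution `Y ↦ R + n ^ lev Y` in a twist -/
def tsb (R : T.C → MvPolynomial S.W ℝ) (n : ℝ) (Ψ : T.Twd S) : T.Twd S := fun F =>
  MvPolynomial.C (MvPolynomial.C (n ^ T.lev F)⁻¹) * aeval (fun c => MvPolynomial.C (R c) +
    MvPolynomial.C (MvPolynomial.C (n ^ T.lev c)) * X c) (Ψ F)

theorem Adm.tsb (h : T.Adm S st Ψ) (h0 : ∀ c, 0 < T.lev c) {R : T.C → MvPolynomial S.W ℝ}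
    (hR : ∀ c, (R c).IsWeightedHomogeneous S.dg (T.lev c)) {n : ℝ} (hn : n ≠ 0) :
    T.Adm S st (T.tsb S R n Ψ) := by
  refine Adm.of_gr (fun F => ?_) (fun F => ?_) fun F m e => ?_
  · have k : ∀ (a b : ℕ) (m : S.W →₀ ℕ) (μ : T.C →₀ ℕ) m' μ',
        Finsupp.weight S.dg m + Finsupp.weight T.lev μ = a →
        Finsupp.weight S.dg m' + Finsupp.weight T.lev μ' = b →
        Finsupp.weight S.dg (m + m') + Finsupp.weight T.lev (μ + μ') = a + b := by
      intro a b m μ m' μ' x y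
      rw [map_add, map_add]
      omega
    refine (Gr.mon (r := fun m μ => Finsupp.weight S.dg m + Finsupp.weight T.lev μ = 0) 0 0 _
      (by simp)).mul (r' := fun m μ => Finsupp.weight S.dg m + Finsupp.weight T.lev μ = T.lev F) ?_
      fun _ _ _ _ x y => (k _ _ _ _ _ _ x y).trans (zero_add _)
    rw [(Ψ F).as_sum, map_sum]
    refine Gr.sum _ fun a ha => ?_
    rw [aeval_monomial, algebraMap_eq, Finsupp.prod]
    refine (grC (r := fun m μ => Finsupp.weight S.dg m + Finsupp.weight T.lev μ =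
      T.lev F - Finsupp.weight T.lev a) fun m z => by simpa using h.gr F a z).mul
      (Gr.prod (ρ := fun k m μ => Finsupp.weight S.dg m + Finsupp.weight T.lev μ = k) (by simp) k _
        fun c _ => Gr.pow (by simp) k (w := T.lev c)
          (gr_add (grC fun m z => by simpa using hR c z) ?_) (a c)) fun _ _ _ _ x y => ?_
    · rw [X, C_mul_monomial, mul_one]
      exact Gr.mon _ 0 _ (by simp [Finsupp.weight_single])
    · have := (h.le F a ha).1
      have e : ∑ c ∈ a.support, a c • T.lev c = Finsupp.weight T.lev a := by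
        rw [Finsupp.weight_apply, Finsupp.sum]
      rw [k _ _ _ _ _ _ x y, e]
      omega
  · exact (WL.aeval (fun m hm => (h.le F m hm).2) fun c _ =>
      (WL.const _).add ((WL.X le_rfl).cmul _)).cmul _
  · have a := Rf.Wt.aeval_sub (w' := T.lev) (F := fun c => MvPolynomial.C (R c) +
      MvPolynomial.C (MvPolynomial.C (n ^ T.lev c)) * X c)
      (G := fun c => MvPolynomial.C (MvPolynomial.C (n ^ T.lev c)) * X c) (fun c =>
        ⟨(Rf.Wt.cst (Nat.succ_pos _) _).add ((Rf.Wt.X c).C_mul _), (Rf.Wt.X c).C_mul _, by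
          rw [add_sub_cancel_right]; exact Rf.Wt.cst (h0 c) _⟩)
      (P := Ψ F) (n := T.lev F) fun m hm => Nat.lt_succ_of_le (h.le F m hm).1
    have b := notMem_support_iff.1 fun z => (a m z).ne e
    rw [coeff_sub, sub_eq_zero, coeff_scale, h.top F m e] at b
    simp only [map_pow] at b
    rw [prod_pow_weight, e] at b
    rw [TS.tsb, coeff_C_mul]
    simp only [map_pow]
    rw [b, ← map_pow, ← map_mul, ← map_mul, mul_left_comm, inv_mul_cancel₀ (pow_ne_zero _ hn),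
      mul_one]

theorem eval_tsb (R Y : T.C → MvPolynomial S.W ℝ) (n : ℝ) (F : T.C) :
    eval Y (T.tsb S R n Ψ F) = MvPolynomial.C (n ^ T.lev F)⁻¹ *
      eval (fun c => R c + MvPolynomial.C (n ^ T.lev c) * Y c) (Ψ F) := by
  rw [tsb, map_mul, eval_C, Rf.eval_aeval]
  simp only [map_add, map_mul, eval_C, eval_X]

theorem eval_tdl (Y : T.C → MvPolynomial S.W ℝ) (F : T.C) :
    eval (fun c => S.dil d (Y c)) (T.tdl S d Ψ F) = S.dil d (eval Y (Ψ F)) := by
  rw [tdl, eval_map]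
  exact (eval₂_comp (S.dil d).toRingHom Y (Ψ F)).symm

theorem dil_Yw (y : T.Cw S → ℝ) (F : T.C) :
    S.dil d (T.Yw S y F) = T.Yw S (fun p => d p.1.2 * y p) F := by
  simp only [Yw, map_sum, map_mul, algHom_C, Sh.dil, aeval_X, algebraMap_eq]
  exact sum_congr rfl fun _ _ => by ring

theorem Yw_lin (y y' : T.Cw S → ℝ) (a : ℕ → ℝ) (F : T.C) :
    T.Yw S y F + MvPolynomial.C (a (T.lev F)) * T.Yw S y' F =
      T.Yw S (fun p => y p + a (S.dg p.1.2) * y' p) F := by
  simp only [Yw, mul_sum, ← sum_add_distrib, map_add, map_mul]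
  refine sum_congr rfl fun p hp => ?_
  rw [← lev_cw, (mem_filter.1 hp).2]
  ring

variable (T S) in
/-- the twist of the residue class `r`, after the dilation `d` -/
def trs (d : S.W → ℝ) (n : ℝ) (r : T.Cw S → ℝ) (Ψ : T.Twd S) : T.Twd S :=
  T.tsb S (T.Yw S fun p => d p.1.2 * r p) n (T.tdl S d Ψ)

theorem Adm.trs (h : T.Adm S st Ψ) (h0 : ∀ c, 0 < T.lev c) (d : S.W → ℝ) {n : ℝ} (hn : n ≠ 0)
    (r : T.Cw S → ℝ) : T.Adm S st (T.trs S d n r Ψ) := (h.tdl d).tsb h0 (fun _ => Yw_dg _ _) hn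

theorem trs_u (hd : S.Chr d) {n : ℝ} {N : S.W → ℝ} (hN : ∀ w, d w * N w = n ^ S.dg w)
    (r y : T.Cw S → ℝ) (p : T.Cw S) : (T.tw S (T.trs S d n r Ψ)).u y p =
      d p.1.2 / n ^ S.dg p.1.2 * (T.tw S Ψ).u (fun p : T.Cw S => r p + N p.1.2 * y p) p := by
  have e : (fun c => T.Yw S (fun p => d p.1.2 * r p) c + MvPolynomial.C (n ^ T.lev c) *
      T.Yw S y c) = fun c => S.dil d (T.Yw S (fun p => r p + N p.1.2 * y p) c) := funext fun c => by
    rw [dil_Yw, Yw_lin _ _ (n ^ ·)]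
    exact congrArg (T.Yw S · c) (funext fun p => by rw [← hN]; ring)
  rw [tw_u, tw_u, trs, eval_tsb, e, eval_tdl, Sh.cf_C_mul, hd.cf, lev_cw]
  ring

theorem Adm.setK (h : T.Adm S st Ψ) (K : Matrix S.W S.W ℝ) : T.Adm (S.setK K) st Ψ :=
  ⟨h.gr, h.le, h.top⟩

theorem tw_setK (K : Matrix S.W S.W ℝ) :
    T.tw (S.setK K) Ψ = (T.tw S Ψ).setK (T.kw S T.K K) := rfl

variable {n : ℝ} {N : S.W → ℤ} {K : Matrix S.W S.W ℝ}

theorem trs_ne (hn : n ≠ 0) (hN : ∀ w, d w * N w = n ^ S.dg w) (w : S.W) :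
    (N w : ℝ) ≠ 0 ∧ d w / n ^ S.dg w = (N w : ℝ)⁻¹ :=
  ⟨right_ne_zero_of_mul ((hN w).trans_ne (pow_ne_zero _ hn)), by
    rw [← hN, div_mul_cancel_left₀ (left_ne_zero_of_mul ((hN w).trans_ne (pow_ne_zero _ hn)))]⟩

theorem trs_K (hn : n ≠ 0) (hN : ∀ w, d w * N w = n ^ S.dg w)
    (hK : ∀ w w', K w w' = d w / n ^ S.dg w * S.K w w' * (d w' / n ^ S.dg w')) :
    T.kw S T.K K = diagonal (fun p : T.Cw S => (N p.1.2 : ℝ)⁻¹) * T.kw S T.K S.K *
      diagonal fun p : T.Cw S => (N p.1.2 : ℝ)⁻¹ := by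
  ext p p'
  rw [mul_diagonal, diagonal_mul, kw, kw, of_apply, of_apply, hK, (trs_ne hn hN _).2,
    (trs_ne hn hN _).2]
  ring

theorem trs_wt (hT : T.K.PosDef) (o : S.Ok) (hd : S.Chr d) (hn : n ≠ 0)
    (hN : ∀ w, d w * N w = n ^ S.dg w)
    (hK : ∀ w w', K w w' = d w / n ^ S.dg w * S.K w w' * (d w' / n ^ S.dg w'))
    (r y : T.Cw S → ℤ) : (T.tw (S.setK K) (T.trs S d n (zc r) Ψ)).wt y =
      (T.tw S Ψ).wt fun p : T.Cw S => r p + N p.1.2 * y p := by
  have a : (T.tw S (T.trs S d n (zc r) Ψ)).u (zc y) = fun p : T.Cw S => (N p.1.2 : ℝ)⁻¹ *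
      (T.tw S Ψ).u (zc fun p : T.Cw S => r p + N p.1.2 * y p) p := funext fun p : T.Cw S => by
    refine (trs_u (Ψ := Ψ) hd hN (zc r) (zc y) p).trans ?_
    rw [(trs_ne hn hN _).2]
    exact congrArg (fun z => _ * (T.tw S Ψ).u z p) (funext fun q => by simp [zc])
  refine (congrArg₂ (fun (M : Matrix (T.Cw S) (T.Cw S) ℝ) x => gs M⁻¹ x) (trs_K hn hN hK) a).trans ?_
  exact gs_diag (kw_posDef hT o.pd).det_pos.ne' (fun p => inv_ne_zero (trs_ne hn hN _).1) _

theorem trs_Zc (hc : T.Tri) (h : T.Adm S st Ψ) (o : S.Ok) (hn : n ≠ 0)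
    (hN : ∀ w, d w * N w = n ^ S.dg w)
    (hK : ∀ w w', K w w' = d w / n ^ S.dg w * S.K w w' * (d w' / n ^ S.dg w'))
    (r : T.Cw S → ℝ) : (T.tw (S.setK K) (T.trs S d n r Ψ)).Zc =
      (T.tw S Ψ).Zc / |∏ p : T.Cw S, (N p.1.2 : ℝ)| := by
  rw [Zc_eq, Zc_eq]
  change dt (T.kw S T.K K)⁻¹ / |(T.tw S (T.trs S d n r Ψ)).A.det| = _
  rw [tw_A (h.trs hc.lev_pos d hn _) o, tw_A h o, trs_K hn hN hK, dt_diag, prod_inv_distrib,
    abs_inv, div_right_comm, div_eq_inv_mul _ |∏ c, _|]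
  rfl

/-- **residues on a twisted law**: `y = r + N y'`, `d N = n ^ dg`, covariance divided by `N` -/
theorem tw_resp (hc : T.Cl) (h : T.Adm S st Ψ) (o : S.Ok) (hd : S.Chr d) (hn : n ≠ 0)
    (hN : ∀ w, d w * N w = n ^ S.dg w)
    (hK : ∀ w w', K w w' = d w / n ^ S.dg w * S.K w w' * (d w' / n ^ S.dg w'))
    {g : (T.Cw S → ℤ) → ℝ} (hg : Bb g) : ∃ r : T.Cw S → ℤ, (T.tw S Ψ).N g ≤
      (T.tw (S.setK K) (T.trs S d n (zc r) Ψ)).N fun y => g fun p => r p + N p.1.2 * y p := by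
  obtain ⟨r, hr⟩ := (tw_tri hc h o).res_pickZ (n := fun p : T.Cw S => N p.1.2)
    (fun p => Int.cast_ne_zero.1 (trs_ne hn hN _).1) hg
  exact ⟨r, hr.trans_eq (congrArg₂ (· / ·) (tsum_congr fun y => congrArg (· * _)
    (trs_wt hc.1.pd o hd hn hN hK r y).symm) (trs_Zc hc.1 h o hn hN hK _).symm)⟩

theorem trs_ok (o : S.Ok) (hn : n ≠ 0) (hN : ∀ w, d w * N w = n ^ S.dg w)
    (hK : ∀ w w', K w w' = d w / n ^ S.dg w * S.K w w' * (d w' / n ^ S.dg w')) :
    (S.setK K).Ok := by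
  refine o.setK ?_ fun w w' z => o.blk w w' fun e => z (by rw [hK, e, mul_zero, zero_mul])
  have := posDef_conj o.pd (B := diagonal fun w => (N w : ℝ)⁻¹) (mulVec_injective_iff_isUnit.2
    ((isUnit_iff_isUnit_det _).2 (by
      rw [det_diagonal]
      exact (prod_ne_zero_iff.2 fun w _ => inv_ne_zero (trs_ne hn hN w).1).isUnit)))
  convert this using 1
  ext w w'
  rw [diagonal_transpose, mul_diagonal, diagonal_mul, hK, (trs_ne hn hN _).2, (trs_ne hn hN _).2]

end TS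

end Crest.Agent.N49.Tw

end
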