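import Crest.Agent.N49.Rf.Ext
import Crest.Agent.N49.Rf.Twr
import Crest.Agent.N49.Ho.Adm
import Crest.Agent.N49.Tw.Brg
import Crest.Agent.N49.Tw.Csem

/-!
# Row 49 (helper62): new words and new families enter a twisted law by exact partitions of unity
-/

set_option autoImplicit false

open Matrix MvPolynomial Finset

noncomputable section

namespace Crest.Agent.N49.Tw.TS

open Po Ho

variable {σ τ : Type} {T : TS σ} {st : T.C → ℕ} {M : ℕ}

theorem Stg.det_A (h : T.Stg st M) : (T.stg st).A.det = T.A.det := by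
  have a : T.A.BlockTriangular (OrderDual.toDual ∘ st) := fun c c' k => by
    by_contra z
    have e : T.lev c = T.lev c' := by_contra fun e => z (T.blk_A c c' e)
    rw [TS.A, of_apply, if_pos e] at z
    have := h.wt c (mem_support_iff.2 z)
    rw [Finsupp.weight_single, one_smul] at this
    exact absurd k (not_lt.2 this)
  have b : Matrix.BlockTriangular (m := T.C) (T.stg st).A (OrderDual.toDual ∘ st) :=
    fun c c' k => by rw [h.A, if_neg fun e => k.ne (congrArg OrderDual.toDual e).symm]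
  refine b.det.trans (Eq.trans (prod_congr rfl fun t _ => congrArg _ ?_) a.det.symm)
  ext c c'
  exact (h.A _ _).trans (if_pos (OrderDual.toDual.injective (c.2.trans c'.2.symm)))

theorem Stg.Zc (h : T.Stg st M) : (T.stg st).Zc = T.Zc := by rw [Zc_eq, Zc_eq, h.det_A]; rfl

variable [DecidableEq σ] {S : Sh σ τ} {Ψ : T.Twd S}

theorem tw_N_off (o : S.Ok) (x : T.Cw S → ℝ) (g : (T.Cw S → ℤ) → ℝ) :
    (T.tw S (ot Ψ x)).N g = ((T.tw S Ψ).off x).N g :=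
  congrArg (fun Φ => ((T.tw S Ψ).setΦ Φ).N g) (off_Φ o Ψ x)

theorem tw_N_tw0 (g : (T.Cw S → ℤ) → ℝ) : (T.tw S (T.tw0 S)).N g = (T.sh S).N g :=
  congrArg (fun Φ => ((T.sh S).setΦ Φ).N g)
    (funext fun p => congrArg (S.cf _ p.1.2) (eval₂_tw0 _ _))

section words
variable {p : S.W → Prop} [DecidablePred p]

theorem ren_sub' (h : S.Idl p) (Ψ : T.Twd S) :
    (T.tw (S.sub p) (T.tp S (S.sub p) (S.prj p) Ψ)).Ren
      ((T.tw S Ψ).cut (fun c => p c.1.2) 0) (T.eS S p) :=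
  ⟨fun _ => rfl, (ren_sub h T.lev Ψ).Φ, fun _ _ => rfl⟩

theorem prj_cd (w' : (S.sub p).W) (w : S.W) (z : S.prj p w' w ≠ 0) : (S.sub p).cd w' = S.cd w :=
  congrArg S.cd (of_not_not fun e => z (if_neg fun k => e k.symm))

theorem tp_ot {x : T.Cw S → ℝ} (hx : ∀ c, p c.1.2 → x c = 0) :
    T.tp S (S.sub p) (S.prj p) (ot Ψ x) = T.tp S (S.sub p) (S.prj p) Ψ := funext fun F => by
  have : T.hmM S (S.sub p) ((S.prj p).map (Int.cast : ℤ → ℝ)) *ᵥ x = 0 := funext fun q => by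
    rw [hmM_mulVec]
    refine sum_eq_zero fun c _ => ?_
    by_cases e : c.1.2 = q.1.2.1
    · rw [hx c (e ▸ q.1.2.2), mul_zero]
    · simp [Sh.prj, e]
  rw [tp, tp, ot, map_sub, map_C, Sh.pu_eq, hA_Yw prj_cd, this]
  simp [Yw]

/-- **new words** -/
theorem ext_sub (hc : T.Cl) (h : T.Adm S st Ψ) (o : S.Ok) (hp : S.Idl p)
    {g : (T.Cw (S.sub p) → ℤ) → ℝ} (hg : Bb g) : ∃ x : T.Cw S → ℝ, (∀ c, p c.1.2 → x c = 0) ∧
      (T.tw (S.sub p) (T.tp S (S.sub p) (S.prj p) Ψ)).N g ≤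
        (T.tw S (ot Ψ x)).N fun y => g (T.rs S p y) := by
  obtain ⟨x, hx, k⟩ := (tw_tri hc h o).ext_ren (tw_low hp) (ren_sub' hp Ψ) hg
  exact ⟨x, hx, k.trans_eq (tw_N_off o x _).symm⟩

theorem prj_mul : S.prj p * (S.prj p)ᵀ = 1 := by
  ext w w'
  simp only [mul_apply, Sh.prj, transpose_apply, of_apply, ite_mul, one_mul, zero_mul,
    sum_ite_eq', mem_univ, if_true, one_apply]
  exact if_congr Subtype.ext_iff.symm rfl rfl

/-- **new words**, starting from a twist on the quotient -/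
theorem ext_sub' (hc : T.Cl) {Ψ0 : T.Twd (S.sub p)} (h : T.Adm (S.sub p) st Ψ0) (o : S.Ok)
    (hp : S.Idl p) {g : (T.Cw (S.sub p) → ℤ) → ℝ} (hg : Bb g) : ∃ Ψ : T.Twd S, T.Adm S st Ψ ∧
      T.tp S (S.sub p) (S.prj p) Ψ = Ψ0 ∧
      (T.tw (S.sub p) Ψ0).N g ≤ (T.tw S Ψ).N fun y => g (T.rs S p y) := by
  have a : T.Adm S st (T.tp (S.sub p) S (S.prj p)ᵀ Ψ0) := h.tp fun w w' z => by
    rw [← Sh.cd_degree, ← Sh.cd_degree, prj_cd w' w z]
  have e : T.tp S (S.sub p) (S.prj p) (T.tp (S.sub p) S (S.prj p)ᵀ Ψ0) = Ψ0 := by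
    rw [tp_tp, prj_mul, tp_one]
  obtain ⟨x, hx, k⟩ := ext_sub hc a o hp hg
  rw [e] at k
  exact ⟨_, adm_ot hc.1 a x, (tp_ot hx).trans e, k⟩

end words

section fam
variable {p : T.C → Prop} [DecidablePred p]

theorem tw_low_fam (hΨ : ∀ F, p F → ∀ c ∈ (Ψ F).vars, p c) :
    (T.tw S Ψ).Low fun q : T.Cw S => p q.1.1 := fun q hq q' k => hΨ _ hq _ (tw_vars q q' k).1

theorem ren_fam (Ψ : T.Twd S) : ((T.cut p 0).tw S (T.rt S p Ψ)).Ren
    ((T.tw S Ψ).cut (fun q : T.Cw S => p q.1.1) 0) (cfe S p _ fun _ => Iff.rfl) where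
  lev _ := rfl
  K _ _ := rfl
  Φ := fun c : (T.cut p 0).Cw S => MvPolynomial.funext fun y => by
    refine ((T.tw S Ψ).u_cut (fun q : T.Cw S => p q.1.1) 0 y _).trans ?_
    refine (congrArg (fun b => (T.tw S Ψ).u (glue _ y b) _) zc_zero).trans ?_
    exact (u_glue (fun _ => Iff.rfl) y _).trans
      ((tw_u (T := T.cut p 0) (Ψ := T.rt S p Ψ) _ c).symm.trans (eval_rename _ _ _).symm)

theorem rt_ot {x : T.Cw S → ℝ} (hx : ∀ c, p c.1.1 → x c = 0) :
    T.rt S p (ot Ψ x) = T.rt S p Ψ := funext fun F => by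
  have : T.Yw S x F.1 = 0 := sum_eq_zero fun c hc => by
    rw [hx c ((mem_filter.1 hc).2 ▸ F.2), map_zero, zero_mul]
  rw [rt, rt, ot, this, map_zero, sub_zero]

/-- **new families** -/
theorem ext_fam (hc : T.Cl) (h : T.Adm S st Ψ) (o : S.Ok)
    (hΨ : ∀ F, p F → ∀ c ∈ (Ψ F).vars, p c) {g : ((T.cut p 0).Cw S → ℤ) → ℝ} (hg : Bb g) :
    ∃ x : T.Cw S → ℝ, (∀ c, p c.1.1 → x c = 0) ∧ ((T.cut p 0).tw S (T.rt S p Ψ)).N g ≤
      (T.tw S (ot Ψ x)).N fun y => g fun c => y ⟨(c.1.1.1, c.1.2), c.2⟩ := by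
  obtain ⟨x, hx, k⟩ := (tw_tri hc h o).ext_ren (tw_low_fam hΨ) (ren_fam Ψ) hg
  exact ⟨x, hx, k.trans_eq (tw_N_off o x _).symm⟩

/-- **new families**, starting from a twist of the old families -/
theorem ext_fam' (hs : T.Stg st M) (o : S.Ok) (hp : T.Low p) {Ψ0 : (T.cut p 0).Twd S}
    (h : (T.cut p 0).Adm S (fun F => st F.1) Ψ0) {g : ((T.cut p 0).Cw S → ℤ) → ℝ} (hg : Bb g) :
    ∃ Ψ : T.Twd S, T.Adm S st Ψ ∧ T.rt S p Ψ = Ψ0 ∧ ((T.cut p 0).tw S Ψ0).N g ≤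
      (T.tw S Ψ).N fun y => g fun c => y ⟨(c.1.1.1, c.1.2), c.2⟩ := by
  have a := h.xt hs o hp
  obtain ⟨x, hx, k⟩ := ext_fam hs.cl a o (fun F hF c hc => by
    rw [xt, dif_pos hF] at hc
    obtain ⟨i, -, rfl⟩ := mem_vars_rename _ _ hc
    exact i.2) hg
  rw [rt_xt] at k
  exact ⟨_, adm_ot hs.cl.1 a x, (rt_ot hx).trans (rt_xt p Ψ0), k⟩

end fam

theorem lw_Zc_tw (hs : T.Stg st M) (h : T.Adm S st Ψ) (o : S.Ok) :
    (T.lw S st Ψ).Zc = (T.tw S Ψ).Zc := by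
  have a : (T.tw S Ψ).A.BlockTriangular (OrderDual.toDual ∘ fun p : T.Cw S => st p.1.1) :=
    fun c c' k => by
      rw [tw_A h o]
      refine mul_eq_zero_of_left (by_contra fun z => ?_) _
      have e : T.lev c.1.1 = T.lev c'.1.1 := by_contra fun e => z (T.blk_A _ _ e)
      rw [TS.A, of_apply, if_pos e] at z
      have := hs.wt _ (mem_support_iff.2 z)
      rw [Finsupp.weight_single, one_smul] at this
      exact absurd k (not_lt.2 this)
  have b : Matrix.BlockTriangular (m := T.Cw S) (T.lw S st Ψ).A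
      (OrderDual.toDual ∘ fun p : T.Cw S => st p.1.1) := fun c c' k => by
    rw [lw_A hs h o]
    refine mul_eq_zero_of_left ?_ _
    rw [hs.A, if_neg fun e => k.ne (congrArg OrderDual.toDual e).symm]
  have e : (T.lw S st Ψ).A.det = (T.tw S Ψ).A.det := by
    refine b.det.trans (Eq.trans (prod_congr rfl fun t _ => congrArg _ ?_) a.det.symm)
    ext c c'
    rw [lw_A hs h o, tw_A h o]
    exact congrArg (· * _)
      ((hs.A _ _).trans (if_pos (OrderDual.toDual.injective (c.2.trans c'.2.symm))))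
  rw [Zc_eq, Zc_eq, e]
  rfl

theorem lw_N (hs : T.Stg st M) (h : T.Adm S st Ψ) (o : S.Ok) (g : (T.Cw S → ℤ) → ℝ) :
    (T.lw S st Ψ).N g = (T.tw S Ψ).N g := congrArg (_ / ·) (lw_Zc_tw hs h o)

theorem lw_mas (hs : T.Stg st M) (h : T.Adm S st Ψ) (o : S.Ok) {η : ℝ} :
    (T.lw S st Ψ).Mas η ↔ (T.tw S Ψ).Mas η := by rw [Mas, Mas, lw_Zc_tw hs h o, lw_Z]

end Crest.Agent.N49.Tw.TS

end
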