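import Crest.Agent.N49.Rf.Res

/-!
# Row 49 (helper62): narrowing and residues below a level, in one move
-/

set_option autoImplicit false

open Matrix MvPolynomial Finset

noncomputable section

namespace Crest.Agent.N49.Tw

open Po

namespace TS

variable {σ : Type} {T : TS σ} {l n : ℕ} {lam : ℝ}

/-- the moduli: `n` below the level `l` -/
def md (T : TS σ) (l n : ℕ) (c : T.C) : ℕ := if T.lev c < l then n else 1
/-- the narrowing: `lam` below the level `l` -/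
def nw (l : ℕ) (lam : ℝ) (j : ℕ) : ℝ := if j < l then lam else 1

/-- narrow the levels `< l` by `lam` with offsets `x`, pass to the residue class `r` modulo `n` -/
def nr (T : TS σ) (l : ℕ) (lam : ℝ) (n : ℕ) (x : T.C → ℝ) (r : T.C → ℤ) : TS σ :=
  ((T.shr (nw l lam)).off x).res (T.md l n) r

variable {x : T.C → ℝ} {r : T.C → ℤ}

theorem md_pos (hn : 0 < n) (c : T.C) : 0 < T.md l n c := by
  unfold md; split_ifs; exacts [hn, one_pos]
theorem md_lt {c : T.C} (h : T.lev c < l) : T.md l n c = n := if_pos h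
theorem md_ge {c : T.C} (h : l ≤ T.lev c) : T.md l n c = 1 := if_neg h.not_gt
theorem nw_pos (h : 0 < lam) (j : ℕ) : 0 < nw l lam j := by
  unfold nw; split_ifs; exacts [h, one_pos]
theorem nw_le (h : lam ≤ 1) (j : ℕ) : nw l lam j ≤ 1 := by
  unfold nw; split_ifs; exacts [h, le_rfl]
theorem nw_lt {j : ℕ} (h : j < l) : nw l lam j = lam := if_pos h
theorem nw_ge {j : ℕ} (h : l ≤ j) : nw l lam j = 1 := if_neg h.not_gt

theorem nr_lev : (T.nr l lam n x r).lev = T.lev := rfl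
theorem nr_R : (T.nr l lam n x r).R = T.R := rfl
theorem nr_K : (T.nr l lam n x r).K = (T.shr (nw l lam)).K := rfl

theorem nr_K_one (h : T.K = 1) :
    (T.nr l lam n x r).K = diagonal fun c : T.C => nw l lam (T.lev c) ^ 2 := by
  refine (T.shr_K _).trans ?_
  rw [h, Matrix.mul_one, diagonal_mul_diagonal]
  exact congrArg diagonal (funext fun _ => (sq _).symm)

theorem nr_u (y : T.C → ℝ) :
    (T.nr l lam n x r).u y = (T.u fun c => r c + T.md l n c * y c) - x :=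
  (((T.shr (nw l lam)).off x).res_u (T.md l n) r y).trans ((T.shr (nw l lam)).off_u x _)

theorem zc_emb {C : Type} (n : C → ℕ) (r y : C → ℤ) :
    zc (emb n r y) = fun c => (r c : ℝ) + n c * zc y c := by
  funext c; simp [zc, emb]

theorem nr_u_zc (y : T.C → ℤ) :
    (T.nr l lam n x r).u (zc y) = T.u (zc (emb (T.md l n) r y)) - x := by
  rw [zc_emb]; exact nr_u _

theorem Tri.nr0 (h : T.Tri) (h0 : 0 < lam) (x : T.C → ℝ) : ((T.shr (nw l lam)).off x).Tri :=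
  (h.shr fun j => (nw_pos h0 j).ne').off x

theorem Tri.nr (h : T.Tri) (h0 : 0 < lam) (hn : 0 < n) (x : T.C → ℝ) (r : T.C → ℤ) :
    (T.nr l lam n x r).Tri := (h.nr0 h0 x).res (md_pos hn) r

theorem Tri.nr_D (h : T.Tri) (h0 : 0 < lam) (hn : 0 < n) : (T.nr l lam n x r).D =
    diagonal (fun c => nw l (lam / n) (T.lev c)) * T.D * diagonal fun c => nw l (lam / n) (T.lev c) := by
  refine ((h.nr0 h0 x).res_D (md_pos hn) r).trans ?_
  rw [((T.shr (nw l lam)).off_D x).trans (T.shr_D _)]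
  refine funext fun c : T.C => funext fun c' : T.C => ?_
  change (diagonal (fun c => (T.md l n c : ℝ)⁻¹) * (diagonal (fun c => nw l lam (T.lev c)) * T.D *
    diagonal fun c => nw l lam (T.lev c)) * diagonal (fun c => (T.md l n c : ℝ)⁻¹) :
      Matrix T.C T.C ℝ) c c' = _
  have e : ∀ c, nw l (lam / n) (T.lev c) = (T.md l n c : ℝ)⁻¹ * nw l lam (T.lev c) := fun c => by
    unfold nw md
    split_ifs
    · rw [div_eq_inv_mul]
    · simp
  simp only [mul_diagonal, diagonal_mul, e]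
  ring

theorem Tri.nr_ct_eq (h : T.Tri) (h0 : 0 < lam) (hn : 0 < n) :
    (T.nr l lam n x r).ct = (T.shr (nw l (lam / n))).ct := by
  unfold ct
  rw [h.nr_D h0 hn, shr_D]
  rfl

theorem Tri.nr_ct_ge (h : T.Tri) (h0 : 0 < lam) (hn : 0 < n) {j : ℕ} (hj : l ≤ j) :
    (T.nr l lam n x r).ct j = T.ct j := by
  rw [h.nr_ct_eq h0 hn, shr_ct_one _ (nw_ge hj)]

theorem Tri.nr_ct_lt (h : T.Tri) (h0 : 0 < lam) (h1 : lam ≤ 1) (hn : 0 < n) {j : ℕ} (hj : j < l) :
    (T.nr l lam n x r).ct j ≤ (n / lam) ^ T.R j * T.ct j := by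
  have n1 : (1 : ℝ) ≤ n := Nat.one_le_cast.2 hn
  have := h.shr_ct (κ := nw l (lam / n)) (l := j) (nw_pos (by positivity) j)
    (nw_le ((div_le_one (by positivity)).2 (h1.trans n1)) j)
  rwa [nw_lt hj, inv_div, ← h.nr_ct_eq (x := x) (r := r) h0 hn] at this

/-- the dual norms on the levels `≥ l` are unchanged -/
theorem Tri.nr_qf (h : T.Tri) (h0 : 0 < lam) (hn : 0 < n) {k : T.C → ℝ}
    (hk : ∀ c, k c ≠ 0 → l ≤ T.lev c) : qf (T.nr l lam n x r).D k = qf T.D k := by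
  rw [h.nr_D h0 hn]
  have := qf_conj T.D (diagonal fun c => nw l (lam / n) (T.lev c)) k
  rw [diagonal_transpose] at this
  refine this.trans (congrArg _ (funext fun c => ?_))
  rw [mulVec_diagonal]
  by_cases e : k c = 0
  · rw [e, mul_zero]
  · rw [nw_ge (hk c e), one_mul]

/-- the centres on the levels `≥ l` are unchanged -/
theorem Tri.nr_th (h : T.Tri) (h0 : 0 < lam) (hn : 0 < n)
    (hx : ∀ c, l ≤ T.lev c → x c = 0 ∧ r c = 0) (y : T.C → ℤ) {c : T.C} (hc : l ≤ T.lev c) :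
    (T.nr l lam n x r).th (zc y) c = T.th (zc (emb (T.md l n) r y)) c := by
  refine ((h.nr0 h0 x).res_th (md_pos hn) r (zc y) c).trans ?_
  refine (congrArg (fun t => (t - (r c : ℝ)) / (T.md l n c : ℝ))
    (congrFun ((T.shr (nw l lam)).off_th x _) c)).trans ?_
  rw [zc_emb]
  change ((T.th fun c => (r c : ℝ) + T.md l n c * zc y c) c + (T.A⁻¹ *ᵥ x) c - r c) /
    T.md l n c = _
  have : (T.A⁻¹ *ᵥ x) c = 0 := sum_eq_zero fun j _ => by
    by_cases e : T.lev c = T.lev j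
    · exact mul_eq_zero_of_right _ (hx j (e ▸ hc)).1
    · exact mul_eq_zero_of_left (blk_inv T.blk_A c j e) _
  simp [this, md_ge hc, (hx c hc).2]

theorem Tri.nr_ph (h : T.Tri) (h0 : 0 < lam) (hn : 0 < n)
    (hx : ∀ c, l ≤ T.lev c → x c = 0 ∧ r c = 0) (y : T.C → ℤ) {k : T.C → ℤ}
    (hk : ∀ c, k c ≠ 0 → l ≤ T.lev c) :
    zc k ⬝ᵥ (T.nr l lam n x r).th (zc y) = zc k ⬝ᵥ T.th (zc (emb (T.md l n) r y)) :=
  sum_congr rfl fun c _ => by
    by_cases e : k c = 0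
    · simp [zc, e]
    · exact congrArg _ (h.nr_th h0 hn hx y (hk c e))

theorem emb_ge (hx : ∀ c, l ≤ T.lev c → x c = 0 ∧ r c = 0) (y : T.C → ℤ) {c : T.C}
    (hc : l ≤ T.lev c) : emb (T.md l n) r y c = y c := by
  simp [emb, md_ge hc, (hx c hc).2]

theorem emb_md (hx : ∀ c, l ≤ T.lev c → x c = 0 ∧ r c = 0) (y : T.C → ℤ) :
    emb (T.md l n) r y = fun c => if T.lev c < l then r c + n * y c else y c := funext fun c => by
  split_ifs with e
  · rw [emb, md_lt e]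
  · exact emb_ge hx y (not_lt.1 e)

/-- **NAR + RES** -/
theorem Tri.nr_pick (h : T.Tri) (l : ℕ) (h0 : 0 < lam) (h1 : lam ≤ 1) (hn : 0 < n)
    {g : (T.C → ℤ) → ℝ} (hg : Bb g) : ∃ x r, (∀ c, l ≤ T.lev c → x c = 0 ∧ r c = 0) ∧
      T.N g ≤ (T.nr l lam n x r).N fun y => g (emb (T.md l n) r y) := by
  obtain ⟨x, hx, H⟩ := h.nar_shr (nw_pos (l := l) h0) (nw_le h1) hg
  obtain ⟨r, hr, H'⟩ := (h.nr0 (l := l) h0 x).res_pick (md_pos (l := l) hn) hg
  refine ⟨x, r, fun c hc => ⟨hx c (nw_ge hc), ?_⟩, H.trans H'⟩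
  have := hr c
  change 0 ≤ r c ∧ r c < (T.md l n c : ℕ) at this
  rw [md_ge hc] at this
  omega

end TS

/-- the same move for containers -/
def Ctr.nr (V : Ctr) (l : ℕ) (lam : ℝ) (n : ℕ) (x : V.T.C → ℝ) (r : V.T.C → ℤ) : Ctr where
  T := V.T.nr l lam n x r
  π := fun c : V.T.C => V.T.md l n c * V.π c
  c := V.c + V.π ⬝ᵥ r

variable {V : Ctr} {s l n : ℕ} {lam : ℝ}

theorem Ctr.nr_x (x : V.T.C → ℝ) (r y : V.T.C → ℤ) :
    (V.nr l lam n x r).x y = V.x (emb (V.T.md l n) r y) := by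
  change V.c + V.π ⬝ᵥ r + ∑ c, V.T.md l n c * V.π c * y c = V.c + ∑ c, V.π c * (r c + _ * y c)
  simp only [mul_add, sum_add_distrib, dotProduct, add_assoc, mul_assoc, mul_left_comm]

theorem Ctr.Ok.nr (h : V.Ok s) (h0 : 0 < lam) (hn : 0 < n) (x : V.T.C → ℝ) (r : V.T.C → ℤ) :
    (V.nr l lam n x r).Ok s :=
  ⟨h.1.nr h0 hn x r, h.2.1, fun c hc => h.2.2 c (right_ne_zero_of_mul hc)⟩

theorem Ctr.Ok.nr_π (h : V.Ok s) (hl : 1 < l) (x : V.T.C → ℝ) (r : V.T.C → ℤ) :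
    (V.nr l lam n x r).π = (n : ℤ) • V.π := funext fun c : V.T.C => by
  change (V.T.md l n c : ℤ) * V.π c = n * V.π c
  by_cases e : V.π c = 0
  · simp [e]
  · rw [TS.md_lt (by rw [h.2.2 c e]; exact hl)]

theorem Ctr.Ok.nr_pick (h : V.Ok s) (l : ℕ) (h0 : 0 < lam) (h1 : lam ≤ 1) (hn : 0 < n)
    (A : Set ℤ) {ε : ℝ} (hε : 0 < ε) : ∃ x r, (∀ c, l ≤ V.T.lev c → x c = 0 ∧ r c = 0) ∧
      V.den A - ε ≤ (V.nr l lam n x r).den A ∧
      ε * (V.T.Z / V.T.Zc) ≤ (1 + ε) * ((V.nr l lam n x r).T.Z / (V.nr l lam n x r).T.Zc) := by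
  have a0 := ind_nonneg {y | V.x y ∈ A}
  have a1 := ind_le {y | V.x y ∈ A}
  obtain ⟨x, r, hx, H⟩ := h.1.nr_pick l h0 h1 hn (TS.bb_pick a0 a1 (V.den A) ε)
  obtain ⟨H1, H2⟩ := h.1.pick (h.1.nr h0 hn x r) a0 a1 hε H
  refine ⟨x, r, hx, H1.trans_eq (congrArg (V.T.nr l lam n x r).E (funext fun y => ?_)), H2⟩
  have e : {y | (V.nr l lam n x r).x y ∈ A} = emb (V.T.md l n) r ⁻¹' {y | V.x y ∈ A} :=
    Set.ext fun y => iff_of_eq (congrArg (· ∈ A) (Ctr.nr_x x r y))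
  rw [e]
  rfl

end Crest.Agent.N49.Tw

end
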