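import Crest.Agent.N49.Rf.Defs
import Crest.Agent.N49.Rf.Nr
import Crest.Agent.N49.Sp.Sp2

/-!
# Row 49 (helper52): the rules of the semantic level-one cost of a typed structure
-/

set_option autoImplicit false

open Matrix Finset

noncomputable section

namespace Crest.Agent.N49.Tw.TS

open Po

variable {σ : Type} {T : TS σ}

theorem g1_nonneg (T : TS σ) (π : T.C → ℤ) : 0 ≤ T.g1 π := Sp.gk_nonneg _ _

theorem Tri.g1_le_one (h : T.Tri) (π : T.C → ℤ) : T.g1 π ≤ 1 := Sp.gk_le_one (h.pd_Dl 1).inv _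

/-- only the kernel on level one matters -/
theorem Tri.g1_mono (h : T.Tri) {π π' : T.C → ℤ}
    (k : ∀ n : {c // T.lev c = 1} → ℤ, (fun c : {c // T.lev c = 1} => π' c.1) ⬝ᵥ n = 0 →
      (fun c : {c // T.lev c = 1} => π c.1) ⬝ᵥ n = 0) : T.g1 π' ≤ T.g1 π :=
  Sp.gk_mono_set (h.pd_Dl 1).inv k

theorem g1_congr (T : TS σ) {π π' : T.C → ℤ} (k : ∀ c, T.lev c = 1 → π c = π' c) :
    T.g1 π = T.g1 π' := by
  unfold g1
  rw [show (fun c : {c // T.lev c = 1} => π c.1) = fun c : {c // T.lev c = 1} => π' c.1 from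
    funext fun c => k _ c.2]

theorem g1_smul (T : TS σ) {n : ℤ} (hn : n ≠ 0) (π : T.C → ℤ) : T.g1 (n • π) = T.g1 π := by
  unfold g1
  congr 1
  ext v
  change (n • fun c : {c // T.lev c = 1} => π c.1) ⬝ᵥ v = 0 ↔ _
  rw [smul_dotProduct, smul_eq_mul, mul_eq_zero, or_iff_right hn]
  rfl

theorem g1_mul (T : TS σ) {ν : T.C → ℤ} {n : ℤ} (hn : n ≠ 0) (k : ∀ c, T.lev c = 1 → ν c = n)
    (π : T.C → ℤ) : T.g1 (fun c => ν c * π c) = T.g1 π :=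
  (T.g1_congr (π' := n • π) fun c hc => by rw [k c hc]; rfl).trans (T.g1_smul hn π)

/-- `g1` depends only on the grading and on the level one block of `D` -/
theorem g1_of_D (T : TS σ) {Φ : T.C → MvPolynomial T.C ℝ} {K : Matrix T.C T.C ℝ}
    (h : ∀ c c', T.lev c = 1 → T.lev c' = 1 →
      ({ C := T.C, deg := T.deg, Φ := Φ, K := K } : TS σ).D c c' = T.D c c') (π : T.C → ℤ) :
    ({ C := T.C, deg := T.deg, Φ := Φ, K := K } : TS σ).g1 π = T.g1 π := by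
  have : ({ C := T.C, deg := T.deg, Φ := Φ, K := K } : TS σ).D.submatrix
      (Subtype.val : {c // T.lev c = 1} → T.C) (Subtype.val : {c // T.lev c = 1} → T.C) =
      T.D.submatrix Subtype.val Subtype.val := by
    ext c c'; exact h _ _ c.2 c'.2
  exact congrArg (fun X => Sp.gk X⁻¹ _) this

theorem off_g1 (T : TS σ) (x : T.C → ℝ) (π : T.C → ℤ) : (T.off x).g1 π = T.g1 π :=
  T.g1_of_D (fun c c' _ _ => congrFun (congrFun (T.off_D x) c) c') π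

theorem shr_g1_eq (T : TS σ) (κ : ℕ → ℝ) (π : T.C → ℤ) : (T.shr κ).g1 π =
    Sp.gk ((κ 1 ^ 2) • T.D.submatrix (Subtype.val : {c // T.lev c = 1} → T.C) Subtype.val)⁻¹
      {n | (fun c : {c // T.lev c = 1} => π c.1) ⬝ᵥ n = 0} :=
  congrArg (fun X => Sp.gk X⁻¹ _) (T.shr_D_lev κ 1)

theorem shr_g1_one (T : TS σ) {κ : ℕ → ℝ} (h : κ 1 = 1) (π : T.C → ℤ) :
    (T.shr κ).g1 π = T.g1 π := by
  rw [shr_g1_eq, h, one_pow, one_smul, g1]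

theorem Tri.shr_g1 (h : T.Tri) {κ : ℕ → ℝ} (h0 : 0 < κ 1) (h1 : κ 1 ≤ 1) (π : T.C → ℤ) :
    (T.shr κ).g1 π ≤ (κ 1)⁻¹ ^ T.R 1 * T.g1 π := by
  have := Sp.gk_smul (h.pd_Dl 1).inv (t := (κ 1 ^ 2)⁻¹)
    ((one_le_inv₀ (pow_pos h0 2)).2 (pow_le_one₀ h0.le h1))
    {n | (fun c : {c // T.lev c = 1} => π c.1) ⬝ᵥ n = 0}
  rwa [Real.sqrt_inv, Real.sqrt_sq h0.le, card_lev, ← inv_smul' (h.pd_Dl 1) (pow_pos h0 2).ne',
    ← shr_g1_eq] at this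

theorem Tri.res_g1_eq (h : T.Tri) {n : T.C → ℕ} (hn : ∀ c, 0 < n c) {ν : ℕ}
    (k : ∀ c, T.lev c = 1 → n c = ν) (r π : T.C → ℤ) :
    (T.res n r).g1 π = (T.shr fun _ => (ν : ℝ)⁻¹).g1 π := by
  have : (T.res n r).D.submatrix (Subtype.val : {c // T.lev c = 1} → T.C)
      (Subtype.val : {c // T.lev c = 1} → T.C) = (T.shr fun _ => (ν : ℝ)⁻¹).D.submatrix
        (Subtype.val : {c // T.lev c = 1} → T.C) (Subtype.val : {c // T.lev c = 1} → T.C) := by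
    rw [h.res_D hn, shr_D]
    ext c c'
    change (diagonal (fun c => (n c : ℝ)⁻¹) * T.D * diagonal fun c => (n c : ℝ)⁻¹ :
      Matrix T.C T.C ℝ) c.1 c'.1 = (diagonal (fun _ => (ν : ℝ)⁻¹) * T.D *
        diagonal fun _ => (ν : ℝ)⁻¹ : Matrix T.C T.C ℝ) c.1 c'.1
    rw [mul_diagonal, diagonal_mul, mul_diagonal, diagonal_mul, k _ c.2, k _ c'.2]
  exact congrArg (fun X => Sp.gk X⁻¹ _) this

/-- residues with modulus `ν` on level one -/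
theorem Tri.res_g1 (h : T.Tri) {n : T.C → ℕ} (hn : ∀ c, 0 < n c) {ν : ℕ} (hν : 0 < ν)
    (k : ∀ c, T.lev c = 1 → n c = ν) (r π : T.C → ℤ) :
    (T.res n r).g1 π ≤ (ν : ℝ) ^ T.R 1 * T.g1 π := by
  have := h.shr_g1 (κ := fun _ => (ν : ℝ)⁻¹) (inv_pos.2 (Nat.cast_pos.2 hν))
    (inv_le_one_of_one_le₀ (Nat.one_le_cast.2 hν)) π
  rwa [inv_inv, ← h.res_g1_eq hn k r] at this

theorem Tri.res_g1_smul (h : T.Tri) {n : T.C → ℕ} (hn : ∀ c, 0 < n c) {ν : ℕ} (hν : 0 < ν)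
    (k : ∀ c, T.lev c = 1 → n c = ν) (r π : T.C → ℤ) :
    (T.res n r).g1 ((ν : ℤ) • π) ≤ (ν : ℝ) ^ T.R 1 * T.g1 π :=
  ((T.res n r).g1_smul (by exact_mod_cast hν.ne') π).trans_le (h.res_g1 hn hν k r π)

theorem Tri.res_g1_mul (h : T.Tri) {n : T.C → ℕ} (hn : ∀ c, 0 < n c) {ν : ℕ} (hν : 0 < ν)
    (k : ∀ c, T.lev c = 1 → n c = ν) (r π : T.C → ℤ) :
    (T.res n r).g1 (fun c => (n c : ℤ) * π c) ≤ (ν : ℝ) ^ T.R 1 * T.g1 π :=
  ((T.res n r).g1_mul (ν := fun c => (n c : ℤ)) (n := ν) (by exact_mod_cast hν.ne')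
    (fun c hc => by exact_mod_cast k c hc) π).trans_le (h.res_g1 hn hν k r π)

/-- fibres of `π` on level one, any centre -/
theorem Tri.ks_le_g1 (h : T.Tri) (π : T.C → ℤ) (θ : {c // T.lev c = 1} → ℝ) (a : ℤ) :
    Sp.ks (T.D.submatrix (Subtype.val : {c // T.lev c = 1} → T.C) Subtype.val)⁻¹ θ
      {n | (fun c : {c // T.lev c = 1} => π c.1) ⬝ᵥ n = a} ≤ T.g1 π * T.pt0 1 :=
  Sp.ks_coset' (h.pd_Dl 1).inv θ
    (AddMonoidHom.mk' ((fun c : {c // T.lev c = 1} => π c.1) ⬝ᵥ ·) (dotProduct_add _)) a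

theorem Tri.nr_g1_eq (h : T.Tri) {l n : ℕ} {lam : ℝ} (h0 : 0 < lam) (hn : 0 < n) (x : T.C → ℝ)
    (r π : T.C → ℤ) : (T.nr l lam n x r).g1 π = (T.shr (nw l (lam / n))).g1 π := by
  unfold g1
  rw [h.nr_D h0 hn, shr_D]
  rfl

theorem Tri.nr_g1 (h : T.Tri) {l n : ℕ} {lam : ℝ} (h0 : 0 < lam) (h1 : lam ≤ 1) (hn : 0 < n)
    (hl : 1 < l) (x : T.C → ℝ) (r π : T.C → ℤ) :
    (T.nr l lam n x r).g1 π ≤ (n / lam) ^ T.R 1 * T.g1 π := by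
  have n1 : (1 : ℝ) ≤ n := Nat.one_le_cast.2 hn
  have := h.shr_g1 (κ := nw l (lam / n)) (nw_pos (by positivity) 1)
    (nw_le ((div_le_one (by positivity)).2 (h1.trans n1)) 1) π
  rwa [nw_lt hl, inv_div, ← h.nr_g1_eq h0 hn x r] at this

end Crest.Agent.N49.Tw.TS

namespace Crest.Agent.N49.Tw

theorem Ctr.Ok.nr_g1 {V : Ctr} {s l n : ℕ} {lam : ℝ} (h : V.Ok s) (h0 : 0 < lam) (h1 : lam ≤ 1)
    (hn : 0 < n) (hl : 1 < l) (x : V.T.C → ℝ) (r : V.T.C → ℤ) :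
    (V.nr l lam n x r).g1 ≤ (n / lam) ^ V.T.R 1 * V.g1 := by
  refine le_trans (le_of_eq ?_) (h.1.nr_g1 h0 h1 hn hl x r V.π)
  rw [Ctr.g1, h.nr_π hl]
  exact (V.T.nr l lam n x r).g1_smul (by exact_mod_cast hn.ne') V.π

end Crest.Agent.N49.Tw

end
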