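import Crest.Agent.N49.Tw.Base
import Crest.Agent.N49.La.Cost
import Crest.Agent.N49.Rf.Wl

/-!
# Row 49 (helper13): a trivial top symbol gives a polynomial identity on residue classes
-/

set_option autoImplicit false

open Matrix MvPolynomial Finset

noncomputable section

namespace Crest.Agent.N49.Tw

open Po Rf

namespace TS

variable {σ : Type} (T : TS σ)

/-- the top parts of the errors -/
def top : TS σ where
  C := T.C
  deg := T.deg
  Φ c := weightedHomogeneousComponent T.lev (T.lev c) (T.Φ c)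
  K := T.K

/-- the phase polynomial of a frequency -/
def thp (k : T.C → ℤ) : MvPolynomial T.C ℝ :=
  ∑ c, MvPolynomial.C (k c : ℝ) * (X c - ∑ c', MvPolynomial.C (T.A⁻¹ c c') * T.Φ c')

/-- the top symbol of `k` is trivial on the levels `< l` -/
def JBc (l : ℕ) (k : T.C → ℤ) (q : ℕ) (r : ℝ) : Prop :=
  (T.top.lt l).Triv q r
    (aeval (glue (fun c => T.top.lev c < l) X fun _ => (0 : MvPolynomial _ ℝ)) (T.top.thp k))

/-- a residue class in the levels `< l` -/
def embl (l : ℕ) (n : ℤ) (a y : T.C → ℤ) : T.C → ℤ :=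
  fun c => if T.lev c < l then a c + n * y c else y c

theorem top_lev : T.top.lev = T.lev := rfl
theorem top_K : T.top.K = T.K := rfl
theorem top_R : T.top.R = T.R := rfl

theorem top_A : T.top.A = T.A := by
  refine funext fun c : T.C => funext fun c' : T.C => ?_
  change (if T.lev c = T.lev c' then coeff (Finsupp.single c' 1)
    (weightedHomogeneousComponent T.lev (T.lev c) (T.Φ c)) else 0) =
    if T.lev c = T.lev c' then coeff (Finsupp.single c' 1) (T.Φ c) else 0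
  split_ifs with e
  · rw [coeff_weightedHomogeneousComponent, if_pos (by simp [Finsupp.weight_single, e])]
  · rfl

theorem top_D : T.top.D = T.D := by unfold D; rw [top_A]; rfl
theorem top_Zc : T.top.Zc = T.Zc := by unfold Zc; rw [top_D]; rfl
theorem top_ct : T.top.ct = T.ct := by unfold ct; rw [top_D]; rfl

/-- `T.top.Φ`, on the type `T.C` -/
def tΦ (c : T.C) : MvPolynomial T.C ℝ := weightedHomogeneousComponent T.lev (T.lev c) (T.Φ c)
/-- `T.top.thp`, on the type `T.C` -/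
def tph (k : T.C → ℤ) : MvPolynomial T.C ℝ := T.top.thp k

theorem top_hom (c : T.C) : (T.tΦ c).IsWeightedHomogeneous T.lev (T.lev c) :=
  weightedHomogeneousComponent_isWeightedHomogeneous _ _

theorem tph_eq (k : T.C → ℤ) : T.tph k =
    ∑ c, MvPolynomial.C (k c : ℝ) * (X c - ∑ c', MvPolynomial.C (T.A⁻¹ c c') * T.tΦ c') := by
  unfold tph thp
  rw [top_A]
  rfl

theorem eval_thp (k : T.C → ℤ) (y : T.C → ℝ) : eval y (T.thp k) = zc k ⬝ᵥ T.th y := by
  simp [thp, th, u, dotProduct, mulVec, zc]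

theorem thp_smul (d : ℤ) (k : T.C → ℤ) : T.thp (d • k) = (d : ℝ) • T.thp k := by
  simp [thp, smul_eq_C_mul, mul_sum, mul_assoc]

theorem eval_tph (k : T.C → ℤ) (y : T.C → ℝ) : eval y (T.tph k) = zc k ⬝ᵥ T.top.th y :=
  T.top.eval_thp k y

theorem tph_smul (d : ℤ) (k : T.C → ℤ) : T.tph (d • k) = (d : ℝ) • T.tph k := T.top.thp_smul d k

variable {T}

theorem Tri.top (h : T.Tri) : T.top.Tri where
  tri c m hm := (T.top_hom c (mem_support_iff.1 hm)).le
  ne := h.ne
  det := by rw [top_A]; exact h.det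
  pd := h.pd
  blk := h.blk

theorem Tri.wt_Φ (h : T.Tri) (c : T.C) : Wt T.lev (T.lev c + 1) (T.Φ c) :=
  fun m hm => Nat.lt_succ_of_le (h.tri c m hm)

theorem tph_hom {l : ℕ} {k : T.C → ℤ} (hk : ∀ c, k c ≠ 0 → T.lev c = l) :
    (T.tph k).IsWeightedHomogeneous T.lev l := by
  rw [tph_eq]
  refine IsWeightedHomogeneous.sum _ _ _ fun c _ => ?_
  by_cases e : k c = 0
  · rw [e, Int.cast_zero, C_0, zero_mul]; exact isWeightedHomogeneous_zero _ _ _
  refine IsWeightedHomogeneous.C_mul (IsWeightedHomogeneous.sub ?_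
    (IsWeightedHomogeneous.sum _ _ _ fun c' _ => ?_)) _
  · rw [← hk c e]; exact isWeightedHomogeneous_X _ _ _
  · by_cases e2 : T.lev c = T.lev c'
    · rw [← hk c e, e2]; exact (T.top_hom c').C_mul _
    · rw [blk_inv T.blk_A c c' e2, C_0, zero_mul]; exact isWeightedHomogeneous_zero _ _ _

theorem Tri.thp_sub (h : T.Tri) {l : ℕ} {k : T.C → ℤ} (hk : ∀ c, k c ≠ 0 → T.lev c = l) :
    Wt T.lev l (T.thp k - T.tph k) := by
  rw [thp, tph_eq, ← sum_sub_distrib]
  refine Wt.sum _ fun c _ => ?_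
  by_cases e : k c = 0
  · rw [e, Int.cast_zero, C_0, zero_mul, zero_mul, sub_self]; exact Wt.zero _
  rw [← mul_sub, sub_sub_sub_cancel_left, ← neg_sub, ← sum_sub_distrib]
  refine (Wt.sum _ fun c' _ => ?_).neg.C_mul _
  rw [← mul_sub]
  by_cases e2 : T.lev c = T.lev c'
  · rw [← hk c e, e2]; exact (h.wt_Φ c').sub_top.C_mul _
  · rw [blk_inv T.blk_A c c' e2, C_0, zero_mul]; exact Wt.zero _

theorem Tri.wt_thp (h : T.Tri) {l : ℕ} {k : T.C → ℤ} (hk : ∀ c, k c ≠ 0 → T.lev c = l) :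
    Wt T.lev (l + 1) (T.thp k) := by
  have := ((h.thp_sub hk).mono (Nat.le_succ l)).add (Wt.of_hom (tph_hom hk))
  rwa [sub_add_cancel] at this

/-- homogeneous form of `JBc` -/
theorem Tri.jb_hom (h : T.Tri) {l q : ℕ} {r : ℝ} {k : T.C → ℤ} (hk : ∀ c, k c ≠ 0 → T.lev c = l)
    (hJ : T.JBc l k q r) : ∃ (I : MvPolynomial {c // T.lev c < l} ℤ)
      (g : MvPolynomial {c // T.lev c < l} ℝ),
      I.IsWeightedHomogeneous (fun c => T.lev c.1) l ∧
      g.IsWeightedHomogeneous (fun c => T.lev c.1) l ∧ ∑ m ∈ g.support, coeff m g ^ 2 ≤ r ^ 2 ∧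
      ∀ y : T.C → ℝ, eval y (T.tph k) = (q : ℝ)⁻¹ * eval (fun c => y c.1)
        (map (Int.castRingHom ℝ) I) + eval (fun c => eval y (T.tΦ c.1)) g := by
  obtain ⟨F, hF⟩ : ∃ F : T.C → MvPolynomial {c // T.lev c < l} ℝ,
      F = glue (fun c => T.lev c < l) X fun _ => 0 := ⟨_, rfl⟩
  have hF' : (glue (fun c => T.lev c < l) X fun c => MvPolynomial.C
      (((0 : T.C → ℤ) c : ℤ) : ℝ)) = F := by rw [hF]; simp
  obtain ⟨I, g, e, hr⟩ : ∃ (I : MvPolynomial {c // T.lev c < l} ℤ)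
      (g : MvPolynomial {c // T.lev c < l} ℝ), aeval F (T.tph k) = (q : ℝ)⁻¹ •
      map (Int.castRingHom ℝ) I + aeval (fun c : {c // T.lev c < l} => aeval F (T.tΦ c.1)) g ∧
      ∑ m ∈ g.support, coeff m g ^ 2 ≤ r ^ 2 := by
    obtain ⟨I, g, e, hr⟩ := hJ
    refine ⟨I, g, ?_, hr⟩
    conv_rhs => rw [← hF']
    rw [hF]
    exact e
  have hg : ∀ c, (F c).IsWeightedHomogeneous (fun c : {c // T.lev c < l} => T.lev c.1)
      (T.lev c) := fun c => by
    rw [hF, glue]
    split_ifs with p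
    · exact isWeightedHomogeneous_X _ _ _
    · exact isWeightedHomogeneous_zero _ _ _
  have e1 := congrArg (weightedHomogeneousComponent (fun c : {c // T.lev c < l} => T.lev c.1) l) e
  rw [(hom_aeval hg (tph_hom hk)).weightedHomogeneousComponent_same, map_add, map_smul,
    Rf.comp_map,
    comp_aeval_hom fun c : {c // T.lev c < l} => hom_aeval hg (T.top_hom c.1)] at e1
  refine ⟨_, _, weightedHomogeneousComponent_isWeightedHomogeneous l I,
    weightedHomogeneousComponent_isWeightedHomogeneous l g, le_trans ?_ hr, fun y => ?_⟩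
  · rw [support_weightedHomogeneousComponent]
    refine le_trans (le_of_eq (sum_congr rfl fun m hm => ?_))
      (sum_le_sum_of_subset_of_nonneg (filter_subset _ _) fun _ _ _ => sq_nonneg _)
    rw [coeff_weightedHomogeneousComponent, if_pos (mem_filter.1 hm).2]
  · have e2 := congrArg (eval fun c : {c // T.lev c < l} => y c.1) e1
    rw [eval_aeval, map_add, eval_aeval, smul_eval] at e2
    obtain ⟨y', hy⟩ : ∃ y' : T.C → ℝ,
      y' = fun c => eval (fun c : {c // T.lev c < l} => y c.1) (F c) := ⟨_, rfl⟩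
    have a : ∀ j, T.lev j < l → y' j = y j := fun j hj => by simp [hy, hF, glue, hj]
    have c1 : (fun c : {c // T.lev c < l} => eval (fun c : {c // T.lev c < l} => y c.1)
        (aeval F (T.tΦ c.1))) = fun c => eval y (T.tΦ c.1) := funext fun c => by
      rw [eval_aeval, ← hy]
      exact h.top.u_le (y := y') (y' := y) fun j hj => a j (lt_of_le_of_lt hj c.2)
    rw [c1, ← hy] at e2
    rw [← e2, eval_tph, eval_tph]
    refine sum_congr rfl fun c _ => ?_
    by_cases z : k c = 0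
    · simp [zc, z]
    · rw [h.top.th_low (y := y) (y' := y') fun j hj => (a j (hk c z ▸ hj)).symm]

/-- **the polynomial identity** -/
theorem Tri.pid (h : T.Tri) {l q d : ℕ} {r : ℝ} {k : T.C → ℤ} (hl : 0 < l)
    (hk : ∀ c, k c ≠ 0 → T.lev c = l) (hJ : T.JBc l ((d : ℤ) • k) q r) (hd : 1 ≤ d) (hq : 1 ≤ q)
    {n : ℤ} (hn : (d * q : ℤ) ∣ n) (a : T.C → ℤ) (x : T.C → ℝ) :
    ∃ (J : MvPolynomial T.C ℤ) (L g : MvPolynomial T.C ℝ),
      (∀ c ∈ J.vars, T.lev c < l) ∧ (∀ m ∈ J.support, Finsupp.weight T.lev m ≤ l) ∧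
      (∀ m ∈ L.support, Finsupp.weight T.lev m < l) ∧
      (∀ y : T.C → ℤ, zc k ⬝ᵥ T.th (zc (T.embl l n a y)) =
        (eval y J : ℤ) + eval (zc y) L + eval (T.u (zc (T.embl l n a y)) - x) g) ∧
      ∀ v : T.C → ℝ, ∑ c with T.lev c < l, v c ^ 2 ≤ 1 →
        eval v g ^ 2 ≤ r ^ 2 * (l * ∑ c with T.lev c < l, v c ^ 2) := by
  obtain ⟨I, g, hI, hg, hr, e⟩ := h.jb_hom (k := (d : ℤ) • k)
    (fun c hc => hk c fun z => hc (by simp [z])) hJ
  have d0 : (d : ℝ) ≠ 0 := by positivity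
  have q0 : (q : ℝ) ≠ 0 := by positivity
  obtain ⟨J, hJ1, hJ2⟩ := exists_res (fun c : {c // T.lev c < l} => a c.1) (N := d * q)
    (by positivity) hn (Wt.of_hom hI)
  set G : MvPolynomial T.C ℝ := rename Subtype.val g with hG
  have wG : Wt T.lev (l + 1) G := Wt.rename _ (Wt.of_hom hg)
  set sb : T.C → MvPolynomial T.C ℝ := fun c =>
    if T.lev c < l then MvPolynomial.C (a c : ℝ) + MvPolynomial.C (n : ℝ) * X c else X c with hsb
  have wsb : ∀ c, Wt T.lev (T.lev c + 1) (sb c) := fun c => by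
    simp only [hsb]
    split_ifs
    · exact (Wt.cst (Nat.succ_pos _) _).add ((Wt.X c).C_mul _)
    · exact Wt.X c
  have wD : Wt T.lev l (aeval T.tΦ G - aeval (fun c => T.Φ c - MvPolynomial.C (x c)) G) :=
    Wt.aeval_sub (fun c => ⟨Wt.of_hom (T.top_hom c),
      (h.wt_Φ c).sub (Wt.cst (Nat.succ_pos _) _), by
        have := (h.wt_Φ c).sub_top.neg.add (Wt.cst (h.lev_pos c) (x c))
        convert this using 1
        rw [tΦ]
        ring⟩) wG
  refine ⟨rename Subtype.val J, aeval sb (T.thp k - T.tph k + (d : ℝ)⁻¹ •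
      (aeval T.tΦ G - aeval (fun c => T.Φ c - MvPolynomial.C (x c)) G)) +
      MvPolynomial.C ((d * q : ℝ)⁻¹ * (eval (fun c : {c // T.lev c < l} => a c.1) I : ℤ)),
    (d : ℝ)⁻¹ • G, fun c hc => ?_,
    fun m hm => Nat.le_of_lt_succ (Wt.rename (w' := T.lev) _ hJ1 m hm),
    (Wt.aeval wsb ((h.thp_sub hk).add (wD.smul _))).add (Wt.cst hl _), fun y => ?_,
    fun v hv => ?_⟩
  · obtain ⟨c', -, rfl⟩ := mem_image.1 (vars_rename _ _ hc)
    exact c'.2
  · have e1 : (fun c => eval (zc y) (sb c)) = zc (T.embl l n a y) := funext fun c => by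
      by_cases p : T.lev c < l <;> simp [hsb, zc, embl, p]
    have e2 := e (zc (T.embl l n a y))
    have e3 : (fun c : {c // T.lev c < l} => zc (T.embl l n a y) c.1) =
        fun c => ((a c.1 + n * y c.1 : ℤ) : ℝ) := funext fun c => by simp [zc, embl, c.2]
    rw [e3, eval_cast, hJ2, tph_smul, smul_eval] at e2
    have e4 : ((fun c => eval (zc (T.embl l n a y)) (T.Φ c - MvPolynomial.C (x c))) ∘
        (Subtype.val : {c // T.lev c < l} → T.C)) = (T.u (zc (T.embl l n a y)) - x) ∘ Subtype.val :=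
      funext fun c => by simp [u]
    rw [map_add, eval_aeval, e1, map_add, map_sub, smul_eval, smul_eval, map_sub, eval_aeval,
      eval_aeval, eval_thp, eval_C, eval_rename, hG, eval_rename, eval_rename, eval_rename, e4]
    simp only [Function.comp_def]
    push_cast at e2
    field_simp at e2 ⊢
    linear_combination e2
  · have s : ∑ c with T.lev c < l, v c ^ 2 = ∑ c : {c // T.lev c < l}, v c.1 ^ 2 :=
      sum_subtype _ (by simp) _
    rw [s] at hv ⊢
    have h1 := eval_sq_le (fun c : {c // T.lev c < l} => h.lev_pos c.1) hl hg hv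
    rw [smul_eval, hG, eval_rename, mul_pow]
    have d1 : ((d : ℝ)⁻¹) ^ 2 ≤ 1 :=
      pow_le_one₀ (by positivity) (inv_le_one_of_one_le₀ (by exact_mod_cast hd))
    refine (mul_le_of_le_one_left (sq_nonneg _) d1).trans (h1.trans ?_)
    exact mul_le_mul_of_nonneg_right hr (mul_nonneg (Nat.cast_nonneg _)
      (sum_nonneg fun _ _ => sq_nonneg _))

/-- the dual form of a frequency of level `l` -/
theorem qf_lev {l : ℕ} {k : T.C → ℤ} (hk : ∀ c, k c ≠ 0 → T.lev c = l) :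
    qf T.D (zc k) = qf (T.D.submatrix (Subtype.val : {c // T.lev c = l} → T.C) Subtype.val)
      (zc fun c => k c.1) := by
  have s : ∀ f : T.C → ℝ, ∑ c, zc k c * f c = ∑ c : {c // T.lev c = l}, zc k c.1 * f c.1 :=
    fun f => by
      rw [← sum_subtype (s := univ.filter fun c => T.lev c = l) (by simp) fun c => zc k c * f c]
      refine (sum_subset (filter_subset _ _) fun c _ hc => ?_).symm
      have : k c = 0 := by_contra fun z => hc (mem_filter.2 ⟨mem_univ _, hk c z⟩)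
      simp [zc, this]
  simp only [qf, dotProduct, mulVec]
  rw [s]
  refine sum_congr rfl fun c _ => ?_
  simp only [mul_comm (T.D _ _), submatrix_apply]
  rw [s]
  rfl

theorem Tri.one_le_ct_qf (h : T.Tri) {l : ℕ} {k : T.C → ℤ} (hk : ∀ c, k c ≠ 0 → T.lev c = l)
    (h0 : k ≠ 0) : 1 ≤ T.ct l ^ 2 * qf T.D (zc k) := by
  have p : (T.D.submatrix (Subtype.val : {c // T.lev c = l} → T.C) Subtype.val).PosDef :=
    h.pd_D.submatrix Subtype.val_injective
  have := La.one_le_ct_qf p.inv (k := fun c => k c.1) fun z => h0 (funext fun c =>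
    by_contra fun n => n (congrFun z ⟨c, hk c n⟩))
  rw [La.ct, nonsing_inv_nonsing_inv _ p.det_pos.ne'.isUnit] at this
  rw [qf_lev hk]
  exact this

/-- primitive frequencies -/
theorem Tri.prim (h : T.Tri) {l : ℕ} {k : T.C → ℤ} (hk : ∀ c, k c ≠ 0 → T.lev c = l)
    (h0 : k ≠ 0) : ∃ (d : ℕ) (k0 b : T.C → ℤ), 1 ≤ d ∧ k = (d : ℤ) • k0 ∧ k0 ⬝ᵥ b = 1 ∧
      (∀ c, k0 c ≠ 0 → T.lev c = l) ∧ (∀ c, b c ≠ 0 → T.lev c = l) ∧
      1 ≤ T.ct l ^ 2 * qf T.D (zc k0) ∧ qf T.D (zc k0) ≤ qf T.D (zc k) ∧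
      (d : ℝ) ^ 2 ≤ qf T.D (zc k) * T.ct l ^ 2 := by
  obtain ⟨g, k', b, g0, e, hb⟩ := La.exists_prim k h0
  obtain ⟨d, k0, b0, d1, e1, hb1⟩ : ∃ (d : ℕ) (k0 b0 : T.C → ℤ), 1 ≤ d ∧ k = (d : ℤ) • k0 ∧
      k0 ⬝ᵥ b0 = 1 := by
    rcases Int.natAbs_eq g with s | s
    · exact ⟨g.natAbs, k', b, Int.natAbs_pos.2 g0, by rw [← s, e], hb⟩
    · exact ⟨g.natAbs, -k', -b, Int.natAbs_pos.2 g0, by
        rw [smul_neg, ← neg_smul, ← s, e], by rwa [neg_dotProduct_neg]⟩
  have hk0 : ∀ c, k0 c ≠ 0 → T.lev c = l := fun c hc => hk c (by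
    rw [e1]; exact mul_ne_zero (by omega) hc)
  have n0 : k0 ≠ 0 := fun z => by simp [z] at hb1
  have q1 : qf T.D (zc k) = (d : ℝ) ^ 2 * qf T.D (zc k0) := by
    rw [← qf_smul_right, e1]
    congr 1
    funext c
    simp [zc]
  have p := h.one_le_ct_qf hk0 n0
  have p0 := qf_nonneg h.pd_D (zc k0)
  have dd : (1 : ℝ) ≤ (d : ℝ) ^ 2 := one_le_pow₀ (by exact_mod_cast d1)
  refine ⟨d, k0, fun c => if T.lev c = l then b0 c else 0, d1, e1, ?_, hk0, fun c hc => ?_, p,
    by rw [q1]; exact le_mul_of_one_le_left p0 dd, by rw [q1]; nlinarith⟩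
  · rw [← hb1]
    refine sum_congr rfl fun c _ => ?_
    by_cases z : k0 c = 0
    · simp [z]
    · simp [hk0 c z]
  · by_contra n
    exact hc (if_neg n)

end TS

end Crest.Agent.N49.Tw

end
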