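import Crest.Agent.N49.Rf.Defs

/-!
# Row 49 (helper90): every triangular structure has a copy with unit covariance
-/

set_option autoImplicit false

open Matrix MvPolynomial Finset
open scoped MatrixOrder Matrix.Norms.L2Operator

noncomputable section

namespace Crest.Agent.N49.Tw

open Po

theorem exists_blk_sqrt {ι : Type} [Fintype ι] [DecidableEq ι] {lev : ι → ℕ} {M : Matrix ι ι ℝ}
    (hM : M.PosDef) (h : Rw.Blk lev M) : ∃ S : Matrix ι ι ℝ, Rw.Blk lev S ∧ Sᵀ * S = M := by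
  refine ⟨CFC.sqrt M, ?_, ?_⟩
  · rw [blk_iff] at *
    exact (Commute.cfcₙ_nnreal (a := M) h NNReal.sqrt).eq
  · have a : (CFC.sqrt M)ᵀ = CFC.sqrt M := by
      simpa [conjTranspose_eq_transpose_of_trivial] using
        (CFC.sqrt_nonneg M).posSemidef.isHermitian.eq
    rw [a, CFC.sqrt_mul_sqrt_self M hM.posSemidef.nonneg]

namespace TS

variable {σ : Type} {T : TS σ}

/-- new errors `S u` with unit covariance -/
def un (T : TS σ) (S : Matrix T.C T.C ℝ) : TS σ where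
  C := T.C
  deg := T.deg
  Φ c := ∑ c', MvPolynomial.C (S c c') * T.Φ c'
  K := 1

theorem un_u (T : TS σ) (S : Matrix T.C T.C ℝ) (y : T.C → ℝ) : (T.un S).u y = S *ᵥ T.u y :=
  funext fun c : T.C => by
    change eval y (∑ c', MvPolynomial.C (S c c') * T.Φ c') = _
    simp [u, mulVec, dotProduct]

theorem un_A {S : Matrix T.C T.C ℝ} (hS : Rw.Blk T.lev S) : (T.un S).A = S * T.A := by
  refine funext fun c : T.C => funext fun c' : T.C => ?_
  change (if T.lev c = T.lev c' then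
    coeff (Finsupp.single c' 1) (∑ c', MvPolynomial.C (S c c') * T.Φ c') else 0) = (S * T.A) c c'
  split_ifs with e
  · rw [coeff_sum, Matrix.mul_apply]
    refine sum_congr rfl fun j _ => ?_
    rw [coeff_C_mul]
    by_cases f : T.lev c = T.lev j
    · simp [A, ← f, e]
    · simp [hS c j f]
  · exact (blk_mul hS T.blk_A c c' e).symm

theorem Tri.exists_un (h : T.Tri) : ∃ S, (T.un S).Tri ∧ (T.un S).D = T.D ∧
    ∀ y, (T.un S).wt y = T.wt y := by
  obtain ⟨S, hS, e⟩ := exists_blk_sqrt h.pd.inv (blk_inv h.blk_K)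
  have dS : S.det ≠ 0 := fun z => h.pd.inv.det_pos.ne' (by rw [← e, det_mul, z, mul_zero])
  refine ⟨S, ⟨fun (c : T.C) (m : T.C →₀ ℕ) hm => ?_, h.ne, ?_, PosDef.one,
    fun (c c' : T.C) n => ?_⟩, ?_, fun y => ?_⟩
  · change Finsupp.weight T.lev m ≤ T.lev c
    have : coeff m (∑ c', MvPolynomial.C (S c c') * T.Φ c') ≠ 0 := mem_support_iff.1 hm
    rw [coeff_sum] at this
    obtain ⟨j, -, hj⟩ := exists_ne_zero_of_sum_ne_zero this
    rw [coeff_C_mul] at hj
    have f : T.lev c = T.lev j := by_contra fun f => hj (by simp [hS c j f])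
    exact f ▸ h.tri j m (mem_support_iff.2 (right_ne_zero_of_mul hj))
  · rw [un_A hS]
    change (S * T.A).det ≠ 0
    rw [det_mul]
    exact mul_ne_zero dS h.det
  · have : c = c' := by_contra fun f => n (one_apply_ne f)
    rw [this]
  · have k : T.K = S⁻¹ * S⁻¹ᵀ := by
      rw [transpose_nonsing_inv, ← Matrix.mul_inv_rev, e, inv_inv' h.pd]
    have a : ∀ B : Matrix T.C T.C ℝ, B = S * T.A → B⁻¹ * 1 * B⁻¹ᵀ = T.D := by
      rintro _ rfl
      rw [D, k, Matrix.mul_inv_rev, transpose_mul, Matrix.mul_one]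
      simp only [Matrix.mul_assoc]
    exact a _ (un_A hS)
  · change gs (1 : Matrix T.C T.C ℝ)⁻¹ ((T.un S).u (zc y)) = gs T.K⁻¹ (T.u (zc y))
    rw [un_u, gs, gs, inv_one, ← qf_conj, Matrix.mul_one, e]
    rfl

end TS

/-- **unit covariance** for containers -/
theorem Ctr.Ok.unit {V : Ctr} {s : ℕ} (h : V.Ok s) : ∃ V' : Ctr, V'.Ok s ∧ V'.T.K = 1 ∧
    V'.T.R = V.T.R ∧ V'.T.ct = V.T.ct ∧ V'.g1 = V.g1 ∧ V'.T.Z = V.T.Z ∧ V'.T.Zc = V.T.Zc ∧
    V'.den = V.den := by
  obtain ⟨S, a, b, d⟩ := h.1.exists_un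
  have w : (V.T.un S).wt = V.T.wt := funext d
  have z : (V.T.un S).Z = V.T.Z := by unfold TS.Z; rw [w]; rfl
  refine ⟨⟨V.T.un S, V.π, V.c⟩, ⟨a, h.2.1, h.2.2⟩, rfl, rfl, ?_, ?_, z, ?_, ?_⟩
  · change (V.T.un S).ct = _
    unfold TS.ct; rw [b]; rfl
  · change (V.T.un S).g1 V.π = V.T.g1 V.π
    unfold TS.g1; rw [b]; rfl
  · change (V.T.un S).Zc = _
    unfold TS.Zc; rw [b]; rfl
  · funext A
    change (V.T.un S).P _ = V.T.P _
    unfold TS.P TS.E TS.S
    rw [z, w]; rfl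

end Crest.Agent.N49.Tw

end
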