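import Crest.Agent.N49.Rf.Res
import Crest.Agent.N49.Rw.Sch

/-!
# Row 49 (helper62): new families `Y ≈ P (y) + x` as an exact mixture over the offsets `x`
-/

set_option autoImplicit false

open Matrix MvPolynomial Finset MeasureTheory

noncomputable section

namespace Crest.Agent.N49.Rf

open Po R312.PZ

variable {d : Type} [Fintype d] [DecidableEq d] {M : Matrix d d ℝ}

omit [DecidableEq d] in
theorem prob_cube : IsProbabilityMeasure (volume.restrict (cube (0 : d → ℤ))) := ⟨by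
  have : cube (0 : d → ℤ) = Set.pi Set.univ fun _ => Set.Ioc (0 : ℝ) 1 := by
    ext x; simp [cube]
  rw [Measure.restrict_apply_univ, this, Real.volume_pi_Ioc]
  simp⟩

omit [DecidableEq d] in
theorem th_sub (M : Matrix d d ℝ) (θ x : d → ℝ) :
    th M (θ - x) = ∑' n : d → ℤ, gs M ((x + fun i => (n i : ℝ)) - θ) :=
  tsum_congr fun n => congrArg _ (by change zc n - (θ - x) = x + zc n - θ; abel)

theorem cube_th (hM : M.PosDef) (θ : d → ℝ) :
    Integrable (fun x => th M (θ - x)) (volume.restrict (cube 0)) ∧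
      ∫ x in cube 0, th M (θ - x) = dt M := by
  have i : Integrable fun x => gs M (x - θ) := (integrable_gs hM).comp_sub_right θ
  have i' : ∀ n : d → ℤ, Integrable (fun x => gs M ((x + fun i => (n i : ℝ)) - θ))
      (volume.restrict (cube 0)) := fun n => (i.comp_add_right _).integrableOn
  have s := (hasSum_cube i.norm).summable
  simp only [th_sub]
  refine ⟨integrable_tsum i' s, ?_⟩
  rw [← integral_tsum_of_summable_integral_norm i' s, (hasSum_cube i).tsum_eq,
    integral_sub_right_eq_self (gs M), integral_gs_real hM]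

/-- some offset is as good as the continuous integral -/
theorem new_raw (hM : M.PosDef) {Y : Type} [Countable Y] {w : Y → ℝ} (hw : Summable w)
    (θ : Y → d → ℝ) : ∃ x, (∑' y, w y) * dt M ≤ ∑' y, w y * th M (θ y - x) := by
  have := prob_cube (d := d)
  have i : ∀ y, Integrable (fun x => w y * th M (θ y - x)) (volume.restrict (cube 0)) :=
    fun y => (cube_th hM (θ y)).1.const_mul _
  have s : Summable fun y => ∫ x in cube 0, ‖w y * th M (θ y - x)‖ := by
    refine (hw.norm.mul_right (dt M)).congr fun y => ?_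
    simp only [norm_mul, Real.norm_of_nonneg (th_nonneg _ _)]
    rw [integral_const_mul, (cube_th hM (θ y)).2]
  obtain ⟨x, hx⟩ := exists_integral_le (integrable_tsum i s)
  refine ⟨x, le_trans (le_of_eq ?_) hx⟩
  rw [← integral_tsum_of_summable_integral_norm i s, ← tsum_mul_right]
  exact tsum_congr fun y => by rw [integral_const_mul, (cube_th hM (θ y)).2]

omit [DecidableEq d] in
theorem th_equiv {e : Type} [Fintype e] (M : Matrix d d ℝ) (f : e ≃ d) :
    th (M.submatrix f f) 0 = th M 0 := by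
  rw [th, th, ← (Equiv.arrowCongr f (Equiv.refl ℤ)).tsum_eq]
  refine tsum_congr fun n => ?_
  simp only [sub_zero, gs, qf, dotProduct, mulVec, ← f.sum_comp, zc]
  simp

theorem th_jn {a b : Type} [Fintype a] [Fintype b] [DecidableEq a] [DecidableEq b]
    {S : Matrix a a ℝ} {D : Matrix b b ℝ} (hS : S.PosDef) (hD : D.PosDef) (L : Matrix b a ℝ) :
    th (Rw.jn S D L) 0 ≤ th S 0 * th D 0 := by
  have s := summable_gs (Rw.pd_jn hS hD L) 0
  let e := (Equiv.sumArrowEquivProdArrow a b ℤ).symm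
  have k : ∀ p : (a → ℤ) × (b → ℤ), gs (Rw.jn S D L) (zc (e p) - 0) =
      gs S (zc p.1 - 0) * gs D (zc p.2 - -(L *ᵥ zc p.1)) := fun p => by
    rw [sub_zero, sub_zero, sub_neg_eq_add, ← Rw.gs_jn]
    exact congrArg _ (funext fun i => by cases i <;> rfl)
  have s' := e.summable_iff.2 s
  rw [th, ← e.tsum_eq]
  refine s'.tsum_prod.trans_le ?_
  rw [th, ← tsum_mul_right]
  refine s'.prod.tsum_le_tsum (fun u => ?_) ((summable_gs hS 0).mul_right _)
  simp only [Function.comp, k]
  rw [tsum_mul_left]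
  exact mul_le_mul_of_nonneg_left (th_le hD _) (gs_pos _ _).le

end Crest.Agent.N49.Rf

namespace Crest.Agent.N49.Tw.TS

open Po

variable {σ : Type} {T : TS σ} {C' : Type} [Fintype C'] [DecidableEq C'] {dg : C' → σ →₀ ℕ}
  {P : C' → MvPolynomial T.C ℝ} {K' : Matrix C' C' ℝ}

/-- new coordinates `Y` of degree `dg` with the errors `Y - P (y)` and the covariance `K'` -/
@[reducible] def spawn (T : TS σ) (dg : C' → σ →₀ ℕ) (P : C' → MvPolynomial T.C ℝ) (K' : Matrix C' C' ℝ) :
    TS σ where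
  C := T.C ⊕ C'
  deg := Sum.elim T.deg dg
  Φ := Sum.elim (fun c => rename .inl (T.Φ c)) fun c => X (.inr c) - rename .inl (P c)
  K := fromBlocks T.K 0 0 K'

/-- the linear part of the centres of the new coordinates -/
def spL (T : TS σ) (dg : C' → σ →₀ ℕ) (P : C' → MvPolynomial T.C ℝ) : Matrix C' T.C ℝ :=
  Matrix.of fun c c' => if (dg c).degree = T.lev c' then coeff (Finsupp.single c' 1) (P c) else 0

theorem spawn_lev : (T.spawn dg P K').lev = Sum.elim T.lev fun c => (dg c).degree :=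
  funext fun c => by cases c <;> rfl

theorem spawn_inl (c : T.C) : (T.spawn dg P K').Φ (.inl c) = rename .inl (T.Φ c) := rfl
theorem spawn_inr (c : C') : (T.spawn dg P K').Φ (.inr c) = X (.inr c) - rename .inl (P c) := rfl

theorem spawn_u (y : T.C ⊕ C' → ℝ) : (T.spawn dg P K').u y =
    Sum.elim (T.u (y ∘ .inl)) (y ∘ .inr - fun c => eval (y ∘ .inl) (P c)) := funext fun c => by
  cases c with
  | inl c => exact eval_rename _ _ _
  | inr c =>
    rw [u, spawn_inr, map_sub, eval_X, eval_rename]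
    rfl

omit [Fintype C'] [DecidableEq C'] in
theorem co_inl (Q : MvPolynomial T.C ℝ) (c : T.C) :
    coeff (Finsupp.single (Sum.inl c : T.C ⊕ C') 1) (rename .inl Q) =
      coeff (Finsupp.single c 1) Q := by
  rw [← Finsupp.mapDomain_single, coeff_rename_mapDomain _ Sum.inl_injective]

omit [Fintype C'] [DecidableEq C'] in
theorem co_inr (Q : MvPolynomial T.C ℝ) (c : C') :
    coeff (Finsupp.single (Sum.inr c : T.C ⊕ C') 1) (rename .inl Q) = 0 :=
  coeff_single_eq_zero fun a => by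
    obtain ⟨i, -, hi⟩ := mem_vars_rename _ _ a
    cases hi

theorem spawn_A : (T.spawn dg P K').A = fromBlocks T.A 0 (-T.spL dg P) 1 := by
  refine funext fun c : T.C ⊕ C' => funext fun c' : T.C ⊕ C' => ?_
  rcases c with c | c <;> rcases c' with c' | c'
  · exact if_congr Iff.rfl (co_inl _ _) rfl
  · exact (if_congr Iff.rfl (co_inr _ _) rfl).trans (ite_self _)
  · rw [A, of_apply, spawn_inr, coeff_sub, co_inl, coeff_X]
    change (if (dg c).degree = T.lev c' then _ else 0) =
      -(if (dg c).degree = T.lev c' then _ else 0)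
    split_ifs with a b
    · simp [Finsupp.single_left_inj] at b
    · rw [zero_sub]
    · rw [neg_zero]
  · rw [A, of_apply, spawn_inr, coeff_sub, co_inr, coeff_X, sub_zero, fromBlocks_apply₂₂, one_apply]
    by_cases e : c = c'
    · simp [e]
    · simp [e, Finsupp.single_left_inj]

theorem spawn_det : (T.spawn dg P K').A.det = T.A.det := by
  rw [spawn_A]
  exact (det_fromBlocks_zero₁₂ _ _ _).trans (by rw [det_one, mul_one])

theorem Tri.spawn (h : T.Tri) (hP : ∀ c, WL T.lev (dg c).degree (P c)) (hd : ∀ c, dg c ≠ 0)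
    (hK : K'.PosDef) (hb : Rw.Blk (fun c => (dg c).degree) K') : (T.spawn dg P K').Tri where
  tri := by
    rintro (c | c)
    · exact (h.wl c).rename (w' := (T.spawn dg P K').lev) fun _ => le_rfl
    · exact (WL.X (w := (T.spawn dg P K').lev) (c := .inr c) le_rfl).sub
        ((hP c).rename (w' := (T.spawn dg P K').lev) fun _ => le_rfl)
  ne := by
    rintro (c | c)
    exacts [h.ne c, hd c]
  det := by rw [spawn_det]; exact h.det
  pd := Rw.pd_blocks h.pd hK
  blk := by
    rintro (c | c) (c' | c') e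
    · exact h.blk c c' e
    · exact (e rfl).elim
    · exact (e rfl).elim
    · exact by_contra fun n => e (hb c c' n)

theorem spawn_low : (T.spawn dg P K').Low fun c => c.isLeft := by
  rintro (c | c) hc c' h'
  · obtain ⟨i, -, rfl⟩ := mem_vars_rename _ _ h'
    rfl
  · cases hc

theorem inv_blocks {a b : Type} [Fintype a] [Fintype b] [DecidableEq a] [DecidableEq b]
    {S : Matrix a a ℝ} {D : Matrix b b ℝ} (hS : S.PosDef) (hD : D.PosDef) :
    (fromBlocks S 0 0 D)⁻¹ = fromBlocks S⁻¹ 0 0 D⁻¹ :=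
  inv_eq_left_inv (by
    simp [fromBlocks_multiply, nonsing_inv_mul _ hS.det_pos.ne'.isUnit,
      nonsing_inv_mul _ hD.det_pos.ne'.isUnit])

theorem Tri.spawn_wt (h : T.Tri) (hK : K'.PosDef) (y : T.C ⊕ C' → ℤ) :
    (T.spawn dg P K').wt y = T.wt (y ∘ .inl) *
      gs K'⁻¹ (zc (y ∘ .inr) - fun c => eval (zc (y ∘ .inl)) (P c)) := by
  change gs (fromBlocks T.K 0 0 K')⁻¹ ((T.spawn dg P K').u (zc y)) = _
  rw [inv_blocks h.pd hK, spawn_u, gs, Rw.qf_blocks, mul_add, neg_add, Real.exp_add]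
  rfl

theorem Tri.spawn_Zc (h : T.Tri) (hK : K'.PosDef) :
    (T.spawn dg P K').Zc = T.Zc * dt K'⁻¹ := by
  rw [Zc_eq, Zc_eq, spawn_det, div_mul_eq_mul_div]
  change dt (fromBlocks T.K 0 0 K')⁻¹ / _ = _
  have := Rw.dt_jn h.pd.inv K'⁻¹ 0
  simp only [Rw.jn, Matrix.mul_zero, transpose_zero, Matrix.zero_mul, add_zero] at this
  rw [inv_blocks h.pd hK, this]

/-- Fubini -/
theorem Tri.spawn_S (h : T.Tri) (h' : (T.spawn dg P K').Tri) (hK : K'.PosDef)
    {G : (T.C ⊕ C' → ℤ) → ℝ} (hG : Bb G) : (T.spawn dg P K').S G = T.S fun y =>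
      ∑' Y : C' → ℤ, gs K'⁻¹ (zc Y - fun c => eval (zc y) (P c)) * G (Sum.elim y Y) := by
  let e := (Equiv.sumArrowEquivProdArrow T.C C' ℤ).symm
  refine (e.tsum_eq _).symm.trans ((e.summable_iff.2 (h'.sm hG)).tsum_prod.trans
    (tsum_congr fun y => ?_))
  rw [← tsum_mul_left]
  refine tsum_congr fun Y => ?_
  rw [← mul_assoc]
  exact congrArg (· * G (Sum.elim y Y)) (h.spawn_wt hK (Sum.elim y Y))

theorem Tri.spawn_S' (h : T.Tri) (h' : (T.spawn dg P K').Tri) (hK : K'.PosDef)
    {g : (T.C → ℤ) → ℝ} (hg : Bb g) : (T.spawn dg P K').S (fun y => g (y ∘ .inl)) =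
      T.S fun y => g y * Po.th K'⁻¹ fun c => eval (zc y) (P c) := by
  refine (h.spawn_S h' hK (hg.comp _)).trans (congrArg T.S (funext fun y => ?_))
  rw [mul_comm, Po.th, ← tsum_mul_right]
  rfl

/-- **NEW** -/
theorem Tri.new_pick (h : T.Tri) (hP : ∀ c, WL T.lev (dg c).degree (P c)) (hd : ∀ c, dg c ≠ 0)
    (hK : K'.PosDef) (hb : Rw.Blk (fun c => (dg c).degree) K') {g : (T.C → ℤ) → ℝ} (hg : Bb g) :
    ∃ x : C' → ℝ, T.N g ≤
      (T.spawn dg (fun c => P c - MvPolynomial.C (x c)) K').N fun y => g (y ∘ .inl) := by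
  obtain ⟨x, hx⟩ := Rf.new_raw hK.inv (h.sm hg) fun y c => eval (zc y) (P c)
  refine ⟨x, ?_⟩
  rw [N, N, h.spawn_Zc hK, h.spawn_S' (h.spawn (fun c => (hP c).sub (.const _)) hd hK hb) hK hg,
    ← div_div, div_right_comm]
  refine div_le_div_of_nonneg_right ((le_div_iff₀ (dt_pos hK.inv)).2 (hx.trans_eq ?_))
    h.Zc_pos.le
  refine tsum_congr fun y => ?_
  rw [mul_assoc]
  congr 3
  funext c
  simp

theorem Tri.spawn_Ai (h : T.Tri) :
    (T.spawn dg P K').A⁻¹ = fromBlocks T.A⁻¹ 0 (T.spL dg P * T.A⁻¹) 1 := by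
  rw [spawn_A]
  refine inv_eq_left_inv (A := fromBlocks T.A 0 (-T.spL dg P) 1) ?_
  simp [fromBlocks_multiply, Matrix.mul_assoc, nonsing_inv_mul _ h.unit]

theorem Tri.spawn_D (h : T.Tri) : (T.spawn dg P K').D = fromBlocks T.D (T.D * (T.spL dg P)ᵀ)
    (T.spL dg P * T.D) (K' + T.spL dg P * T.D * (T.spL dg P)ᵀ) := by
  unfold D
  rw [h.spawn_Ai]
  change fromBlocks T.A⁻¹ 0 (T.spL dg P * T.A⁻¹) 1 * fromBlocks T.K 0 0 K' *
    (fromBlocks T.A⁻¹ 0 (T.spL dg P * T.A⁻¹) 1)ᵀ = _
  simp [fromBlocks_multiply, fromBlocks_transpose, Matrix.mul_assoc, add_comm]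

theorem Tri.spawn_th_inl (h : T.Tri) (y : T.C ⊕ C' → ℝ) (c : T.C) :
    (T.spawn dg P K').th y (.inl c) = T.th (y ∘ .inl) c := by
  unfold th
  rw [h.spawn_Ai, spawn_u]
  change y (.inl c) - (fromBlocks T.A⁻¹ 0 (T.spL dg P * T.A⁻¹) 1 *ᵥ Sum.elim _ _) (.inl c) = _
  simp [fromBlocks_mulVec]

theorem Tri.spawn_th_inr (h : T.Tri) (y : T.C ⊕ C' → ℝ) (c : C') :
    (T.spawn dg P K').th y (.inr c) = eval (y ∘ .inl) (P c) -
      (T.spL dg P *ᵥ (y ∘ .inl - T.th (y ∘ .inl))) c := by
  unfold th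
  rw [h.spawn_Ai, spawn_u, sub_sub_cancel, mulVec_mulVec]
  change y (.inr c) - (fromBlocks T.A⁻¹ 0 (T.spL dg P * T.A⁻¹) 1 *ᵥ Sum.elim _ _) (.inr c) = _
  simp [fromBlocks_mulVec]
  ring

theorem spawn_R (l : ℕ) : (T.spawn dg P K').R l = T.R l + #{c | (dg c).degree = l} := by
  rw [R, R, card_filter, card_filter, card_filter]
  exact Fintype.sum_sum_type _

theorem sub_mul_lv {a b c : Type} [Fintype b] {p : a → ℕ} {q : b → ℕ} {A : Matrix a b ℝ}
    (hA : Rw.Lv p q A) (B : Matrix b c ℝ) (l : ℕ) {c' : Type} (f : c' → c) :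
    (A * B).submatrix (Subtype.val : {i // p i = l} → a) f =
      A.submatrix (Subtype.val : {i // p i = l} → a) (Subtype.val : {j // q j = l} → b) *
        B.submatrix Subtype.val f := by
  ext i k
  change ∑ j, A i j * B j (f k) = ∑ j : {j // q j = l}, A i j * B j (f k)
  rw [← sum_subtype (univ.filter fun j => q j = l) (by simp) fun j => A i j * B j (f k),
    sum_filter]
  refine sum_congr rfl fun j _ => ?_
  split_ifs with e
  · rfl
  · rw [hA i j fun a => e (a.symm.trans i.2), zero_mul]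

theorem Tri.spawn_ct (h : T.Tri) (hK : K'.PosDef) (l : ℕ) : (T.spawn dg P K').ct l ≤
    Po.th (K'.submatrix (Subtype.val : {c // (dg c).degree = l} → C') Subtype.val) 0 * T.ct l := by
  let f : {c // (dg c).degree = l} ⊕ {c // T.lev c = l} ≃ {c // (T.spawn dg P K').lev c = l} :=
    (Equiv.sumComm _ _).trans
      (Equiv.subtypeSum (p := fun c : T.C ⊕ C' => (T.spawn dg P K').lev c = l)).symm
  have hL : Rw.Lv (fun c => (dg c).degree) T.lev (T.spL dg P) := fun _ _ e => if_neg e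
  have hD : Rw.Lv T.lev T.lev T.D := h.blk_D
  refine le_trans (le_of_eq ?_) (Rf.th_jn (hK.submatrix Subtype.val_injective) (h.pd_Dl l)
    ((T.spL dg P)ᵀ.submatrix Subtype.val Subtype.val))
  rw [ct, ← Rf.th_equiv _ f, h.spawn_D]
  congr 1
  have e1 := sub_mul_lv hL T.D l (Subtype.val : {c // T.lev c = l} → T.C)
  have e2 := sub_mul_lv hD (T.spL dg P)ᵀ l (Subtype.val : {c // (dg c).degree = l} → C')
  have e3 := sub_mul_lv (hL.mul hD) (T.spL dg P)ᵀ l (Subtype.val : {c // (dg c).degree = l} → C')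
  rw [e1] at e3
  ext (i | i) (j | j)
  · exact congrArg (K' i j + ·) (congrFun (congrFun e3 i) j)
  · exact congrFun (congrFun e1 i) j
  · exact congrFun (congrFun e2 i) j
  · rfl

end Crest.Agent.N49.Tw.TS

end
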