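import Crest.Agent.N49.Rf.Ev0

/-!
# Row 49 (helper90): one event at a level `l ≥ 2`, with explicit parameters
-/

set_option autoImplicit false

open Matrix MvPolynomial Finset

noncomputable section

namespace Crest.Agent.N49.Tw.Rf

open Po

theorem prod_le_pw {f : ℕ → ℝ} {s a : ℕ} (h0 : ∀ j, 0 ≤ f j) (h : ∀ j < s + 1, f j ≤ 2 ^ a) :
    ∏ j ∈ range (s + 1), f j ≤ 2 ^ ((s + 1) * a) := by
  refine (prod_le_prod (fun j _ => h0 j) fun j hj => h j (mem_range.1 hj)).trans_eq ?_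
  rw [prod_const, card_range, ← pow_mul, mul_comm]

theorem two_le {a b : ℕ} (h : a ≤ b) : (2 : ℝ) ^ a ≤ 2 ^ b := pow_le_pow_right₀ one_le_two h

theorem bz_le_two {C : Type} [Fintype C] {B L h : ℕ} (hB : Fintype.card C ≤ B)
    (hh : B + L ≤ 4 ^ h) : bz C (4 ^ h) ≤ 1 / 2 ^ L := by
  refine (bz_le (L := L) (by exact_mod_cast (Nat.add_le_add_right hB L).trans hh)
    (Nat.cast_nonneg L)).trans ?_
  rw [Real.exp_neg, one_div, ← mul_one (L : ℝ), Real.exp_nat_mul]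
  gcongr
  linarith [Real.add_one_le_exp 1]

theorem dem_mv (dem : DEM) {s l B W P h e Y' : ℕ} {V : Ctr} {k0 b : V.T.C → ℤ} (A : Set ℤ)
    {J : MvPolynomial V.T.C ℤ} {L : MvPolynomial V.T.C ℝ} {f : (V.T.C → ℤ) → ℝ} (ok : V.Ok s)
    (l2 : 2 ≤ l) (ls : l ≤ s) (hk : ∀ F, k0 F ≠ 0 → V.T.lev F = l)
    (hb : ∀ F, b F ≠ 0 → V.T.lev F = l) (kb : k0 ⬝ᵥ b = 1) (hJ : ∀ c ∈ J.vars, V.T.lev c < l)
    (wJ : WL V.T.lev l J) (wL : WL V.T.lev (l - 1) L)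
    (hid : ∀ y, zc k0 ⬝ᵥ V.T.th (zc y) = ((eval y J : ℤ) : ℝ) + eval (zc y) L + f y)
    (blk : ∀ y, (∀ c, V.T.lev c < l → V.T.u (zc y) c ^ 2 ≤ 4 ^ h * V.T.K c c) →
      |f y| ≤ 1 / 2 ^ (h + e + 8) * √(qf V.T.D (zc k0)))
    (cB : Fintype.card V.T.C ≤ B) (ctl : V.T.ct l ≤ 2 ^ B) (k2 : qf V.T.D (zc k0) ≤ 2 ^ W)
    (k3 : qf V.T.D (zc k0) ≤ 2 ^ Y') (cP : ∀ j < s + 1, V.T.ct j ≤ 2 ^ P)
    (zP : V.T.Zc ≤ 2 ^ P * V.T.Z) (hh : B + ((s + 1) * (P + W + B) + 1 + P + e + 3) ≤ 4 ^ h) :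
    ∃ V', Mv s l (B + 1) Y' (1 / 2 ^ e / 2) A V V' := by
  obtain ⟨T1, U, π1, t1, s1, p1, pU, zc1, R1, R2, R3, c1, c2, g1, H⟩ :=
    dem V.T s l k0 b V.π J L f ok.1 ok.2.1 l2 hk hb kb ok.2.2 hJ wJ wL hid
  have tri := ok.1
  have c0 : ∀ j, 0 ≤ V.T.ct j := fun j => zero_le_one.trans (TS.one_le_ct tri j)
  have c4 : ∀ j, j ≠ l → T1.ct j ≤ 2 ^ B * V.T.ct j := fun j u => by
    by_cases v : j = l - 1
    · subst v; exact c2.trans (mul_le_mul_of_nonneg_right ctl (c0 _))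
    · exact (R3 j u v).2.trans (le_mul_of_one_le_left (c0 j) (one_le_pow₀ one_le_two))
  have c5 : ∀ j < s + 1, T1.ct j ≤ 2 ^ (P + W + B) := fun j hj => by
    by_cases u : j = l
    · subst u
      refine (c1.trans (mul_le_mul (sqrt_le_two_pow k2) ctl (c0 _) (by positivity))).trans ?_
      rw [← pow_add]; exact two_le (by omega)
    · refine ((c4 j u).trans (mul_le_mul_of_nonneg_left (cP j hj) (by positivity))).trans ?_
      rw [← pow_add]; exact two_le (by omega)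
  have pz := tri.Z_pos
  have pc := tri.Zc_pos
  have e1 : (1 : ℝ) / 2 ^ e ≤ 1 := (div_le_one (by positivity)).2 (one_le_pow₀ one_le_two)
  have tl : bz V.T.C (4 ^ h) * (∏ j ∈ range (s + 1), V.T.ct j + ∏ j ∈ range (s + 1), T1.ct j) *
      V.T.Zc ≤ 1 / 2 ^ e / 8 * V.T.Z := by
    have a1 := prod_le_pw c0 fun j hj => (cP j hj).trans (two_le (b := P + W + B) (by omega))
    have a2 := prod_le_pw (fun j => zero_le_one.trans (TS.one_le_ct t1 j)) c5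
    have a3 := prod_nonneg fun j (_ : j ∈ range (s + 1)) => c0 j
    have a4 := prod_nonneg fun j (_ : j ∈ range (s + 1)) => zero_le_one.trans (TS.one_le_ct t1 j)
    refine (mul_le_mul (mul_le_mul (bz_le_two cB hh) (add_le_add a1 a2) (add_nonneg a3 a4)
      (by positivity)) zP pc.le (by positivity)).trans_eq ?_
    generalize (s + 1) * (P + W + B) = n
    simp only [pow_add]
    field_simp
    norm_num
  obtain ⟨z1, d1⟩ := cmp (η := 1 / 2 ^ e / 4) tri t1 (U := U) (by positivity) (by linarith)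
    (fun g hg => (H g 1 _ _ hg (by positivity) blk).trans (by
      have := mul_le_mul_of_nonneg_right (exp_le (e := e) (h := h)) pz.le
      linarith)) {y | V.x y ∈ A}
  refine ⟨⟨T1, π1, V.c⟩, ⟨t1, s1, p1⟩, R1, fun j hj => (R3 j (by omega) (by omega)).1,
    fun j _ => Rc_le ls R1 R2.le (by omega) (fun j u v => (R3 j u v).1) j,
    fun j hj => (R3 j (by omega) (by omega)).2,
    c1.trans (mul_le_mul_of_nonneg_right (sqrt_le_two_pow k3) (c0 l)),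
    fun j hj => (c4 j hj.ne).trans (mul_le_mul_of_nonneg_right (two_le (by omega)) (c0 j)), ?_, ?_, ?_⟩
  · rw [if_neg (by omega)]
    exact g1.trans (mul_le_mul_of_nonneg_right (ctl.trans (two_le (by omega))) (Sp.gk_nonneg _ _))
  · change _ ≤ _ * (T1.Z / T1.Zc)
    rw [zc1, ← mul_div_assoc]
    refine div_le_div_of_nonneg_right (z1.trans (mul_le_mul_of_nonneg_right ?_ t1.Z_pos.le)) pc.le
    exact le_self_pow₀ one_le_two (by omega)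
  · have u : {y | Ctr.x ⟨T1, π1, V.c⟩ y ∈ A} = U ⁻¹' {y | V.x y ∈ A} := by
      ext y
      change V.c + π1 ⬝ᵥ y ∈ A ↔ V.c + V.π ⬝ᵥ U y ∈ A
      rw [pU]
    change V.T.P _ - _ ≤ T1.P {y | Ctr.x ⟨T1, π1, V.c⟩ y ∈ A}
    rw [u]
    linarith

/-- narrowing below the level `l` -/
structure Nw (l G X : ℕ) (ε : ℝ) (A : Set ℤ) (V V' : Ctr) : Prop where
  R : V'.T.R = V.T.R
  chi : ∀ j, l ≤ j → V'.T.ct j = V.T.ct j
  clo : ∀ j, V'.T.ct j ≤ 2 ^ G * V.T.ct j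
  g : V'.g1 ≤ 2 ^ G * V.g1
  z : V.T.Z / V.T.Zc ≤ 2 ^ X * (V'.T.Z / V'.T.Zc)
  den : V.den A - ε ≤ V'.den A

theorem Nw.mv {s l G X X' X'' Y : ℕ} {ε ε' : ℝ} {A : Set ℤ} {V V' V'' : Ctr} (ok : V.Ok s)
    (h : Nw l G X ε A V V') (h' : Mv s l X' Y ε' A V' V'') (l2 : 2 ≤ l) (hX : G + X + X' ≤ X'') :
    Mv s l X'' Y (ε + ε') A V V'' := by
  have p : ∀ {x y z : ℝ} {a b : ℕ}, 0 ≤ z → x ≤ 2 ^ a * y → y ≤ 2 ^ b * z → a + b ≤ X'' →
      x ≤ 2 ^ X'' * z := fun {x y z a b} z0 u v w =>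
    (u.trans (mul_le_mul_of_nonneg_left v (by positivity))).trans (by
      rw [← mul_assoc, ← pow_add]; exact mul_le_mul_of_nonneg_right (two_le w) z0)
  refine ⟨h'.ok, h.R ▸ h'.Rl, h.R ▸ h'.Rhi, fun j hj => (h'.Rc j hj).trans_eq ?_,
    fun j hj => h.chi j hj.le ▸ h'.chi j hj, h.chi l le_rfl ▸ h'.cl, fun j hj =>
      p (zero_le_one.trans (TS.one_le_ct ok.1 j)) (h'.clo j hj) (h.clo j) (by omega), ?_,
    p (div_pos h'.ok.1.Z_pos h'.ok.1.Zc_pos).le h.z h'.z (by omega), by linarith [h.den, h'.den]⟩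
  · unfold Ctr.Rc; rw [h.R]
  · have := h'.g
    rw [if_neg (by omega)] at this ⊢
    exact p (Sp.gk_nonneg _ _) this h.g (by omega)

theorem nr_nw (g1n : G1N) {s l n B W Y e : ℕ} {V : Ctr} (A : Set ℤ) (ok : V.Ok s) (l2 : 2 ≤ l)
    (n0 : 0 < n) (n1 : n ≤ 2 ^ W) (cB : Fintype.card V.T.C ≤ B) :
    ∃ x a, (∀ c, l ≤ V.T.lev c → x c = 0 ∧ a c = 0) ∧
      Nw l (B * (W + Y)) (e + 2) (1 / 2 ^ e / 2) A V (V.nr l (1 / 2 ^ Y) n x a) := by
  obtain ⟨lam, hl⟩ : ∃ lam : ℝ, lam = 1 / 2 ^ Y := ⟨_, rfl⟩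
  have l0 : 0 < lam := by rw [hl]; positivity
  have l1 : lam ≤ 1 := by rw [hl]; exact (div_le_one (by positivity)).2 (one_le_pow₀ one_le_two)
  have fac : ∀ j, ((n : ℝ) / lam) ^ V.T.R j ≤ 2 ^ (B * (W + Y)) := fun j => by
    have u : (n : ℝ) / lam ≤ 2 ^ (W + Y) := by
      rw [hl, div_div_eq_mul_div, div_one, pow_add]
      gcongr
      exact_mod_cast n1
    refine (pow_le_pow_left₀ (by positivity) u _).trans ?_
    rw [← pow_mul, mul_comm]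
    exact two_le (Nat.mul_le_mul_right _ ((R_le_card _ j).trans cB))
  rw [← hl]
  have tri := ok.1
  obtain ⟨x, a, hx, den2, z2⟩ := ok.nr_pick l l0 l1 n0 A (ε := 1 / 2 ^ e / 2) (by positivity)
  have c0 : ∀ j, 0 ≤ V.T.ct j := fun j => zero_le_one.trans (TS.one_le_ct tri j)
  have ok2 := ok.nr (l := l) l0 n0 x a
  refine ⟨x, a, hx, rfl, fun j hj => tri.nr_ct_ge l0 n0 hj, fun j => ?_,
    (g1n V s l n lam x a ok l2 l0 l1 n0).trans
      (mul_le_mul_of_nonneg_right (fac 1) (Sp.gk_nonneg _ _)), ?_, den2⟩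
  · rcases lt_or_ge j l with u | u
    · exact (tri.nr_ct_lt l0 l1 n0 u).trans (mul_le_mul_of_nonneg_right (fac j) (c0 j))
    · exact (tri.nr_ct_ge l0 n0 u).trans_le (le_mul_of_one_le_left (c0 j) (one_le_pow₀ one_le_two))
  · have p := (div_pos ok2.1.Z_pos ok2.1.Zc_pos).le
    generalize (V.nr l lam n x a).T.Z / (V.nr l lam n x a).T.Zc = t at z2 p ⊢
    have e1 : (1 : ℝ) / 2 ^ e ≤ 1 := (div_le_one (by positivity)).2 (one_le_pow₀ one_le_two)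
    have u : 1 / 2 ^ e / 2 * (V.T.Z / V.T.Zc) ≤ 2 * t :=
      z2.trans (mul_le_mul_of_nonneg_right (by linarith) p)
    rw [div_div, one_div, inv_mul_le_iff₀ (by positivity)] at u
    exact u.trans_eq (by ring)

theorem bulk {C : Type} [Fintype C] {p : C → Prop} [DecidablePred p] {v : C → ℝ} {t r κ ct : ℝ}
    {s l B W Y h e : ℕ} (cB : Fintype.card C ≤ B) (ls : l ≤ s) (r0 : 0 ≤ r) (r1 : r ≤ 2 ^ W)
    (c0 : 0 ≤ ct) (ctl : ct ≤ 2 ^ B) (k0 : 0 ≤ κ) (k1 : 1 ≤ ct ^ 2 * κ)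
    (hY : W + s + 2 * B + 2 * h + e + 8 ≤ Y)
    (hv : ∀ c, p c → v c ^ 2 ≤ 4 ^ h * (1 / 2 ^ Y) ^ 2)
    (hg : ∑ c with p c, v c ^ 2 ≤ 1 → t ^ 2 ≤ r ^ 2 * l * ∑ c with p c, v c ^ 2) :
    |t| ≤ 1 / 2 ^ (h + e + 8) * √κ := by
  have a : ∑ c with p c, v c ^ 2 ≤ 2 ^ (2 * B) * (4 ^ h * (1 / 2 ^ Y) ^ 2) := by
    refine (sum_le_card_nsmul _ _ _ fun c hc => hv c (mem_filter.1 hc).2).trans ?_
    rw [nsmul_eq_mul]
    gcongr
    exact_mod_cast ((card_filter_le _ _).trans cB).trans (Nat.lt_two_pow_self.le.trans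
      (Nat.pow_le_pow_right two_pos (by omega)))
  obtain ⟨z, rfl⟩ := Nat.exists_eq_add_of_le hY
  have b : (2 : ℝ) ^ (2 * B) * (4 ^ h * (1 / 2 ^ (W + s + 2 * B + 2 * h + e + 8 + z)) ^ 2) =
      (1 / 2 ^ (W + s + B + h + e + 8 + z)) ^ 2 := by
    rw [show (4 : ℝ) = 2 ^ 2 by norm_num, ← pow_mul]
    field_simp
    simp only [← pow_mul, ← pow_add]
    congr 1
    ring
  rw [b] at a
  have o : ∀ n : ℕ, (1 : ℝ) ≤ 2 ^ n := fun n => one_le_pow₀ one_le_two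
  have d := hg (a.trans (pow_le_one₀ (by positivity) ((div_le_one (by positivity)).2 (o _))))
  have f : (l : ℝ) ≤ (2 ^ s) ^ 2 :=
    le_trans (by exact_mod_cast ls.trans Nat.lt_two_pow_self.le) (le_self_pow₀ (o s) two_ne_zero)
  have g : 1 ≤ (2 ^ B) ^ 2 * κ := k1.trans (by gcongr)
  refine abs_le_of_sq_le_sq (d.trans ?_) (by positivity)
  rw [mul_pow, Real.sq_sqrt k0]
  calc r ^ 2 * l * ∑ c with p c, v c ^ 2
      ≤ (2 ^ W) ^ 2 * (2 ^ s) ^ 2 * (1 / 2 ^ (W + s + B + h + e + 8 + z)) ^ 2 := by gcongr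
    _ = (1 / 2 ^ (h + e + 8)) ^ 2 * (1 / ((2 ^ B) ^ 2 * (2 ^ z) ^ 2)) := by
      simp only [pow_add]; field_simp
    _ ≤ _ := by
      gcongr
      rw [div_le_iff₀ (by positivity)]
      nlinarith [one_le_pow₀ (n := 2) (o z)]

end Crest.Agent.N49.Tw.Rf

end
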