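import Crest.Agent.N49.Po.Mix

/-!
# Row 49 (helper62): Gaussian weights as exact mixtures over real centres
-/

set_option autoImplicit false

open Matrix MeasureTheory

noncomputable section

namespace Crest.Agent.N49.Rf

open Po

theorem integrable_tsum {X Y : Type*} [MeasurableSpace X] {μ : Measure X} [Countable Y]
    {F : Y → X → ℝ} (h : ∀ y, Integrable (F y) μ) (hs : Summable fun y => ∫ x, ‖F y x‖ ∂μ) :
    Integrable (fun x => ∑' y, F y x) μ := by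
  refine ⟨(AEMeasurable.tsum fun y => (h y).aemeasurable).aestronglyMeasurable, ?_⟩
  refine lt_of_le_of_lt (lintegral_mono fun x => enorm_tsum_le_tsum_enorm) ?_
  rw [lintegral_tsum fun y => (h y).aemeasurable.enorm]
  have e : ∀ y, ∫⁻ x, ‖F y x‖ₑ ∂μ = ENNReal.ofReal (∫ x, ‖F y x‖ ∂μ) := fun y =>
    (ofReal_integral_norm_eq_lintegral_enorm (h y)).symm
  rw [tsum_congr e, ← ENNReal.ofReal_tsum_of_nonneg
    (fun y => integral_nonneg fun x => norm_nonneg _) hs]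
  exact ENNReal.ofReal_lt_top

/-- a member of a mixture is at least as large as the mean -/
theorem exists_ge {X : Type*} [MeasurableSpace X] {μ : Measure X} [NeZero μ] {G S : X → ℝ}
    (hG : ∀ x, 0 < G x) (iG : Integrable G μ) (iS : Integrable (fun x => G x * S x) μ) {c : ℝ}
    (h : c * ∫ x, G x ∂μ ≤ ∫ x, G x * S x ∂μ) : ∃ x, c ≤ S x := by
  by_contra a
  push Not at a
  have i : Integrable (fun x => c * G x - G x * S x) μ := (iG.const_mul c).sub iS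
  have p : ∀ x, 0 < c * G x - G x * S x := fun x => by nlinarith [hG x, a x]
  have z : ∫ x, (c * G x - G x * S x) ∂μ = 0 := by
    refine le_antisymm ?_ (integral_nonneg fun x => (p x).le)
    rw [integral_sub (iG.const_mul c) iS, integral_const_mul]
    linarith
  obtain ⟨x, hx⟩ := ((integral_eq_zero_iff_of_nonneg (fun x => (p x).le) i).1 z).exists
  exact (p x).ne' hx

variable {C e : Type} [Fintype C] [DecidableEq C] [Fintype e] [DecidableEq e]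
  {K1 : Matrix C C ℝ} {K2 : Matrix e e ℝ}

omit [DecidableEq C] [DecidableEq e] in
theorem pd_add (h1 : K1.PosDef) (h2 : K2.PosDef) (B : Matrix C e ℝ) :
    (K1 + B * K2 * Bᵀ).PosDef :=
  h1.add_posSemidef (by
    simpa [conjTranspose_eq_transpose_of_trivial] using h2.posSemidef.mul_mul_conjTranspose_same B)

theorem pd_prec (h1 : K1.PosDef) (h2 : K2.PosDef) (B : Matrix C e ℝ) :
    (K2⁻¹ + Bᵀ * K1⁻¹ * B).PosDef :=
  h2.inv.add_posSemidef (by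
    simpa [conjTranspose_eq_transpose_of_trivial] using
      h1.inv.posSemidef.conjTranspose_mul_mul_same B)

/-- completing the square -/
theorem qf_sq (h1 : K1.PosDef) (h2 : K2.PosDef) (B : Matrix C e ℝ) (u : C → ℝ) (x : e → ℝ) :
    qf K2⁻¹ x + qf K1⁻¹ (u - B *ᵥ x) = qf (K1 + B * K2 * Bᵀ)⁻¹ u +
      qf (K2⁻¹ + Bᵀ * K1⁻¹ * B) (x - K2 *ᵥ Bᵀ *ᵥ (K1 + B * K2 * Bᵀ)⁻¹ *ᵥ u) := by
  have u0 := (pd_add h1 h2 B).det_pos.ne'.isUnit
  have u1 := h1.det_pos.ne'.isUnit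
  have u2 := h2.det_pos.ne'.isUnit
  obtain ⟨w, hw⟩ : ∃ w, w = (K1 + B * K2 * Bᵀ)⁻¹ *ᵥ u := ⟨_, rfl⟩
  have hu : u = K1 *ᵥ w + B *ᵥ K2 *ᵥ Bᵀ *ᵥ w := by
    rw [mulVec_mulVec, mulVec_mulVec, ← add_mulVec, hw, mulVec_mulVec, mul_nonsing_inv _ u0,
      one_mulVec]
  rw [← hw]
  obtain ⟨t, rfl⟩ : ∃ t, x = K2 *ᵥ Bᵀ *ᵥ w + t := ⟨x - K2 *ᵥ Bᵀ *ᵥ w, by abel⟩
  have e1 : u - B *ᵥ (K2 *ᵥ Bᵀ *ᵥ w + t) = K1 *ᵥ w - B *ᵥ t := by
    rw [hu, mulVec_add]; abel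
  have e2 : qf (K1 + B * K2 * Bᵀ)⁻¹ u = w ⬝ᵥ u := by rw [qf, ← hw, dotProduct_comm]
  have i1 : K1⁻¹ *ᵥ K1 *ᵥ w = w := by rw [mulVec_mulVec, nonsing_inv_mul _ u1, one_mulVec]
  have i2 : ∀ v, K2⁻¹ *ᵥ K2 *ᵥ v = v := fun v => by
    rw [mulVec_mulVec, nonsing_inv_mul _ u2, one_mulVec]
  have d1 : ∀ v, w ⬝ᵥ B *ᵥ v = (Bᵀ *ᵥ w) ⬝ᵥ v := fun v => by
    rw [dotProduct_mulVec, mulVec_transpose]
  have q1 : qf K1⁻¹ (K1 *ᵥ w) = (K1 *ᵥ w) ⬝ᵥ w := by rw [qf, i1]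
  have q2 : qf K2⁻¹ (K2 *ᵥ Bᵀ *ᵥ w) = (K2 *ᵥ Bᵀ *ᵥ w) ⬝ᵥ Bᵀ *ᵥ w := by rw [qf, i2]
  rw [e1, e2, add_sub_cancel_left, qf_add_left, qf_conj, qf_add h2.inv, qf_sub h1.inv,
    symm_dot h2.inv, symm_dot h1.inv, i1, i2, q1, q2]
  conv_rhs => rw [hu, dotProduct_add, d1]
  rw [dotProduct_comm (B *ᵥ t) w, d1, dotProduct_comm t, dotProduct_comm (K1 *ᵥ w) w,
    dotProduct_comm (K2 *ᵥ _)]
  ring

theorem gs_sq (h1 : K1.PosDef) (h2 : K2.PosDef) (B : Matrix C e ℝ) (u : C → ℝ) (x : e → ℝ) :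
    gs K2⁻¹ x * gs K1⁻¹ (u - B *ᵥ x) = gs (K1 + B * K2 * Bᵀ)⁻¹ u *
      gs (K2⁻¹ + Bᵀ * K1⁻¹ * B) (x - K2 *ᵥ Bᵀ *ᵥ (K1 + B * K2 * Bᵀ)⁻¹ *ᵥ u) := by
  simp only [gs, ← Real.exp_add]
  congr 1
  linear_combination (-Real.pi) * qf_sq h1 h2 B u x

theorem integrable_sq (h1 : K1.PosDef) (h2 : K2.PosDef) (B : Matrix C e ℝ) (u : C → ℝ) :
    Integrable fun x => gs K2⁻¹ x * gs K1⁻¹ (u - B *ᵥ x) := by
  simp only [gs_sq h1 h2]
  exact ((integrable_gs (pd_prec h1 h2 B)).comp_sub_right _).const_mul _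

theorem integral_sq (h1 : K1.PosDef) (h2 : K2.PosDef) (B : Matrix C e ℝ) (u : C → ℝ) :
    ∫ x, gs K2⁻¹ x * gs K1⁻¹ (u - B *ᵥ x) =
      gs (K1 + B * K2 * Bᵀ)⁻¹ u * dt (K2⁻¹ + Bᵀ * K1⁻¹ * B) := by
  simp only [gs_sq h1 h2]
  rw [integral_const_mul, integral_sub_right_eq_self (gs _), integral_gs_real (pd_prec h1 h2 B)]

theorem det_sq (h1 : K1.PosDef) (h2 : K2.PosDef) (B : Matrix C e ℝ) :
    (K1 + B * K2 * Bᵀ).det = K1.det * K2.det * (K2⁻¹ + Bᵀ * K1⁻¹ * B).det := by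
  have u1 := h1.det_pos.ne'.isUnit
  have u2 := h2.det_pos.ne'.isUnit
  have a : K1 + B * K2 * Bᵀ = K1 * (1 + K1⁻¹ * B * (K2 * Bᵀ)) := by
    rw [Matrix.mul_add, Matrix.mul_one, Matrix.mul_assoc K1⁻¹, ← Matrix.mul_assoc K1,
      mul_nonsing_inv _ u1, Matrix.one_mul, Matrix.mul_assoc]
  have b : 1 + K2 * Bᵀ * (K1⁻¹ * B) = K2 * (K2⁻¹ + Bᵀ * K1⁻¹ * B) := by
    rw [Matrix.mul_add, mul_nonsing_inv _ u2]
    simp only [Matrix.mul_assoc]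
  rw [a, det_mul, det_one_add_mul_comm, b, det_mul, mul_assoc]

theorem dt_sq (h1 : K1.PosDef) (h2 : K2.PosDef) (B : Matrix C e ℝ) :
    dt (K1 + B * K2 * Bᵀ)⁻¹ * dt (K2⁻¹ + Bᵀ * K1⁻¹ * B) = dt K1⁻¹ * dt K2⁻¹ := by
  have p := Real.sqrt_pos.2 (pd_prec h1 h2 B).det_pos
  simp only [dt_inv]
  simp only [dt, inv_inv]
  rw [det_sq h1 h2, Real.sqrt_mul (mul_pos h1.det_pos h2.det_pos).le,
    Real.sqrt_mul h1.det_pos.le, mul_assoc, mul_inv_cancel₀ p.ne', mul_one]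

/-- the normalised sums with covariance `K1 + B K2 Bᵀ` are mixtures of the normalised sums with
covariance `K1` and centres `B x` -/
theorem mix_pick {Y : Type} [Countable Y] (h1 : K1.PosDef) (h2 : K2.PosDef) (B : Matrix C e ℝ)
    (a : Y → C → ℝ) (hs : Summable fun y => gs (K1 + B * K2 * Bᵀ)⁻¹ (a y)) {g : Y → ℝ} {L : ℝ}
    (hg : ∀ y, |g y| ≤ L) : ∃ x : e → ℝ,
      (∑' y, gs (K1 + B * K2 * Bᵀ)⁻¹ (a y) * g y) / dt (K1 + B * K2 * Bᵀ)⁻¹ ≤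
        (∑' y, gs K1⁻¹ (a y - B *ᵥ x) * g y) / dt K1⁻¹ := by
  have p0 := dt_pos (pd_add h1 h2 B).inv
  have p1 := dt_pos h1.inv
  have i : ∀ y, Integrable fun x => gs K2⁻¹ x * gs K1⁻¹ (a y - B *ᵥ x) * g y := fun y =>
    (integrable_sq h1 h2 B _).mul_const _
  have s : Summable fun y => ∫ x, ‖gs K2⁻¹ x * gs K1⁻¹ (a y - B *ᵥ x) * g y‖ := by
    refine Summable.of_nonneg_of_le (fun y => integral_nonneg fun x => norm_nonneg _) (fun y => ?_)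
      ((hs.mul_right (dt (K2⁻¹ + Bᵀ * K1⁻¹ * B))).mul_right L)
    rw [← integral_sq h1 h2, ← integral_mul_const]
    refine integral_mono (i y).norm ((integrable_sq h1 h2 B _).mul_const _) fun x => ?_
    have := mul_pos (gs_pos K2⁻¹ x) (gs_pos K1⁻¹ (a y - B *ᵥ x))
    simp only
    rw [norm_mul, Real.norm_of_nonneg this.le]
    exact mul_le_mul_of_nonneg_left (hg y) this.le
  have e1 : ∀ x, ∑' y, gs K2⁻¹ x * gs K1⁻¹ (a y - B *ᵥ x) * g y =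
      gs K2⁻¹ x * ∑' y, gs K1⁻¹ (a y - B *ᵥ x) * g y := fun x => by
    rw [← tsum_mul_left]; simp only [mul_assoc]
  have e2 := integral_tsum_of_summable_integral_norm i s
  have i2 := integrable_tsum i s
  simp only [e1] at e2 i2
  simp only [integral_mul_const, integral_sq h1 h2] at e2
  obtain ⟨x, hx⟩ := exists_ge (fun x => gs_pos K2⁻¹ x) (integrable_gs h2.inv) i2
    (c := (∑' y, gs (K1 + B * K2 * Bᵀ)⁻¹ (a y) * g y) / dt (K1 + B * K2 * Bᵀ)⁻¹ * dt K1⁻¹) (by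
      rw [← e2, integral_gs_real h2.inv, mul_assoc, ← dt_sq h1 h2 B, ← mul_assoc,
        div_mul_cancel₀ _ p0.ne', ← tsum_mul_right]
      exact le_of_eq (tsum_congr fun y => by ring))
  exact ⟨x, (le_div_iff₀ p1).2 hx⟩

end Crest.Agent.N49.Rf

end
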