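import Crest.Agent.N49.Tw.Exp
import Crest.Agent.N49.Rf.Raw

/-!
# Row 49 (helper62): narrowing a typed structure is an exact mixture over real offsets; PICK
-/

set_option autoImplicit false

open Matrix MvPolynomial Finset
open scoped MatrixOrder

noncomputable section

namespace Crest.Agent.N49.Tw.TS

open Po

variable {σ σ' : Type} {T : TS σ}

/-- sums normalised by the continuous partition function -/
def N (T : TS σ) (g : (T.C → ℤ) → ℝ) : ℝ := T.S g / T.Zc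

theorem N_one (T : TS σ) : T.N (fun _ => 1) = T.Z / T.Zc := by rw [N, S_one]

theorem Zc_eq (T : TS σ) : T.Zc = dt T.K⁻¹ / |T.A.det| := by
  rw [Zc, dt_inv, dt_inv, dt, dt, inv_inv, inv_inv, D, det_mul, det_mul, det_transpose,
    det_nonsing_inv, Ring.inverse_eq_inv', mul_comm, ← mul_assoc, ← sq, Real.sqrt_mul (sq_nonneg _),
    Real.sqrt_sq_eq_abs, abs_inv, div_eq_inv_mul]

/-- a member of a mixture that keeps the density and a share of the mass -/
theorem Tri.pick (h : T.Tri) {T' : TS σ'} (h' : T'.Tri) {φ : (T'.C → ℤ) → T.C → ℤ}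
    {f : (T.C → ℤ) → ℝ} (h0 : ∀ y, 0 ≤ f y) (h1 : ∀ y, f y ≤ 1) {ε : ℝ} (hε : 0 < ε)
    (H : T.N (fun y => f y - T.E f + ε) ≤ T'.N fun y => f (φ y) - T.E f + ε) :
    T.E f - ε ≤ T'.E (fun y => f (φ y)) ∧ ε * (T.Z / T.Zc) ≤ (1 + ε) * (T'.Z / T'.Zc) := by
  have bf : Bb f := .of_mem h0 h1
  have e1 : T.N (fun y => f y - T.E f + ε) = ε * (T.Z / T.Zc) := by
    rw [N, h.S_add (bf.sub (.const _)) (.const _), h.S_sub bf (.const _), S_const, S_const, E,
      mul_div_cancel₀ _ h.Z_pos.ne', sub_self, zero_add, mul_comm, mul_div_assoc]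
  have e2 : T'.N (fun y => f (φ y) - T.E f + ε) =
      (T'.E (fun y => f (φ y)) - T.E f + ε) * (T'.Z / T'.Zc) := by
    have := h'.Z_pos.ne'
    rw [N, h'.S_add ((bf.comp φ).sub (.const _)) (.const _), h'.S_sub (bf.comp φ) (.const _),
      S_const, S_const, show T'.E (fun y => f (φ y)) = T'.S (fun y => f (φ y)) / T'.Z from rfl]
    field_simp
  rw [e1, e2] at H
  have p : 0 < T'.Z / T'.Zc := div_pos h'.Z_pos h'.Zc_pos
  have p0 : 0 < ε * (T.Z / T.Zc) := mul_pos hε (div_pos h.Z_pos h.Zc_pos)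
  have a1 : T'.E (fun y => f (φ y)) ≤ 1 := h'.E_le (bf.comp φ) fun y => h1 _
  have a0 : 0 ≤ T.E f := E_nonneg h0
  refine ⟨?_, H.trans (mul_le_mul_of_nonneg_right (by linarith) p.le)⟩
  have := (mul_pos_iff_of_pos_right p).1 (p0.trans_le H)
  linarith

theorem bb_pick {α : Type} {f : α → ℝ} (h0 : ∀ y, 0 ≤ f y) (h1 : ∀ y, f y ≤ 1) (a ε : ℝ) :
    Bb fun y => f y - a + ε := ((Bb.of_mem h0 h1).sub (.const _)).add (.const _)

/-! ### offsets -/

/-- real offsets of the errors -/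
def off (T : TS σ) (x : T.C → ℝ) : TS σ where
  C := T.C
  deg := T.deg
  Φ c := T.Φ c - MvPolynomial.C (x c)
  K := T.K

theorem off_lev (T : TS σ) (x : T.C → ℝ) : (T.off x).lev = T.lev := rfl
theorem off_K (T : TS σ) (x : T.C → ℝ) : (T.off x).K = T.K := rfl
theorem off_R (T : TS σ) (x : T.C → ℝ) : (T.off x).R = T.R := rfl

theorem off_A (T : TS σ) (x : T.C → ℝ) : (T.off x).A = T.A := by
  refine funext fun c : T.C => funext fun c' : T.C => ?_
  change (if T.lev c = T.lev c' then coeff (Finsupp.single c' 1) (T.Φ c - MvPolynomial.C (x c))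
    else 0) = if T.lev c = T.lev c' then coeff (Finsupp.single c' 1) (T.Φ c) else 0
  rw [coeff_sub, coeff_C, if_neg (Finsupp.single_ne_zero.2 one_ne_zero).symm, sub_zero]

theorem off_u (T : TS σ) (x y : T.C → ℝ) : (T.off x).u y = T.u y - x :=
  funext fun c : T.C => by
    change eval y (T.Φ c - MvPolynomial.C (x c)) = eval y (T.Φ c) - x c
    rw [map_sub, eval_C]

theorem off_D (T : TS σ) (x : T.C → ℝ) : (T.off x).D = T.D := by unfold D; rw [off_A]; rfl
theorem off_Zc (T : TS σ) (x : T.C → ℝ) : (T.off x).Zc = T.Zc := by unfold Zc; rw [off_D]; rfl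
theorem off_ct (T : TS σ) (x : T.C → ℝ) : (T.off x).ct = T.ct := by unfold ct; rw [off_D]; rfl
theorem off_pt0 (T : TS σ) (x : T.C → ℝ) : (T.off x).pt0 = T.pt0 := by unfold pt0; rw [off_D]; rfl

theorem off_th (T : TS σ) (x y : T.C → ℝ) : (T.off x).th y = T.th y + T.A⁻¹ *ᵥ x := by
  unfold th
  rw [off_A, off_u]
  change y - T.A⁻¹ *ᵥ (T.u y - x) = _
  rw [mulVec_sub]
  abel

theorem off_wt (T : TS σ) (x : T.C → ℝ) (y : T.C → ℤ) :
    (T.off x).wt y = gs T.K⁻¹ (T.u (zc y) - x) := congrArg (gs T.K⁻¹) (T.off_u x (zc y))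

theorem Tri.off (h : T.Tri) (x : T.C → ℝ) : (T.off x).Tri where
  tri := fun (c : T.C) (m : T.C →₀ ℕ) hm => by
    change Finsupp.weight T.lev m ≤ T.lev c
    by_cases e : m = 0
    · simp [e]
    · refine h.tri c m (mem_support_iff.2 fun z => mem_support_iff.1 hm ?_)
      change coeff m (T.Φ c - MvPolynomial.C (x c)) = 0
      rw [coeff_sub, coeff_C, if_neg (Ne.symm e), z, sub_zero]
  ne := h.ne
  det := by rw [off_A]; exact h.det
  pd := h.pd
  blk := h.blk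

theorem Low.off {p : T.C → Prop} (hp : T.Low p) (x : T.C → ℝ) : (T.off x).Low p :=
  fun (c : T.C) hc (c' : T.C) h' => hp c hc c' (by
    have : c' ∈ (T.Φ c - MvPolynomial.C (x c)).vars := h'
    have := vars_sub_subset _ this
    simpa [vars_C] using this)

theorem setK_A (T : TS σ) (K : Matrix T.C T.C ℝ) : (T.setK K).A = T.A := rfl
theorem setK_u (T : TS σ) (K : Matrix T.C T.C ℝ) : (T.setK K).u = T.u := rfl
theorem setK_th (T : TS σ) (K : Matrix T.C T.C ℝ) : (T.setK K).th = T.th := rfl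
theorem shr_A (T : TS σ) (κ : ℕ → ℝ) : (T.shr κ).A = T.A := rfl
theorem shr_u (T : TS σ) (κ : ℕ → ℝ) : (T.shr κ).u = T.u := rfl
theorem shr_th (T : TS σ) (κ : ℕ → ℝ) : (T.shr κ).th = T.th := rfl
theorem shr_R (T : TS σ) (κ : ℕ → ℝ) : (T.shr κ).R = T.R := rfl

/-- **NAR**: `K = K1 + B K2 Bᵀ`, offsets `B x` -/
theorem Tri.nar_pick (h : T.Tri) {e : Type} [Fintype e] [DecidableEq e] {K1 : Matrix T.C T.C ℝ}
    {K2 : Matrix e e ℝ} (h1 : K1.PosDef) (h2 : K2.PosDef) (B : Matrix T.C e ℝ)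
    (hK : T.K = K1 + B * K2 * Bᵀ) {g : (T.C → ℤ) → ℝ} (hg : Bb g) :
    ∃ x, T.N g ≤ ((T.setK K1).off (B *ᵥ x)).N g := by
  obtain ⟨L, hL⟩ := hg
  have hs : Summable fun y => gs (K1 + B * K2 * Bᵀ)⁻¹ (T.u (zc y)) := hK ▸ h.summable
  obtain ⟨x, hx⟩ := Rf.mix_pick h1 h2 B (fun y => T.u (zc y)) hs hL
  refine ⟨x, ?_⟩
  unfold N
  rw [off_Zc, Zc_eq, Zc_eq, div_div_eq_mul_div, div_div_eq_mul_div, mul_div_right_comm,
    mul_div_right_comm]
  refine mul_le_mul_of_nonneg_right ?_ (abs_nonneg _)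
  rw [← hK] at hx
  refine hx.trans_eq (congrArg (· / _) (tsum_congr fun y => ?_))
  exact congrArg (· * g y) ((T.setK K1).off_wt (B *ᵥ x) y).symm

/-- **NAR** for any smaller covariance; no offset where the variance is kept -/
theorem Tri.nar_psd (h : T.Tri) {K1 : Matrix T.C T.C ℝ} (h1 : K1.PosDef)
    (h2 : (T.K - K1).PosSemidef) {g : (T.C → ℤ) → ℝ} (hg : Bb g) :
    ∃ x, (∀ c, T.K c c = K1 c c → x c = 0) ∧ T.N g ≤ ((T.setK K1).off x).N g := by
  obtain ⟨B, hB⟩ := CStarAlgebra.nonneg_iff_eq_star_mul_self.1 h2.nonneg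
  have hB' : T.K - K1 = Bᵀ * B := by simpa [star_eq_conjTranspose] using hB
  obtain ⟨x, hx⟩ := h.nar_pick h1 PosDef.one Bᵀ
    (by rw [Matrix.mul_one, transpose_transpose, ← hB', add_sub_cancel]) hg
  refine ⟨_, fun c hc => ?_, hx⟩
  have z : ∑ j, B j c * B j c = 0 := by
    have := congrFun (congrFun hB' c) c
    rwa [Matrix.sub_apply, hc, sub_self, eq_comm] at this
  have z' := (sum_eq_zero_iff_of_nonneg fun j _ => mul_self_nonneg (B j c)).1 z
  exact sum_eq_zero fun j hj => mul_eq_zero_of_left (mul_self_eq_zero.1 (z' j hj)) _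

theorem Tri.shr_psd (h : T.Tri) {κ : ℕ → ℝ} (h1 : ∀ l, κ l ^ 2 ≤ 1) :
    (T.K - Matrix.of fun c c' => κ (T.lev c) * T.K c c' * κ (T.lev c')).PosSemidef := by
  have := h.pd.posSemidef.conjTranspose_mul_mul_same
    (diagonal fun c => √(1 - κ (T.lev c) ^ 2))
  convert this using 1
  refine funext fun c : T.C => funext fun c' : T.C => ?_
  rw [conjTranspose_eq_transpose_of_trivial, diagonal_transpose, mul_diagonal, diagonal_mul]
  change T.K c c' - κ (T.lev c) * T.K c c' * κ (T.lev c') = _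
  by_cases e : T.lev c = T.lev c'
  · rw [← e, mul_right_comm _ _ (√_), Real.mul_self_sqrt (sub_nonneg.2 (h1 _))]; ring
  · simp [h.blk_K c c' e]

/-- **NAR** level by level -/
theorem Tri.nar_shr (h : T.Tri) {κ : ℕ → ℝ} (h0 : ∀ l, 0 < κ l) (h1 : ∀ l, κ l ≤ 1)
    {g : (T.C → ℤ) → ℝ} (hg : Bb g) :
    ∃ x, (∀ c, κ (T.lev c) = 1 → x c = 0) ∧ T.N g ≤ ((T.shr κ).off x).N g := by
  obtain ⟨x, hx, H⟩ := h.nar_psd (h.shr fun l => (h0 l).ne').pd
    (h.shr_psd fun l => pow_le_one₀ (h0 l).le (h1 l)) hg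
  refine ⟨x, fun c hc => hx c ?_, H⟩
  change T.K c c = κ (T.lev c) * T.K c c * κ (T.lev c)
  rw [hc, one_mul, mul_one]

theorem blk_diag {ι : Type} [Fintype ι] [DecidableEq ι] {lev : ι → ℕ} {M : Matrix ι ι ℝ}
    (h : Rw.Blk lev M) (κ : ℕ → ℝ) :
    M * diagonal (fun c => κ (lev c)) = diagonal (fun c => κ (lev c)) * M := by
  ext c c'
  rw [mul_diagonal, diagonal_mul]
  by_cases e : lev c = lev c'
  · rw [e, mul_comm]
  · simp [h c c' e]

theorem shr_D (T : TS σ) (κ : ℕ → ℝ) : (T.shr κ).D =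
    diagonal (fun c => κ (T.lev c)) * T.D * diagonal fun c => κ (T.lev c) := by
  have := T.shr_K κ
  change (Matrix.of fun c c' => κ (T.lev c) * T.K c c' * κ (T.lev c')) = _ at this
  change T.A⁻¹ * (Matrix.of fun c c' => κ (T.lev c) * T.K c c' * κ (T.lev c')) * T.A⁻¹ᵀ = _
  rw [this, D, ← Matrix.mul_assoc, ← Matrix.mul_assoc, blk_diag (blk_inv T.blk_A),
    Matrix.mul_assoc _ _ T.A⁻¹ᵀ, ← blk_diag (blk_tr (blk_inv T.blk_A))]
  simp only [Matrix.mul_assoc]

theorem shr_D_lev (T : TS σ) (κ : ℕ → ℝ) (l : ℕ) :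
    (T.shr κ).D.submatrix (Subtype.val : {c // T.lev c = l} → T.C)
      (Subtype.val : {c // T.lev c = l} → T.C) = (κ l ^ 2) • T.D.submatrix
        (Subtype.val : {c // T.lev c = l} → T.C) (Subtype.val : {c // T.lev c = l} → T.C) := by
  rw [shr_D]
  ext c c'
  change (diagonal (fun c => κ (T.lev c)) * T.D * diagonal fun c => κ (T.lev c) :
    Matrix T.C T.C ℝ) c.1 c'.1 = _
  rw [mul_diagonal, diagonal_mul, c.2, c'.2, Matrix.smul_apply, submatrix_apply,
    smul_eq_mul]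
  ring

theorem card_lev (T : TS σ) (l : ℕ) : Fintype.card {c // T.lev c = l} = T.R l :=
  Fintype.card_subtype _

theorem Tri.pd_Dl (h : T.Tri) (l : ℕ) :
    (T.D.submatrix (Subtype.val : {c // T.lev c = l} → T.C) Subtype.val).PosDef :=
  h.pd_D.submatrix Subtype.val_injective

theorem shr_ct_one (T : TS σ) {κ : ℕ → ℝ} {l : ℕ} (h : κ l = 1) : (T.shr κ).ct l = T.ct l := by
  change Po.th ((T.shr κ).D.submatrix (Subtype.val : {c // T.lev c = l} → T.C)
    (Subtype.val : {c // T.lev c = l} → T.C)) 0 = _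
  rw [shr_D_lev, h, one_pow, one_smul, ct]

theorem Tri.shr_ct (h : T.Tri) {κ : ℕ → ℝ} {l : ℕ} (h0 : 0 < κ l) (h1 : κ l ≤ 1) :
    (T.shr κ).ct l ≤ (κ l)⁻¹ ^ T.R l * T.ct l := by
  change Po.th ((T.shr κ).D.submatrix (Subtype.val : {c // T.lev c = l} → T.C)
    (Subtype.val : {c // T.lev c = l} → T.C)) 0 ≤ _
  have := th_scale (h.pd_Dl l) (pow_pos h0 2) (pow_le_one₀ h0.le h1) 0
  rwa [Real.sqrt_sq h0.le, card_lev, ← shr_D_lev] at this

end Crest.Agent.N49.Tw.TS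

end
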