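import Crest.Agent.N49.Rf.New
import Crest.Agent.N49.Tw.Iso

/-!
# Row 49 (helper62): exact partitions of unity: a law is a mixture of its extensions
-/

set_option autoImplicit false

open Matrix Finset MeasureTheory

noncomputable section

namespace Crest.Agent.N49.Rf

open Po R312.PZ

variable {d : Type} [Fintype d] {lev : d → ℕ} {θ : (d → ℤ) → d → ℝ}

/-- the cell of `n` -/
def cell (θ : (d → ℤ) → d → ℝ) (n : d → ℤ) : Set (d → ℝ) := {t | zc n - θ n - t ∈ cube 0}

omit [Fintype d] in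
theorem mem_cell {n : d → ℤ} {t : d → ℝ} :
    t ∈ cell θ n ↔ ∀ i, n i = ⌊θ n i + t i⌋ + 1 := by
  simp only [cell, cube, Set.mem_ofPred_eq, Pi.sub_apply, zc, Pi.zero_apply, Int.cast_zero,
    zero_add, Set.mem_Ioc]
  refine forall_congr' fun i => ?_
  rw [← sub_eq_iff_eq_add, eq_comm, Int.floor_eq_iff]
  push_cast
  constructor <;> rintro ⟨a, b⟩ <;> constructor <;> linarith

omit [Fintype d] in
theorem cell_disjoint (hθ : Rw.Tri lev θ) : Pairwise (Function.onFun Disjoint (cell θ)) := by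
  intro m n hmn
  refine Set.disjoint_left.2 fun t hm hn => hmn ?_
  have : ∀ l i, lev i = l → m i = n i := fun l => by
    induction l using Nat.strong_induction_on with
    | _ l ih =>
      intro i hi
      rw [mem_cell.1 hm i, mem_cell.1 hn i, hθ m n i fun j hj => ih _ (hi ▸ hj) j rfl]
  exact funext fun i => this _ i rfl

theorem iUnion_cell (hθ : Rw.Tri lev θ) : ⋃ n, cell θ n = Set.univ := by
  refine Set.eq_univ_of_forall fun t => Set.mem_iUnion.2 ?_
  have : ∀ l, ∃ n : d → ℤ, ∀ i, lev i < l → n i = ⌊θ n i + t i⌋ + 1 := fun l => by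
    induction l with
    | zero => exact ⟨0, fun _ h => absurd h (Nat.not_lt_zero _)⟩
    | succ l ih =>
      obtain ⟨n, hn⟩ := ih
      refine ⟨fun i => ⌊θ n i + t i⌋ + 1, fun i hi => ?_⟩
      rw [hθ _ n i fun j hj => (hn j (by omega)).symm]
  obtain ⟨n, hn⟩ := this (univ.sup lev + 1)
  exact ⟨n, mem_cell.2 fun i => hn i (Nat.lt_succ_of_le (le_sup (mem_univ i)))⟩

theorem meas_cell (n : d → ℤ) : MeasurableSet (cell θ n) :=
  (measurableSet_cube 0).preimage (measurable_id.const_sub _)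

theorem integral_cell (f : (d → ℝ) → ℝ) (n : d → ℤ) :
    ∫ t in cell θ n, f t = ∫ x in cube 0, f (zc n - θ n - x) := by
  rw [← integral_indicator (meas_cell n), ← integral_indicator (measurableSet_cube _),
    ← integral_sub_left_eq_self _ volume (zc n - θ n)]
  refine integral_congr_ae (.of_forall fun x => ?_)
  have : zc n - θ n - x ∈ cell θ n ↔ x ∈ cube (0 : d → ℤ) := by simp [cell]
  by_cases hx : x ∈ cube (0 : d → ℤ)
  · simp only [Set.indicator_of_mem hx, Set.indicator_of_mem (this.2 hx)]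
  · simp only [Set.indicator_of_notMem hx, Set.indicator_of_notMem (mt this.1 hx)]

/-- triangular centres tile the space -/
theorem tile (hθ : Rw.Tri lev θ) {f : (d → ℝ) → ℝ} (hf : Integrable f) :
    HasSum (fun n : d → ℤ => ∫ x in cube 0, f (zc n - θ n - x)) (∫ x, f x) := by
  have := hasSum_integral_iUnion (μ := volume) (f := f) meas_cell (cell_disjoint hθ) hf.integrableOn
  rw [iUnion_cell hθ, Measure.restrict_univ] at this
  simpa only [integral_cell] using this

theorem tile_tsum (hθ : Rw.Tri lev θ) {f : (d → ℝ) → ℝ} (hf : Integrable f) :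
    Integrable (fun x => ∑' n : d → ℤ, f (zc n - θ n - x)) (volume.restrict (cube 0)) ∧
      ∫ x in cube 0, ∑' n : d → ℤ, f (zc n - θ n - x) = ∫ x, f x := by
  have i : ∀ n : d → ℤ, Integrable (fun x => f (zc n - θ n - x)) (volume.restrict (cube 0)) :=
    fun n => (hf.comp_sub_left _).integrableOn
  have s := (tile hθ hf.norm).summable
  exact ⟨integrable_tsum i s, by
    rw [← integral_tsum_of_summable_integral_norm i s, (tile hθ hf).tsum_eq]⟩

theorem pick_cube {Y : Type} [Countable Y] {H : Y → (d → ℝ) → ℝ} {g I : Y → ℝ}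
    (h0 : ∀ y x, 0 ≤ H y x) (i : ∀ y, Integrable (H y) (volume.restrict (cube 0)))
    (e : ∀ y, ∫ x in cube 0, H y x = I y) (s : Summable fun y => I y * |g y|) :
    ∃ x, ∑' y, I y * g y ≤ ∑' y, H y x * g y := by
  have := prob_cube (d := d)
  have i' : ∀ y, Integrable (fun x => H y x * g y) (volume.restrict (cube 0)) :=
    fun y => (i y).mul_const _
  have s' : Summable fun y => ∫ x in cube 0, ‖H y x * g y‖ := s.congr fun y => by
    simp only [norm_mul, Real.norm_of_nonneg (h0 _ _)]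
    rw [integral_mul_const, e, Real.norm_eq_abs]
  obtain ⟨x, hx⟩ := exists_integral_le (integrable_tsum i' s')
  refine ⟨x, le_trans (le_of_eq ?_) hx⟩
  rw [← integral_tsum_of_summable_integral_norm i' s']
  exact tsum_congr fun y => by rw [integral_mul_const, e]

variable [DecidableEq d]

theorem dt_conj (M A : Matrix d d ℝ) : dt (Aᵀ * M * A) = dt M / |A.det| := by
  rw [dt, dt, det_mul, det_mul, det_transpose, mul_right_comm, ← sq, Real.sqrt_mul (sq_nonneg _),
    Real.sqrt_sq_eq_abs, mul_inv, div_eq_inv_mul]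

theorem integral_aff {M A : Matrix d d ℝ} (hM : M.PosDef) (hA : A.det ≠ 0) (w : d → ℝ) :
    Integrable (fun t => gs M (A *ᵥ t + w)) ∧ ∫ t, gs M (A *ᵥ t + w) = dt M / |A.det| := by
  have p := posDef_conj hM (B := A)
    (mulVec_injective_iff_isUnit.2 ((isUnit_iff_isUnit_det _).2 hA.isUnit))
  have e : ∀ t, gs M (A *ᵥ t + w) = gs (Aᵀ * M * A) (t + A⁻¹ *ᵥ w) := fun t => by
    rw [gs, gs, qf_conj, mulVec_add, mulVec_mulVec, mul_nonsing_inv _ hA.isUnit, one_mulVec]
  simp only [e]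
  exact ⟨(integrable_gs p).comp_add_right _, by
    rw [integral_add_right_eq_self (gs (Aᵀ * M * A)), integral_gs_real p, dt_conj]⟩

/-- conditional Gaussians -/
theorem gs_cond {K : Matrix d d ℝ} (hK : K.PosDef) (p : d → Prop) [DecidablePred p] :
    ∃ (M : Matrix {c // ¬ p c} {c // ¬ p c} ℝ) (L : Matrix {c // ¬ p c} {c // p c} ℝ), M.PosDef ∧
      dt K⁻¹ = dt (Tw.Db.pp p K)⁻¹ * dt M ∧
      ∀ u v, gs K⁻¹ (Tw.Db.mg p u v) = gs (Tw.Db.pp p K)⁻¹ u * gs M (v + L *ᵥ u) := by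
  have h : (K⁻¹.submatrix (Equiv.sumCompl p) (Equiv.sumCompl p)).PosDef :=
    hK.inv.submatrix (Equiv.sumCompl p).injective
  have s : Rw.schur (K⁻¹.submatrix (Equiv.sumCompl p) (Equiv.sumCompl p)) = (Tw.Db.pp p K)⁻¹ := by
    rw [← inv_inv' (Rw.pd_schur h), Rw.schur_inv h, inv_submatrix_equiv, inv_inv' hK]
    rfl
  refine ⟨_, Rw.lm (K⁻¹.submatrix (Equiv.sumCompl p) (Equiv.sumCompl p)), Rw.pd_bb h, ?_,
    fun u v => ?_⟩
  · rw [← s, ← Rw.dt_split h, dt, dt, det_submatrix_equiv_self]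
  · rw [← s, ← Rw.gs_split h, gs, gs, ← Tw.TS.qf_ren (Equiv.sumCompl p)]
    congr 4
    funext c
    rcases c with c | c <;> simp

end Crest.Agent.N49.Rf

namespace Crest.Agent.N49.Tw.TS

open Po Db

variable {σ σ' : Type} {T : TS σ} {p : T.C → Prop} [DecidablePred p]

/-- **EXT**: the law on a low set is an exact mixture of the marginals of the offset laws -/
theorem Tri.ext_pick (h : T.Tri) (hp : T.Low p) {g : ({c // p c} → ℤ) → ℝ} (hg : Bb g) :
    ∃ x : T.C → ℝ, (∀ c, p c → x c = 0) ∧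
      (T.cut p 0).N g ≤ (T.off x).N fun y => g fun c => y c.1 := by
  obtain ⟨M, L, hM, hd, hgs⟩ := Rf.gs_cond h.pd p
  have h0 := h.cut_low hp 0
  have hA : (pp (fun c => ¬ p c) T.A).det ≠ 0 := right_ne_zero_of_mul (hp.det_A ▸ h.det)
  let U : ({c // p c} → ℤ) → {c // p c} → ℝ := fun a => (T.cut p 0).u (zc a)
  let θ : ({c // p c} → ℤ) → ({c // ¬ p c} → ℤ) → {c // ¬ p c} → ℝ :=
    fun a z => (T.cut (fun c => ¬ p c) (mg p a 0)).th (zc z)
  let f := fun a t => gs (pp p T.K)⁻¹ (U a) * gs M (pp (fun c => ¬ p c) T.A *ᵥ t + L *ᵥ U a)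
  have i := fun a => Rf.tile_tsum (θ := θ a) (h.cut_not hp (mg p a 0)).rw_tri (f := f a)
    ((Rf.integral_aff hM hA _).1.const_mul _)
  have c0 : 0 < dt M / |(pp (fun c => ¬ p c) T.A).det| := div_pos (dt_pos hM) (abs_pos.2 hA)
  obtain ⟨ξ, hξ⟩ := Rf.pick_cube (g := g)
    (I := fun a => dt M / |(pp (fun c => ¬ p c) T.A).det| * (T.cut p 0).wt a)
    (fun a x => tsum_nonneg fun _ => mul_nonneg (gs_pos _ _).le (gs_pos _ _).le)
    (fun a => (i a).1) (fun a => by
      rw [(i a).2, integral_const_mul, (Rf.integral_aff hM hA _).2, mul_comm]; rfl)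
    (((h0.sm hg.abs).mul_left _).congr fun a => (mul_assoc _ _ _).symm)
  refine ⟨mg p 0 (pp (fun c => ¬ p c) T.A *ᵥ ξ), fun c hc => dif_pos hc, ?_⟩
  have e1 : T.Zc = (T.cut p 0).Zc * (dt M / |(pp (fun c => ¬ p c) T.A).det|) := by
    rw [Zc_eq, Zc_eq, h.A_cut, hd, hp.det_A, abs_mul, div_mul_div_comm]
    rfl
  have e2 : ∀ a z, (T.off (mg p 0 (pp (fun c => ¬ p c) T.A *ᵥ ξ))).wt (mg p a z) =
      f a (zc z - θ a z - ξ) := fun a z => by
    rw [off_wt]
    refine Eq.trans (congrArg _ (funext fun c => ?_)) (hgs _ _)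
    by_cases k : p c
    · have := hp.u_cut 0 (zc (mg p a z)) ⟨c, k⟩
      have b : (fun c : {c // p c} => zc (mg p a z) c.1) = zc a := funext fun c => by simp [zc]
      simp only [Pi.sub_apply, mg, dif_pos k, Pi.zero_apply, sub_zero]
      exact this.symm.trans (congrArg (fun y => (T.cut p 0).u y ⟨c, k⟩) b)
    · have := congrFun ((h.cut_not hp (mg p a 0)).u_eq (zc z)) ⟨c, k⟩
      rw [h.A_cut] at this
      have b := T.u_cut (fun c => ¬ p c) (mg p a 0) (zc z) ⟨c, k⟩
      rw [← zc_glue, (glue_mg p a a z 0).1] at b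
      rw [mulVec_sub, Pi.sub_apply]
      simp only [mg, dif_neg k, Pi.sub_apply]
      exact congrArg (· - _) (b.symm.trans this)
  have e3 := (hasSum_fib p ((h.off (mg p 0 (pp (fun c => ¬ p c) T.A *ᵥ ξ))).sm
    (hg.comp fun (y : T.C → ℤ) (c : {c // p c}) => y c.1))).tsum_eq
  unfold N
  rw [off_Zc, e1, ← div_div, div_right_comm]
  refine div_le_div_of_nonneg_right ((le_div_iff₀ c0).2 (le_trans (le_of_eq ?_)
    (hξ.trans_eq (Eq.trans (tsum_congr fun a => ?_) e3)))) h0.Zc_pos.le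
  · exact (mul_comm _ _).trans (tsum_mul_left.symm.trans
      (tsum_congr fun a => (mul_assoc _ _ _).symm))
  · rw [← tsum_mul_right]
    exact tsum_congr fun z => congrArg₂ (· * ·) (e2 a z).symm (congrArg g (mg_res p a z).symm)

theorem Ren.N {T' : TS σ'} {e : T.C ≃ T'.C} (h : T.Ren T' e) (g : (T.C → ℤ) → ℝ) :
    T'.N (fun y => g fun c => y (e c)) = T.N g := by rw [TS.N, TS.N, h.S, h.Zc]

/-- **EXT** along a renaming -/
theorem Tri.ext_ren (h : T.Tri) (hp : T.Low p) {T0 : TS σ'} {e : T0.C ≃ {c // p c}}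
    (r : T0.Ren (T.cut p 0) e) {g : (T0.C → ℤ) → ℝ} (hg : Bb g) :
    ∃ x : T.C → ℝ, (∀ c, p c → x c = 0) ∧ T0.N g ≤ (T.off x).N fun y => g fun c => y (e c).1 := by
  obtain ⟨x, hx, k⟩ := h.ext_pick hp (hg.comp fun (y : {c // p c} → ℤ) c => y (e c))
  exact ⟨x, hx, (r.N g).symm.trans_le k⟩

end Crest.Agent.N49.Tw.TS

end
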