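import Crest.Agent.N49.Rf.Ext2
import Crest.Agent.N49.Rn.Nold
import Crest.Agent.N49.Rn.Nstg

/-!
# Row 49 (helper62): residues, narrowing and new families at once
-/

set_option autoImplicit false
set_option linter.unusedSectionVars false

open Matrix MvPolynomial Finset

noncomputable section

namespace Crest.Agent.N49.Tw

open Po Ho

namespace TS

variable {σ : Type} (T : TS σ)

/-- the errors multiplied by `s` -/
def scl (s : T.C → ℝ) : TS σ where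
  C := T.C
  deg := T.deg
  Φ c := MvPolynomial.C (s c) * T.Φ c
  K := diagonal s * T.K * diagonal s

variable {T} {s : T.C → ℝ}

theorem scl_u (y : T.C → ℝ) (c : T.C) : (T.scl s).u y c = s c * T.u y c := by
  change eval y (MvPolynomial.C (s c) * T.Φ c) = _
  rw [map_mul, eval_C]
  rfl

theorem scl_A : (T.scl s).A = diagonal s * T.A := by
  refine funext fun c : T.C => funext fun c' : T.C => ?_
  change (if T.lev c = T.lev c' then
    coeff (Finsupp.single c' 1) (MvPolynomial.C (s c) * T.Φ c) else 0) = (diagonal s * T.A) c c'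
  rw [diagonal_mul, coeff_C_mul, A, of_apply, mul_ite, mul_zero]

theorem scl_N (hK : T.K.PosDef) (hs : ∀ c, s c ≠ 0) (g : (T.C → ℤ) → ℝ) :
    (T.scl s).N g = T.N g := by
  have a : (T.scl s).Zc = T.Zc := by
    rw [Zc_eq, Zc_eq, scl_A]
    change dt (diagonal s * T.K * diagonal s)⁻¹ / |(diagonal s * T.A).det| = _
    rw [dt_diag, det_mul, det_diagonal, abs_mul,
      mul_div_mul_left _ _ (abs_ne_zero.2 (prod_ne_zero_iff.2 fun c _ => hs c))]
  have b : ∀ y, (T.scl s).wt y = T.wt y := fun y : T.C → ℤ => by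
    have : (T.scl s).u (zc y) = fun c : T.C => s c * T.u (zc y) c := funext (scl_u (zc y))
    unfold wt
    rw [this]
    exact gs_diag hK.det_pos.ne' hs _
  unfold TS.N
  rw [a]
  exact congrArg (· / _) (tsum_congr fun y => congrArg (· * _) (b y))

theorem u_congr [DecidableEq σ] {τ : Type} {S : Sh σ τ} {Ψ Ψ' : T.Twd S} {p : T.Cw S}
    (h : Ψ p.1.1 = Ψ' p.1.1) (y : T.Cw S → ℝ) : (T.tw S Ψ).u y p = (T.tw S Ψ').u y p := by
  rw [tw_u, tw_u, h]

end TS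

namespace Nw

open TS Nold

variable {τ : Type} {T0 : TS Unit} (E : Nw T0) {S : Sh Unit τ} {st0 : T0.C → ℕ} {M0 s : ℕ}

/-- an old twist seen on the new tower -/
def lo (Ψ : T0.Twd S) (c : T0.C) : MvPolynomial (T0.C ⊕ E.N) (MvPolynomial S.W ℝ) :=
  MvPolynomial.C (MvPolynomial.C E.μ⁻¹) * rename .inl (Ψ c)

/-- the twist of the new tower induced by a twist of the old one -/
def lift (Ψ : T0.Twd S) : E.T.Twd S := Sum.elim (E.lo Ψ) fun n => E.T.tw0 S (.inr n)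

variable {E} {Ψ : T0.Twd S}

theorem lo_supp {c : T0.C} {m : T0.C ⊕ E.N →₀ ℕ} (h : coeff m (E.lo Ψ c) ≠ 0) :
    ∃ m', m'.mapDomain .inl = m ∧ coeff m' (Ψ c) ≠ 0 := by
  rw [lo, coeff_C_mul] at h
  exact coeff_rename_ne_zero _ _ _ (right_ne_zero_of_mul h)

theorem lo_coeff (c : T0.C) (m : T0.C →₀ ℕ) : coeff (m.mapDomain .inl) (E.lo Ψ c) =
    MvPolynomial.C E.μ⁻¹ * coeff m (Ψ c) := by
  rw [lo, coeff_C_mul, coeff_rename_mapDomain _ Sum.inl_injective]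

theorem wt_inl (w : T0.C ⊕ E.N → ℕ) (m : T0.C →₀ ℕ) :
    Finsupp.weight w (m.mapDomain .inl) = Finsupp.weight (fun c => w (.inl c)) m := by
  rw [Finsupp.weight_apply, Finsupp.weight_apply,
    Finsupp.sum_mapDomain_index (by simp) (fun _ _ _ => add_smul ..)]

theorem adm_lift (o : Old T0 st0 M0 s) (w : E.Wf s) (hS : S.Ok) (h : T0.Adm S st0 Ψ) :
    E.T.Adm S (E.st st0 M0 s) (E.lift Ψ) := by
  have a := (Ns.stg o w).adm hS
  have l : ∀ m : T0.C →₀ ℕ, Finsupp.weight (σ := T0.C ⊕ E.N) E.T.lev (m.mapDomain .inl) =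
    Finsupp.weight T0.lev m := wt_inl _
  refine ⟨fun F (m : T0.C ⊕ E.N →₀ ℕ) => ?_, fun F (m : T0.C ⊕ E.N →₀ ℕ) hm => ?_,
    fun F (m : T0.C ⊕ E.N →₀ ℕ) e => ?_⟩
  all_goals rcases F with c | n
  · change (coeff m (E.lo Ψ c)).IsWeightedHomogeneous _
      (T0.lev c - Finsupp.weight (σ := T0.C ⊕ E.N) E.T.lev m)
    by_cases z : coeff m (E.lo Ψ c) = 0
    · rw [z]; exact isWeightedHomogeneous_zero ..
    obtain ⟨m, rfl, -⟩ := lo_supp z
    rw [lo_coeff, l]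
    exact (h.gr c m).C_mul _
  · exact a.gr _ m
  · obtain ⟨m, rfl, z⟩ := lo_supp (c := c) (mem_support_iff.1 hm)
    have := h.le c m (mem_support_iff.2 z)
    exact ⟨(l m).trans_le this.1, (wt_inl _ m).trans_le this.2⟩
  · exact a.le _ m hm
  · change coeff m (E.lo Ψ c) = MvPolynomial.C (coeff m (E.μ⁻¹ • rename Sum.inl (T0.Φ c)))
    by_cases z : ∃ m' : T0.C →₀ ℕ, m'.mapDomain .inl = m
    · obtain ⟨m, rfl⟩ := z
      rw [lo_coeff, h.top c m ((l m).symm.trans e), ← map_mul, coeff_smul,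
        coeff_rename_mapDomain _ Sum.inl_injective, smul_eq_mul]
    · rw [coeff_smul, coeff_rename_eq_zero _ _ _ fun u hu => absurd ⟨u, hu⟩ z, smul_zero, map_zero]
      exact by_contra fun k => z ((lo_supp k).imp fun _ => And.left)
  · exact a.top _ m e

theorem eval_lo (Y : T0.C ⊕ E.N → MvPolynomial S.W ℝ) (c : T0.C) : eval Y (E.lo Ψ c) =
    MvPolynomial.C E.μ⁻¹ * eval (fun c => Y (.inl c)) (Ψ c) := by
  rw [lo, map_mul, eval_C, eval_rename]
  rfl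

theorem lift_u {K : Matrix S.W S.W ℝ} (y : E.T.Cw (S.setK K) → ℝ) (p : T0.Cw S) :
    (E.T.tw (S.setK K) (E.lift (S := S.setK K) Ψ)).u y (io E S K p) =
      E.μ⁻¹ * (T0.tw S Ψ).u (fun q : T0.Cw S => y (io E S K q)) p := by
  refine (tw_u _ _).trans (Eq.trans ?_ (congrArg _ (tw_u _ _).symm))
  refine Eq.trans (congrArg (S.cf ℝ p.1.2) ?_) (Sh.cf_C_mul _ _ _)
  refine (eval_lo (S := S) (fun c : T0.C ⊕ E.N => E.T.Yw (S.setK K) y c) p.1.1).trans ?_
  exact congrArg (fun Y => _ * eval Y (Ψ p.1.1)) (funext fun F => Yw_io E S K y F)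

variable (E S) in
/-- the old coordinates -/
def oe (K : Matrix S.W S.W ℝ) : T0.Cw S ≃ {q : E.T.Cw (S.setK K) // q.1.1.isLeft} :=
  Equiv.ofBijective (fun p => ⟨io E S K p, rfl⟩) ⟨fun _ _ e => io_inj E S K (congrArg (·.1) e),
    fun q => by
      obtain ⟨c, e⟩ := Sum.isLeft_iff.1 q.2
      obtain ⟨p, k⟩ := io_rg E S K e
      exact ⟨p, Subtype.ext k⟩⟩

theorem lift_low (F : E.T.C) (h : F.isLeft) (c : E.T.C) (k : c ∈ (E.lift Ψ F).vars) :
    c.isLeft := by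
  obtain ⟨F, rfl⟩ := Sum.isLeft_iff.1 h
  obtain ⟨m : T0.C ⊕ E.N →₀ ℕ, hm, hc⟩ := (mem_vars_iff_mem_support _).1 k
  obtain ⟨m, rfl, -⟩ := lo_supp (c := F) (mem_support_iff.1 hm)
  obtain ⟨c', -, rfl⟩ := mem_image.1 (Finsupp.mapDomain_support hc)
  rfl

/-- **new families on a narrowed tower** -/
theorem newf (o : Old T0 st0 M0 s) (w : E.Wf s) (hS : S.Ok) (h : T0.Adm S st0 Ψ)
    {K : Matrix S.W S.W ℝ} (hK : ∀ w w', K w w' = E.μ⁻¹ * S.K w w' * E.μ⁻¹) (o' : (S.setK K).Ok)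
    {g : (T0.Cw S → ℤ) → ℝ} (hg : Bb g) : ∃ x : E.T.Cw (S.setK K) → ℝ, (∀ p, x (io E S K p) = 0) ∧
      (T0.tw S Ψ).N g ≤ (E.T.tw (S.setK K) (ot (E.lift (S := S.setK K) Ψ) x)).N
        fun y => g fun p => y (io E S K p) := by
  have a := adm_lift (S := S.setK K) (Ψ := Ψ) o w o' (h.setK K)
  have lw : (E.T.tw (S.setK K) (E.lift (S := S.setK K) Ψ)).Low
      fun q : E.T.Cw (S.setK K) => q.1.1.isLeft := fun q hq q' k =>
    lift_low (S := S.setK K) _ hq _ (tw_vars q q' k).1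
  have r : ((T0.tw S Ψ).scl fun _ => E.μ⁻¹).Ren ((E.T.tw (S.setK K) (E.lift (S := S.setK K) Ψ)).cut
      (fun q : E.T.Cw (S.setK K) => q.1.1.isLeft) 0) (oe E S K) := by
    refine ⟨fun _ => rfl, fun c : T0.Cw S => MvPolynomial.funext fun y => ?_,
      fun (c c' : T0.Cw S) => ?_⟩
    · refine ((E.T.tw (S.setK K) (E.lift (S := S.setK K) Ψ)).u_cut
        (fun q : E.T.Cw (S.setK K) => q.1.1.isLeft) 0 y _).trans ?_
      refine (lift_u _ c).trans (Eq.trans ?_ (eval_rename _ _ _).symm)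
      refine Eq.trans ?_ (scl_u (T := T0.tw S Ψ) (s := fun _ => E.μ⁻¹) _ c).symm
      exact congrArg (fun z => _ * (T0.tw S Ψ).u z c) (funext fun q => dif_pos rfl)
    · change (1 : Matrix (T0.C ⊕ E.N) (T0.C ⊕ E.N) ℝ) (.inl c.1.1) (.inl c'.1.1) * K c.1.2 c'.1.2 =
        (diagonal (fun _ : T0.Cw S => E.μ⁻¹) * T0.kw S T0.K S.K *
          diagonal (fun _ : T0.Cw S => E.μ⁻¹)) c c'
      rw [mul_diagonal, diagonal_mul, kw, of_apply, o.K, hK, ← one_inl]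
      ring
  obtain ⟨x, hx, k⟩ := (tw_tri (Ns.stg o w).cl a o').ext_ren lw r hg
  refine ⟨x, fun p => hx _ rfl, le_trans (le_of_eq ?_) (k.trans_eq (tw_N_off o' x _).symm)⟩
  exact (scl_N (tw_tri o.stg.cl h hS).pd (fun _ => inv_ne_zero w.pos.ne') g).symm

/-- **residues, narrowing and new families** -/
theorem resn (o : Old T0 st0 M0 s) (w : E.Wf s) (hS : S.Ok) (h : T0.Adm S st0 Ψ) {ν : ℕ}
    (hν : 1 ≤ ν) {K : Matrix S.W S.W ℝ}
    (hK : ∀ w w', K w w' = (ν ^ S.dg w * E.μ)⁻¹ * S.K w w' * (ν ^ S.dg w' * E.μ)⁻¹)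
    {g : (T0.Cw S → ℤ) → ℝ} (hg : Bb g) : ∃ (r : T0.Cw S → ℤ) (Ψ' : E.T.Twd (S.setK K)),
      (S.setK K).Ok ∧ E.T.Adm (S.setK K) (E.st st0 M0 s) Ψ' ∧
      (∀ c, Ψ' (.inl c) = E.lo (T0.trs S (fun _ => 1) ν (zc r) Ψ) c) ∧
      (∀ y p, (E.T.tw (S.setK K) Ψ').u y (io E S K p) = (ν ^ S.dg p.1.2 * E.μ)⁻¹ *
        (T0.tw S Ψ).u (fun q : T0.Cw S => r q + ν ^ S.dg q.1.2 * y (io E S K q)) p) ∧
      (T0.tw S Ψ).N g ≤ (E.T.tw (S.setK K) Ψ').N
        fun y => g fun p => r p + ν ^ S.dg p.1.2 * y (io E S K p) := by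
  have n0 : (ν : ℝ) ≠ 0 := by positivity
  have hN : ∀ w, (fun _ => 1 : S.W → ℝ) w * ((fun w => (ν : ℤ) ^ S.dg w) w : ℤ) =
    (ν : ℝ) ^ S.dg w := fun w => by simp
  let K0 : Matrix S.W S.W ℝ := Matrix.of fun w w' => 1 / ν ^ S.dg w * S.K w w' * (1 / ν ^ S.dg w')
  have o0 := trs_ok (K := K0) hS n0 hN fun _ _ => rfl
  have e : ∀ w w', K w w' = E.μ⁻¹ * (S.setK K0).K w w' * E.μ⁻¹ := fun w w' => by
    rw [hK]
    change _ = _ * (1 / ν ^ S.dg w * S.K w w' * (1 / ν ^ S.dg w')) * _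
    rw [mul_inv, mul_inv, one_div, one_div]
    ring
  have o1 : (S.setK K).Ok := by
    refine hS.setK ?_ fun w w' z => hS.blk w w' fun e => z (by rw [hK, e, mul_zero, zero_mul])
    have := o0.pd.smul (show 0 < E.μ⁻¹ * E.μ⁻¹ by have := w.pos; positivity)
    have b : K = (E.μ⁻¹ * E.μ⁻¹) • K0 :=
      Matrix.ext fun w w' => (e w w').trans (mul_right_comm _ _ _)
    exact b ▸ this
  obtain ⟨r, hr⟩ := tw_resp (K := K0) o.stg.cl h hS S.chr_one n0 hN (fun _ _ => rfl) hg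
  have a := (h.trs o.ok.toTri.lev_pos (fun _ => 1) n0 (zc r)).setK K0
  obtain ⟨x, hx, k⟩ := newf (S := S.setK K0) o w o0 a e o1
    (g := fun y => g fun p => r p + ν ^ S.dg p.1.2 * y p) (hg.comp _)
  have z : ∀ c, ot (E.lift (S := S.setK K) (T0.trs S (fun _ => 1) ν (zc r) Ψ)) x (.inl c) =
      E.lo (T0.trs S (fun _ => 1) ν (zc r) Ψ) c := fun c => by
    have : E.T.Yw (S.setK K) x (.inl c) = 0 := (Yw_io E S K x c).trans (sum_eq_zero fun p _ =>
      mul_eq_zero_of_left ((congrArg MvPolynomial.C (hx p)).trans (map_zero _)) _)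
    exact (congrArg (fun P => _ - MvPolynomial.C P) this).trans (by rw [map_zero, sub_zero]; rfl)
  refine ⟨r, _, o1, adm_ot (Ns.stg o w).cl.1 (adm_lift (S := S.setK K) o w o1 ⟨a.gr, a.le, a.top⟩) x, z,
    fun y p => ?_, hr.trans k⟩
  refine (u_congr (T := E.T) (S := S.setK K) (p := io E S K p) (Ψ' := E.lift (S := S.setK K)
    (T0.trs S (fun _ => 1) ν (zc r) Ψ)) (z p.1.1) y).trans ((lift_u y p).trans ?_)
  refine (congrArg _ (trs_u (Ψ := Ψ) (N := fun w => (ν : ℝ) ^ S.dg w) S.chr_one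
    (fun _ => one_mul _) (zc r) _ p)).trans ?_
  rw [← mul_assoc, mul_inv, one_div, mul_comm E.μ⁻¹]
  rfl

end Nw

end Crest.Agent.N49.Tw

end
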