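import Crest.Agent.N49.Rf.Dem2

/-!
# Row 49 (helper5): the demotion
-/

set_option autoImplicit false

open Matrix MvPolynomial Finset

noncomputable section

namespace Crest.Agent.N49.Tw.Rf

open Po Rw Sp TS La

theorem eval_zc {C : Type} (y : C → ℤ) (J : MvPolynomial C ℤ) :
    eval (zc y) (MvPolynomial.map (Int.castRingHom ℝ) J) = ((eval y J : ℤ) : ℝ) := by
  rw [eval_map]
  exact (eval₂_comp (Int.castRingHom ℝ) y J).symm

theorem dem : DEM := by
  intro T s l k b π J L e h hs h2 hk hb hkb hπ hJ wJ wL he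
  obtain ⟨U, V, c0, UV, l0, kV, o⟩ := exists_uni (fun c => T.lev c = l) hk hkb
  have VU := mul_eq_one_comm.1 UV
  have b0 : ∀ c, T.lev c ≠ l → b c = 0 := fun c n => by_contra fun q => n (hb c q)
  have bl : ∀ c c', T.lev c ≠ T.lev c' → U c c' = 0 ∧ V c c' = 0 := fun c c' n => by
    have := o c c' (by by_contra q; push Not at q; exact n (q.1.trans q.2.symm))
    rwa [one_apply_ne fun q : c = c' => n (q ▸ rfl)] at this
  have rU : ∀ y c, T.lev c ≠ l → (U *ᵥ y) c = y c := fun y c n => by
    rw [← congrFun (one_mulVec y) c]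
    exact sum_congr rfl fun i _ => congrArg (· * y i) (o c i (.inl n)).1
  have rV : ∀ y c, T.lev c ≠ l → (V *ᵥ y) c = y c := fun y c n => by
    rw [← congrFun (one_mulVec y) c]
    exact sum_congr rfl fun i _ => congrArg (· * y i) (o c i (.inl n)).2
  have eJ : ∀ y y' : T.C → ℤ, (∀ c, T.lev c ≠ l → y c = y' c) → eval y J = eval y' J :=
    fun y y' q => eval₂_congr _ _ _ fun {i m} hi hm => q i
      (hJ i ((mem_vars_iff_mem_support _).2 ⟨m, mem_support_iff.2 hm, hi⟩)).ne
  have j1 : ∀ y, eval (U *ᵥ y + eval y J • b) J = eval y J := fun y =>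
    eJ _ _ fun c n => by simp [rU y c n, b0 c n]
  let E : (T.C → ℤ) ≃ (T.C → ℤ) :=
    { toFun := fun y => U *ᵥ y + eval y J • b
      invFun := fun y => V *ᵥ (y - eval y J • b)
      left_inv := fun y => by
        simp only [j1, add_sub_cancel_right, mulVec_mulVec, VU, one_mulVec]
      right_inv := fun y => by
        simp only [mulVec_mulVec, UV, one_mulVec]
        rw [eJ (V *ᵥ _) y fun c n => by simp [rV _ c n, b0 c n], sub_add_cancel] }
  obtain ⟨S, hS⟩ : ∃ S : T.C → MvPolynomial T.C ℝ, S = fun c =>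
      ∑ c', MvPolynomial.C (U c c' : ℝ) * X c' +
        MvPolynomial.C (b c : ℝ) * MvPolynomial.map (Int.castRingHom ℝ) J := ⟨_, rfl⟩
  have wS : ∀ c, WL T.lev (T.lev c) (S c) := fun c => by
    rw [hS]
    refine (WL.sum _ fun i _ => ?_).add ?_
    · by_cases n : T.lev c = T.lev i
      · exact (WL.X n.ge).cmul _
      · rw [(bl c i n).1, Int.cast_zero, map_zero, zero_mul]; exact WL.zero
    · by_cases n : T.lev c = l
      · rw [n]; exact (wJ.map _).cmul _
      · rw [b0 c n, Int.cast_zero, map_zero, zero_mul]; exact WL.zero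
  have eS : ∀ y, (fun c => eval (zc y) (S c)) = zc (E y) := fun y => funext fun c => by
    rw [hS]
    simp only [map_add, map_sum, map_mul, eval_C, eval_X, eval_zc]
    simp [E, zc, mulVec, dotProduct, mul_comm]
  have lS : T.lin S = rm U := by
    ext c c'
    rw [lin, of_apply, hS]
    split_ifs with n
    · simp only [coeff_add, coeff_sum, coeff_C_mul, coeff_X, Finsupp.single_left_inj one_ne_zero]
      by_cases q : T.lev c = l
      · rw [coeff_single_eq_zero fun a => (hJ c' (vars_map _ _ a)).ne (n ▸ q)]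
        simp
      · simp [b0 c q]
    · simp [(bl c c' n).1]
  have iU : (rm U)⁻¹ = rm V := inv_eq_right_inv (by
    rw [← rm_mul, UV]; exact Matrix.map_one _ Int.cast_zero Int.cast_one)
  have dU : |(rm U).det| = 1 := by
    rw [← Int.cast_det, ← Int.cast_abs, Int.isUnit_iff_abs_eq.1 (isUnit_det_of_right_inverse UV),
      Int.cast_one]
  have h' := h.sbs wS (by rw [lS]; exact fun z => by simp [z] at dU)
  have eD : (T.sbs S).D = rm V * T.D * (rm V)ᵀ := by rw [h.sbs_D wS, lS, iU]
  have eK : (T.sbs S).D c0 c0 = qf T.D (zc k) := by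
    rw [eD, ← kV]; exact mul_mul_apply ..
  have e1 : ∀ c c', T.lev c ≠ l → T.lev c' ≠ l → (T.sbs S).D c c' = T.D c c' := fun c c' a a' => by
    have r : ∀ c, T.lev c ≠ l → rm V c = Pi.single c 1 := fun c a => funext fun i => by
      simp [(o c i (.inl a)).2, one_apply, Pi.single_apply, eq_comm]
    rw [eD]
    refine (mul_mul_apply ..).trans ?_
    rw [transpose_transpose, r c a, r c' a', single_dotProduct, mulVec_single_one, one_mul,
      col_apply]
  have e2 : ∀ j, j ≠ l → (T.sbs S).D.submatrix (Subtype.val : {c // T.lev c = j} → T.C)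
      (Subtype.val : {c // T.lev c = j} → T.C) = T.D.submatrix Subtype.val Subtype.val :=
    fun j n => ext fun c c' => e1 _ _ (c.2.trans_ne n) (c'.2.trans_ne n)
  have c1 : ∀ j, (T.sbs S).ct j ≤ T.ct j := fun j => by
    have p : ∀ i i', T.lev i = T.lev i' → T.lev i = j → T.lev i' = j := fun _ _ e k => e ▸ k
    have bV : Blk T.lev (rm V) := fun c c' n => by simp [(bl c c' n).2]
    have bU : Blk T.lev (rm U) := fun c c' n => by simp [(bl c c' n).1]
    have := th_sub (h.pd_Dl j) (Vᵀ.submatrix (Subtype.val : {c // T.lev c = j} → T.C)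
      (Subtype.val : {c // T.lev c = j} → T.C)) (inj_of_rm (mulVec_injective_iff_isUnit.2
        ((isUnit_iff_isUnit_det _).2 (isUnit_det_of_left_inverse (B := (rm U)ᵀ.submatrix
          Subtype.val Subtype.val) ((Rw.Bk.sub_mul p (blk_tr bU) (rm V)ᵀ).symm.trans (by
            rw [← transpose_mul, ← rm_mul, VU]
            ext; simp [one_apply, Subtype.ext_iff]))))))
    refine le_trans (le_of_eq ?_) this
    unfold TS.ct
    rw [eD]
    exact congrArg (Po.th · 0) ((Rw.Bk.sub_mul p (blk_mul bV h.blk_D) _).trans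
      (congrArg (· * _) (Rw.Bk.sub_mul p bV _)))
  have g1 : (T.sbs S).g1 π = T.g1 π := congrArg (fun M => gk M⁻¹ _) (e2 1 (by omega))
  have eT : ∀ y : T.C → ℤ, (T.sbs S).th (zc y) c0 - eval (zc y) (aeval S L) = e (E y) := by
    intro y
    have a : zc k ⬝ᵥ zc (E y) = y c0 + (eval y J : ℤ) := by
      have : k ⬝ᵥ E y = y c0 + eval y J := by
        change k ⬝ᵥ (U *ᵥ y + eval y J • b) = _
        rw [dotProduct_add, dotProduct_smul, hkb, ← kV, smul_eq_mul, mul_one]
        exact congrArg (· + _) ((congrFun (mulVec_mulVec y V U) c0).trans (by rw [VU, one_mulVec]))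
      simpa [zc, dotProduct] using congrArg (Int.cast : ℤ → ℝ) this
    refine (congrArg₂ (· - ·) (congrFun (h.sbs_th wS (zc y)) c0) (eval_aeval _ S L)).trans ?_
    rw [lS, iU, eS]
    change (y c0 : ℝ) - zc (V c0) ⬝ᵥ (zc (E y) - T.th (zc (E y))) - _ = _
    rw [kV, dotProduct_sub, a, he, show eval (E y) J = eval y J from j1 y]
    ring
  subst l0
  have wL' : WL (T.sbs S).lev ((T.sbs S).lev c0 - 1) (aeval S L) := wL.aeval fun i _ => wS i
  have h2' : 2 ≤ (T.sbs S).lev c0 := h2
  have eq : (T.sbs S).Eqv T E := fun y => (sbs_wt (congrFun (eS y))).symm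
  have zc' : (T.sbs S).Zc = T.Zc := by rw [h.sbs_Zc wS, lS, dU, div_one]
  have q0 := fun j => th_nonneg (T.D.submatrix (Subtype.val : {c // T.lev c = j} → T.C)
    Subtype.val) 0
  refine ⟨(T.sbs S).dm c0 (aeval S L), E, π, h'.dm h2' wL',
    fun c => (dm_lev_le (T.sbs S) c0 _ c).trans (hs c), fun c q => ?_, fun y => ?_,
    (h'.dm_Zc h2' wL').trans zc', (dm_R h2').1, (dm_R h2').2,
    fun j a a' => ⟨(h'.dm_ct h2' wL' a a').1, (h'.dm_ct h2' wL' a a').2.trans (c1 j)⟩,
    (h'.dm_hi_ct h2' wL').1.trans ?_, (h'.dm_lo_ct h2' wL').trans ?_,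
    (h'.dm_g1 h2' wL' hπ).trans ?_, fun g B r δ hg hδ hr => ?_⟩
  · have := hπ c q
    exact (dm_lev1 (T := T.sbs S) fun n : c = c0 => by rw [n] at this; omega).trans this
  · refine sum_congr rfl fun c _ => ?_
    by_cases q : π c = 0
    · rw [q, zero_mul, zero_mul]
    · have n : T.lev c ≠ T.lev c0 := by have := hπ c q; omega
      refine congrArg (π c * ·) (Eq.symm ?_)
      exact (congrArg₂ (· + ·) (rU y c n) (mul_eq_zero_of_right _ (b0 c n))).trans (add_zero _)
  · rw [eK]
    exact mul_le_mul_of_nonneg_left (c1 _) (Real.sqrt_nonneg _)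
  · exact mul_le_mul (c1 _) (c1 _) (th_nonneg _ _) (q0 _)
  · rw [g1]
    exact mul_le_mul_of_nonneg_right (c1 _) (gk_nonneg _ _)
  · have := h'.dm_S h2' wL' (s := s + 1) (fun c => Nat.lt_succ_of_le (hs c))
      (g := fun y => g (E y)) (r := r) (fun y => hg _) hδ fun y q => by
        refine (congrArg abs (eT y)).trans_le (le_trans (hr _ fun c hc => ?_) (by rw [eK]))
        exact (congrArg (· ^ 2) (congrFun ((T.sbs_u S (zc y)).trans
          (congrArg T.u (eS y))) c)).symm.trans_le (q c hc)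
    erw [eq.S g] at this
    rw [eq.Z, zc'] at this
    refine this.trans (mul_le_mul_of_nonneg_left (add_le_add le_rfl (mul_le_mul_of_nonneg_right
      (mul_le_mul_of_nonneg_left (add_le_add (prod_le_prod (fun j _ => th_nonneg _ _)
        fun j _ => c1 j) le_rfl) (bz_pos _).le) h.Zc_pos.le)) ((abs_nonneg _).trans (hg 0)))

end Crest.Agent.N49.Tw.Rf

end
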