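import Crest.Agent.N49.Rf.Ev
import Crest.Agent.N49.Rf.Pid
import Crest.Agent.N49.Rf.G1
import Crest.Agent.N49.Rf.Dem

/-!
# Row 49 (helper90): regularisation from the level one slices
-/

set_option autoImplicit false

noncomputable section

namespace Crest.Agent.N49.Tw.Rf

/-- the relations: the top symbol is trivial -/
abbrev JBc : Jb := fun T l k q r => T.JBc l k q r

theorem prim : PRIM := fun _ _ _ h h0 hk =>
  let ⟨d, k0, b, a1, a2, a3, a4, a5, a6, _, a7⟩ := h.prim hk h0
  ⟨d, k0, b, a1, a2, a3, a4, a5, a6, a7⟩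

theorem pid : PID JBc := fun T l d q n k0 a r x h l2 hk jb d1 q1 hn hx => by
  obtain ⟨J, L, g, h1, h2, h3, h4, h5⟩ :=
    h.pid (by omega) hk jb d1 q1 (n := n) (by exact_mod_cast hn) a x
  have e : ∀ y, emb (T.md l n) a y = T.embl l n a y := fun y => TS.emb_md hx y
  exact ⟨J, L, g, h1, h2, fun m hm => Nat.le_sub_one_of_lt (h3 m hm), fun y => e y ▸ h4 y,
    fun v hv => (h5 v hv).trans_eq (mul_assoc _ _ _).symm⟩

theorem g1n : G1N := fun _ _ _ _ _ x r h hl h0 h1 hn => h.nr_g1 h0 h1 hn hl x r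

/-- **one event** -/
theorem ev (sl : SL1) : EV JBc := ev_of dem prim pid g1n sl

/-- **regularisation** -/
theorem reg_sl (sl : SL1) : REG JBc := reg_of (ev sl)

end Crest.Agent.N49.Tw.Rf

end
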