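import Crest.Agent.N49.Rf.Rsn
import Crest.Agent.N49.Rn.Nun

/-!
# Row 49 (helper62): rescaling the errors family by family changes nothing
-/

set_option autoImplicit false
set_option linter.unusedSectionVars false

open Matrix MvPolynomial Finset

noncomputable section

namespace Crest.Agent.N49.Tw

open Po

namespace TS

variable {σ τ : Type} {T : TS σ} {s : T.C → ℝ}

theorem scl_K (c c' : T.C) : (T.scl s).K c c' = s c * T.K c c' * s c' := by
  change (diagonal s * T.K * diagonal s) c c' = _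
  rw [mul_diagonal, diagonal_mul]

theorem scl_coeff (c : T.C) (m : T.C →₀ ℕ) : coeff m ((T.scl s).Φ c) = s c * coeff m (T.Φ c) :=
  coeff_C_mul _ _ _

theorem diag_inv {C : Type} [Fintype C] [DecidableEq C] {s : C → ℝ} (hs : ∀ c, s c ≠ 0) :
    (diagonal s)⁻¹ * diagonal s = 1 := nonsing_inv_mul _ (by
  rw [det_diagonal]; exact (prod_ne_zero_iff.2 fun c _ => hs c).isUnit)

theorem scl_D (hs : ∀ c, s c ≠ 0) : (T.scl s).D = T.D := by
  have a : ∀ B : Matrix T.C T.C ℝ, B = diagonal s * T.A →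
      B⁻¹ * (diagonal s * T.K * diagonal s) * B⁻¹ᵀ = T.D := by
    rintro _ rfl
    have b : diagonal s * (diagonal s)⁻¹ᵀ = 1 := by
      rw [← transpose_one, ← diag_inv hs, transpose_mul, diagonal_transpose]
    rw [D, Matrix.mul_inv_rev, transpose_mul]
    calc _ = T.A⁻¹ * ((diagonal s)⁻¹ * diagonal s) * T.K * (diagonal s * (diagonal s)⁻¹ᵀ) *
        T.A⁻¹ᵀ := by simp only [Matrix.mul_assoc]
      _ = _ := by rw [b, diag_inv hs, Matrix.mul_one, Matrix.mul_one]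
  exact a _ scl_A

theorem scl_u' (y : T.C → ℝ) : (T.scl s).u y = diagonal s *ᵥ T.u y :=
  funext fun c : T.C => (scl_u y c).trans (mulVec_diagonal s _ c).symm

theorem scl_th (hs : ∀ c, s c ≠ 0) (y : T.C → ℝ) : (T.scl s).th y = T.th y := by
  have a : ∀ (B : Matrix T.C T.C ℝ) (x : T.C → ℝ), B = diagonal s * T.A →
      x = diagonal s *ᵥ T.u y → y - B⁻¹ *ᵥ x = T.th y := by
    rintro _ _ rfl rfl
    rw [Matrix.mul_inv_rev, mulVec_mulVec, Matrix.mul_assoc, diag_inv hs, Matrix.mul_one, th]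
  exact a _ _ scl_A (scl_u' y)

theorem scl_wt (hK : T.K.PosDef) (hs : ∀ c, s c ≠ 0) (y : T.C → ℤ) : (T.scl s).wt y = T.wt y := by
  have : (T.scl s).u (zc y) = fun c : T.C => s c * T.u (zc y) c := funext (scl_u (zc y))
  unfold wt
  rw [this]
  exact gs_diag hK.det_pos.ne' hs _

theorem scl_Zc (hs : ∀ c, s c ≠ 0) : (T.scl s).Zc = T.Zc := congrArg (fun D => dt D⁻¹) (scl_D hs)

theorem scl_ct (hs : ∀ c, s c ≠ 0) : (T.scl s).ct = T.ct := by
  unfold ct; rw [scl_D hs]; rfl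

theorem scl_Z (hK : T.K.PosDef) (hs : ∀ c, s c ≠ 0) : (T.scl s).Z = T.Z := by
  have : ∀ y : T.C → ℤ, (T.scl s).wt y = T.wt y := scl_wt hK hs
  exact tsum_congr (β := T.C → ℤ) this

theorem scl_S (hK : T.K.PosDef) (hs : ∀ c, s c ≠ 0) (g : (T.C → ℤ) → ℝ) : (T.scl s).S g = T.S g :=
  tsum_congr fun y => congrArg (· * g y) (scl_wt hK hs y)

theorem scl_E (hK : T.K.PosDef) (hs : ∀ c, s c ≠ 0) (g : (T.C → ℤ) → ℝ) : (T.scl s).E g = T.E g :=
  congrArg₂ (· / ·) (scl_S hK hs g) (scl_Z hK hs)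

theorem scl_pd (hK : T.K.PosDef) (hs : ∀ c, s c ≠ 0) : (T.scl s).K.PosDef := by
  have := posDef_conj hK (B := diagonal s) (mulVec_injective_iff_isUnit.2
    ((isUnit_iff_isUnit_det _).2 (by
      rw [det_diagonal]; exact (prod_ne_zero_iff.2 fun c _ => hs c).isUnit)))
  rwa [diagonal_transpose] at this

theorem Tri.scl (h : T.Tri) (hs : ∀ c, s c ≠ 0) : (T.scl s).Tri where
  tri := fun (c : T.C) (m : T.C →₀ ℕ) hm => by
    have a : s c * coeff m (T.Φ c) ≠ 0 := (scl_coeff c m).symm.trans_ne (mem_support_iff.1 hm)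
    exact h.tri c m (mem_support_iff.2 (right_ne_zero_of_mul a))
  ne := h.ne
  det := by
    rw [scl_A]
    change (diagonal s * T.A).det ≠ 0
    rw [det_mul, det_diagonal]
    exact mul_ne_zero (prod_ne_zero_iff.2 fun c _ => hs c) h.det
  pd := scl_pd h.pd hs
  blk := fun (c c' : T.C) z => h.blk c c' fun e =>
    z ((scl_K (T := T) c c').trans (by rw [e, mul_zero, zero_mul]))

theorem Ok.scl (h : T.Ok) (hs : ∀ c, s c ≠ 0) : (T.scl s).Ok :=
  ⟨h.toTri.scl hs, fun c => (h.hom c).C_mul _⟩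

theorem Cl.scl (h : T.Cl) (hs : ∀ c, s c ≠ 0) : (T.scl s).Cl :=
  ⟨h.1.scl hs, h.2.imp_left fun k c => (k c).C_mul _⟩

variable {st : T.C → ℕ} {M : ℕ}

theorem scl_stg : (T.scl s).stg st = (T.stg st).scl s := rfl

theorem Stg.scl (h : T.Stg st M) (hs : ∀ c, s c ≠ 0) : (T.scl s).Stg st M :=
  ⟨h.cl.scl hs, Tri.scl (T := T.stg st) (s := s) h.tri hs, h.lev, h.le⟩

theorem scl_top (c : T.C) : (T.scl s).top.Φ c = (T.top.scl s).Φ c :=
  weightedHomogeneousComponent_C_mul _ _ _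

theorem scl_cut_wt (hK : T.K.PosDef) (hs : ∀ c, s c ≠ 0) (p : T.C → Prop) [i : DecidablePred p]
    (b : T.C → ℤ) (y : {c // p c} → ℤ) :
    (@cut _ (T.scl s) p i b).wt y = (T.cut p b).wt y := by
  have a : (@cut _ (T.scl s) p i b).u (zc y) = ((T.cut p b).scl fun c => s c.1).u (zc y) := by
    refine funext fun c : {c // p c} => ?_
    have e1 := @u_cut _ (T.scl s) p i b (zc y) c
    have e2 := scl_u (T := T) (s := s) (glue p (zc y) (zc b)) c.1
    have e3 := T.u_cut p b (zc y) c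
    have e4 := scl_u (T := T.cut p b) (s := fun c => s c.1) (zc y) c
    exact (e1.trans e2).trans (e4.trans (congrArg (s c.1 * ·) e3)).symm
  have k : (@cut _ (T.scl s) p i b).K = ((T.cut p b).scl fun c => s c.1).K :=
    Matrix.ext fun c c' : {c // p c} => (scl_K (T := T) c.1 c'.1).trans
      (scl_K (T := T.cut p b) (s := fun c => s c.1) c c').symm
  exact (congrArg₂ (fun (K : Matrix {c // p c} {c // p c} ℝ) x => gs K⁻¹ x) k a).trans
    (scl_wt (T := T.cut p b) (hK.submatrix Subtype.val_injective) (fun c => hs c.1) y)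

theorem scl_bias (hK : T.K.PosDef) (hs : ∀ c, s c ≠ 0) (l : ℕ) (k : T.C → ℤ) :
    (T.scl s).bias l k = T.bias l k := by
  have w := scl_cut_wt hK hs (fun c => T.lev c < l) 0
  refine congrArg norm (congrArg₂ (· / ·) (tsum_congr fun y => congrArg₂ (· * ·)
    (congrArg _ (w y)) ?_) (congrArg _ (tsum_congr w)))
  exact congrArg (fun x => ee (zc k ⬝ᵥ x)) (scl_th hs _)

variable [DecidableEq σ] {S : Sh σ τ} {Ψ : T.Twd S}

variable (T S s) in
/-- the rescaled twist -/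
def tsc (Ψ : T.Twd S) : T.Twd S := fun F => MvPolynomial.C (MvPolynomial.C (s F)) * Ψ F

theorem Adm.tsc (h : T.Adm S st Ψ) : (T.scl s).Adm S st (T.tsc s S Ψ) := by
  have e : ∀ (F : T.C) (m : T.C →₀ ℕ), coeff m (T.tsc s S Ψ F) =
    MvPolynomial.C (s F) * coeff m (Ψ F) := fun F m => coeff_C_mul _ _ _
  refine ⟨fun (F : T.C) (m : T.C →₀ ℕ) => ?_, fun (F : T.C) (m : T.C →₀ ℕ) hm => ?_,
    fun (F : T.C) (m : T.C →₀ ℕ) k => ?_⟩
  · exact (e F m).symm ▸ (h.gr F m).C_mul _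
  · exact h.le F m (mem_support_iff.2
      (right_ne_zero_of_mul ((e F m).symm.trans_ne (mem_support_iff.1 hm))))
  · refine (e F m).trans (Eq.trans ?_ (congrArg _ (scl_coeff F m).symm))
    rw [h.top F m k, map_mul]

theorem tsc_u (y : T.Cw S → ℝ) (p : T.Cw S) :
    ((T.scl s).tw S (T.tsc s S Ψ)).u y p = s p.1.1 * (T.tw S Ψ).u y p := by
  refine (tw_u (T := T.scl s) y p).trans (Eq.trans ?_ (congrArg _ (tw_u y p).symm))
  refine Eq.trans (congrArg (S.cf ℝ p.1.2) ?_) (Sh.cf_C_mul _ _ _)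
  change eval (T.Yw S y) (T.tsc s S Ψ p.1.1) = _
  rw [tsc, map_mul, eval_C]

theorem tsc_Φ : ((T.scl s).tw S (T.tsc s S Ψ)).Φ =
    ((T.tw S Ψ).scl fun p : T.Cw S => s p.1.1).Φ :=
  funext fun p : T.Cw S => MvPolynomial.funext (σ := T.Cw S) fun y : T.Cw S → ℝ => by
    have a := tsc_u (Ψ := Ψ) (s := s) y p
    have b := scl_u (T := T.tw S Ψ) (s := fun p : T.Cw S => s p.1.1) y p
    exact a.trans b.symm

theorem tsc_K (Ψ' : T.Twd S) :
    ((T.scl s).tw S Ψ').K = ((T.tw S Ψ).scl fun p : T.Cw S => s p.1.1).K :=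
  Matrix.ext fun p p' : T.Cw S => by
    refine Eq.trans ?_ (scl_K (T := T.tw S Ψ) (s := fun p : T.Cw S => s p.1.1) p p').symm
    refine (congrArg (· * S.K p.1.2 p'.1.2) (scl_K p.1.1 p'.1.1)).trans ?_
    change _ = _ * (T.K p.1.1 p'.1.1 * S.K p.1.2 p'.1.2) * _
    ring

theorem tsc_tw0 : (T.scl s).tw0 S = T.tsc s S (T.tw0 S) := by
  refine funext fun F : T.C => MvPolynomial.ext _ _ fun m : T.C →₀ ℕ => ?_
  refine (coeff_tw0 (T := T.scl s) F m).trans (Eq.trans ?_ (coeff_C_mul _ _ _).symm)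
  refine (congrArg (· • S.el (R := ℝ) S.ε ^ (T.lev F - Finsupp.weight T.lev m))
    (scl_coeff F m)).trans ?_
  refine Eq.trans ?_ (congrArg _ (coeff_tw0 (T := T) F m).symm)
  rw [← smul_eq_C_mul, smul_smul]

theorem lw_scl : (T.scl s).lw S st (T.tsc s S Ψ) =
    (T.lw S st Ψ).scl fun p : T.Cw S => s p.1.1 :=
  congrArg₂ (T.lw S st Ψ).rpl tsc_Φ (tsc_K (Ψ := Ψ) _)

theorem tsc_wt (hK : T.K.PosDef) (o : S.Ok) (hs : ∀ c, s c ≠ 0) (y : T.Cw S → ℤ) :
    ((T.scl s).tw S (T.tsc s S Ψ)).wt y = (T.tw S Ψ).wt y :=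
  (congrArg₂ (fun (Φ : T.Cw S → MvPolynomial (T.Cw S) ℝ) (K : Matrix (T.Cw S) (T.Cw S) ℝ) =>
    gs K⁻¹ fun c => eval (zc y) (Φ c)) tsc_Φ (tsc_K (Ψ := Ψ) _)).trans
      (scl_wt (T := T.tw S Ψ) (kw_posDef hK o.pd) (fun p : T.Cw S => hs p.1.1) y)

end TS

namespace TS

variable {T : TS Unit} {s : T.C → ℝ} {st : T.C → ℕ}

theorem scl_sbS (hK : T.K.PosDef) (hs : ∀ c, s c ≠ 0) (t : ℕ) {l : ℕ} (col : Fin l → Unit)
    {κ : ℕ → ℝ} (hκ : ∀ j, 0 < κ j) (k : T.C → ℤ) :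
    (T.scl s).sbS st t col κ k = T.sbS st t col κ k := by
  have o : (Sh.sym col κ).Ok := Sh.sym_ok fun j _ => hκ j
  rw [sbS_lw (T.scl s) st t col κ k tsc_tw0, sbS_lw T st t col κ k rfl]
  refine (congrArg (fun X : (T.Cw (Sh.sym col κ) → MvPolynomial (T.Cw (Sh.sym col κ)) ℝ) ×
    Matrix (T.Cw (Sh.sym col κ)) (T.Cw (Sh.sym col κ)) ℝ =>
      ((T.lw (Sh.sym col κ) st (T.tw0 _)).rpl X.1 X.2).bias t
        fun p => if (Sh.sym col κ).dg p.1.2 = l then k p.1.1 else 0)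
    (Prod.ext (x := (_, _)) (y := (_, _)) tsc_Φ (tsc_K (Ψ := T.tw0 _) (T.tsc s _ (T.tw0 _))))).trans ?_
  exact scl_bias (T := T.lw (Sh.sym col κ) st (T.tw0 _)) (kw_posDef hK o.pd)
    (s := fun p : T.Cw (Sh.sym col κ) => s p.1.1) (fun p => hs p.1.1) t _

/-- **regularity does not see the rescaling** -/
theorem RgS.scl {M C n : ℕ} {a η : ℝ} (h : T.RgS st M C n a η) (hK : T.K.PosDef)
    (hs : ∀ c, s c ≠ 0) : (T.scl s).RgS st M C n a η := by
  obtain ⟨κ, lb, r1, r2, r3⟩ := h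
  refine ⟨κ, lb, r1, r2, fun t ht l col k k0 hk hq => ?_⟩
  have hD : ((T.scl s).stg st).D = (T.stg st).D := scl_D (T := T.stg st) hs
  have c : ((T.scl s).stg st).ct = (T.stg st).ct := scl_ct (T := T.stg st) hs
  have L : (T.scl s).LbS st M C n lb η t = T.LbS st M C n lb η t := by
    unfold LbS; rw [c]; rfl
  rw [L, hD] at hq
  rw [L]
  exact (scl_sbS hK hs t col (fun j => (r1 t (mem_Icc.1 ht).2).1.trans_le
    ((r1 t (mem_Icc.1 ht).2).2.2 j).1) k).trans_le (r3 t ht l col k k0 hk hq)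

end TS

end Crest.Agent.N49.Tw

end
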