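import Crest.Agent.N49.Rf.DemD
import Crest.Agent.N49.Tw.Mas0
import Crest.Agent.N49.Rw.Sch

/-!
# Row 49 (helper5): theta functions of blocks, tails of towers, unimodular completion
-/

set_option autoImplicit false

open Matrix MvPolynomial Finset

noncomputable section

namespace Crest.Agent.N49.Tw

open Po Rw Sp

section mat
variable {a b : Type} [Fintype a] [Fintype b] [DecidableEq a] [DecidableEq b]

omit [DecidableEq a] [DecidableEq b] in
theorem ks_eqv (M : Matrix b b ℝ) (e : a ≃ b) (S : Set (b → ℤ)) :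
    ks (M.submatrix e e) 0 {n | n ∘ e.symm ∈ S} = ks M 0 S := by
  rw [ks, ks, ← (e.arrowCongr (Equiv.refl ℤ)).tsum_eq]
  refine tsum_congr fun n => ?_
  have : gs (M.submatrix e e) (zc n - 0) = gs M (zc (n ∘ e.symm) - 0) := by
    rw [sub_zero, sub_zero, gs, gs, qf, qf, submatrix_mulVec_equiv, ← comp_equiv_symm_dotProduct]
    rfl
  by_cases h : n ∘ e.symm ∈ S
  · rw [Set.indicator_of_mem (show n ∈ {n | n ∘ e.symm ∈ S} from h), this]
    exact (Set.indicator_of_mem h fun n => gs M (zc n - 0)).symm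
  · rw [Set.indicator_of_notMem (show n ∉ {n | n ∘ e.symm ∈ S} from h)]
    exact (Set.indicator_of_notMem h fun n => gs M (zc n - 0)).symm

omit [DecidableEq a] [DecidableEq b] in
theorem th_eqv (M : Matrix b b ℝ) (e : a ≃ b) : th (M.submatrix e e) 0 = th M 0 := by
  rw [← ks_univ, ← ks_univ, ← ks_eqv M e]; rfl

omit [DecidableEq a] [DecidableEq b] in
theorem gk_eqv (M : Matrix b b ℝ) (e : a ≃ b) (S : Set (b → ℤ)) :
    gk (M.submatrix e e) {n | n ∘ e.symm ∈ S} = gk M S := by rw [gk, gk, ks_eqv, th_eqv]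

variable {M : Matrix (a ⊕ b) (a ⊕ b) ℝ}

theorem th_inl (hM : M.PosDef) : th M.toBlocks₁₁ 0 ≤ th M 0 := by
  have := tsum_comp_le_tsum_of_inj (summable_gs hM 0) (fun _ => (gs_pos _ _).le)
    (i := fun n : a → ℤ => Sum.elim n 0) fun u v h => funext fun i => congrFun h (.inl i)
  refine le_trans (le_of_eq (tsum_congr fun u => ?_)) this
  simp [gs, qf, dotProduct, mulVec, zc, toBlocks₁₁]

theorem th_inr (hM : M.PosDef) : th M.toBlocks₂₂ 0 ≤ th M 0 := by
  have := tsum_comp_le_tsum_of_inj (summable_gs hM 0) (fun _ => (gs_pos _ _).le)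
    (i := fun n : b → ℤ => Sum.elim 0 n) fun u v h => funext fun i => congrFun h (.inr i)
  refine le_trans (le_of_eq (tsum_congr fun u => ?_)) this
  simp [gs, qf, dotProduct, mulVec, zc, toBlocks₂₂]

theorem th_schur (hM : M.PosDef) : dt M.toBlocks₂₂ * th (schur M) 0 ≤ th M 0 := by
  rw [th_dual hM, th_dual (pd_schur hM), schur_inv hM, dt_split hM, ← mul_assoc, mul_comm (dt _)]
  exact mul_le_mul_of_nonneg_left (th_inl hM.inv)
    (mul_pos (dt_pos (pd_schur hM)) (dt_pos (pd_bb hM))).le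

theorem ks_schur (hM : M.PosDef) (S : Set (a → ℤ)) :
    ks M 0 {n | n ∘ Sum.inl ∈ S} ≤ th M.toBlocks₂₂ 0 * ks (schur M) 0 S := by
  have s := (Equiv.sumArrowEquivProdArrow a b ℤ).symm.summable_iff.2
    (summable_ks hM 0 {n | n ∘ Sum.inl ∈ S})
  rw [ks, ← (Equiv.sumArrowEquivProdArrow a b ℤ).symm.tsum_eq, ks, ← tsum_mul_left]
  refine s.tsum_prod.trans_le (s.prod.tsum_le_tsum (fun n => ?_)
    ((summable_ks (pd_schur hM) 0 S).mul_left _))
  by_cases h : n ∈ S
  · rw [Set.indicator_of_mem h, mul_comm]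
    refine le_trans (le_of_eq ?_) (mul_le_mul_of_nonneg_left
      (th_le (pd_bb hM) (-(lm M *ᵥ zc n))) (gs_pos _ _).le)
    rw [th, ← tsum_mul_left]
    refine tsum_congr fun u => ?_
    refine (Set.indicator_of_mem (show Sum.elim n u ∈ {n | n ∘ Sum.inl ∈ S} from h)
      fun n => gs M (zc n - 0)).trans ?_
    rw [sub_zero, sub_zero, sub_neg_eq_add, ← gs_split hM]
    congr 1
    funext i
    cases i <;> rfl
  · rw [Set.indicator_of_notMem h, mul_zero]
    refine le_of_eq ((tsum_congr fun u => ?_).trans tsum_zero)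
    exact Set.indicator_of_notMem (show Sum.elim n u ∉ {n | n ∘ Sum.inl ∈ S} from h)
      fun n => gs M (zc n - 0)

/-- new coordinates: the cost -/
theorem th_new (hM : M.PosDef) : th M 0 ≤ th M⁻¹.toBlocks₂₂⁻¹ 0 * th M.toBlocks₁₁ 0 := by
  have h := ks_schur hM.inv Set.univ
  rw [show {n : a ⊕ b → ℤ | n ∘ Sum.inl ∈ Set.univ} = Set.univ from rfl, ks_univ, ks_univ,
    th_dual hM.inv, th_dual (pd_schur hM.inv), th_dual (pd_bb hM.inv), schur_inv hM.inv,
    dt_split hM.inv, inv_inv' hM] at h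
  refine le_of_mul_le_mul_left (h.trans_eq (by ring))
    (mul_pos (dt_pos (pd_schur hM.inv)) (dt_pos (pd_bb hM.inv)))

/-- new coordinates: the mass of a set -/
theorem gk_new (hM : M.PosDef) (S : Set (a → ℤ)) :
    gk M⁻¹ {n | n ∘ Sum.inl ∈ S} ≤ th M⁻¹.toBlocks₂₂⁻¹ 0 * gk M.toBlocks₁₁⁻¹ S := by
  have e : M.toBlocks₁₁⁻¹ = schur M⁻¹ := by
    rw [← inv_inv' (pd_schur hM.inv), schur_inv hM.inv, inv_inv' hM]
  rw [e]
  refine gk_le_of (pd_schur hM.inv) hM.inv (ks_schur hM.inv S) ?_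
  rw [th_dual (pd_bb hM.inv), mul_comm (dt _), mul_assoc]
  exact mul_le_mul_of_nonneg_left (th_schur hM.inv) (th_nonneg _ _)

end mat

/-- adjoin one point to a subtype -/
def adj {C : Type} [DecidableEq C] {p q : C → Prop} {c0 : C} (h : ∀ c, q c ↔ p c ∨ c = c0)
    (h0 : ¬ p c0) : {c // p c} ⊕ Unit ≃ {c // q c} where
  toFun := Sum.elim (fun c => ⟨c.1, (h _).2 (.inl c.2)⟩) fun _ => ⟨c0, (h _).2 (.inr rfl)⟩
  invFun c := if e : c.1 = c0 then .inr () else .inl ⟨c.1, ((h _).1 c.2).resolve_right e⟩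
  left_inv := by
    rintro (c | c)
    · exact dif_neg fun e : c.1 = c0 => h0 (e ▸ c.2)
    · exact dif_pos rfl
  right_inv c := by
    by_cases e : c.1 = c0
    · simp only [dif_pos e]; exact Subtype.ext e.symm
    · simp only [dif_neg e]; rfl

/-- unimodular completion inside a block -/
theorem exists_uni {C : Type} [Fintype C] [DecidableEq C] (p : C → Prop) [DecidablePred p]
    {k b : C → ℤ} (hk : ∀ c, k c ≠ 0 → p c) (h : k ⬝ᵥ b = 1) : ∃ (U V : Matrix C C ℤ) (c0 : C),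
      U * V = 1 ∧ p c0 ∧ V c0 = k ∧ ∀ c c', ¬ p c ∨ ¬ p c' →
        U c c' = (1 : Matrix C C ℤ) c c' ∧ V c c' = (1 : Matrix C C ℤ) c c' := by
  have k0 : ∀ c, ¬ p c → k c = 0 := fun c n => by_contra fun e => n (hk c e)
  obtain ⟨s, B, P, H⟩ := La.spl_one (fun c : {c // p c} => k c.1) (fun c => b c.1) (by
    rw [← h, dotProduct, dotProduct, ← (Equiv.sumCompl p).sum_comp, Fintype.sum_sum_type]
    simp [fun c : {c // ¬ p c} => k0 c.1 c.2])
  obtain ⟨f⟩ := Fintype.card_eq.1 H.card_eq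
  let e := (Equiv.sumCompl p).symm
  refine ⟨(fromBlocks ((fromCols B (replicateCol Unit fun c => b c.1)).submatrix id f.symm) 0 0
    1).submatrix e e, (fromBlocks ((fromRows P (replicateRow Unit fun c => k c.1)).submatrix
      f.symm id) 0 0 1).submatrix e e, (f (.inr ())).1, ?_, (f _).2, funext fun c => ?_,
    fun c c' n => ?_⟩
  · rw [submatrix_mul_equiv, fromBlocks_multiply, submatrix_mul_equiv, fromCols_mul_fromRows, H.sum]
    simp
  · by_cases q : p c
    · simp [e, Equiv.sumCompl_symm_apply_of_pos q]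
    · simp [e, Equiv.sumCompl_symm_apply_of_neg q, k0 c q]
  · obtain ⟨c, rfl⟩ := e.symm.surjective c
    obtain ⟨c', rfl⟩ := e.symm.surjective c'
    simp only [submatrix_apply, Equiv.apply_symm_apply, one_apply, EmbeddingLike.apply_eq_iff_eq]
    rcases c with c | c <;> rcases c' with c' | c'
    · exact (n.elim (· c.2) (· c'.2)).elim
    all_goals simp [one_apply]

namespace TS
variable {σ : Type} {T : TS σ}

/-- the tail of a tower -/
theorem Tri.tail (h : T.Tri) {s : ℕ} (hs : ∀ c, T.lev c < s) (r : ℝ) :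
    T.S (Set.indicator {y | r ≤ qf T.K⁻¹ (T.u (zc y))} 1) ≤
      bz T.C r * (∏ j ∈ range s, T.ct j) * T.Zc := by
  have h2 := h.setK (h.pd.smul (two_pos (α := ℝ))) fun c c' e => by simp [h.blk_K c c' e]
  have eD : (T.setK ((2 : ℝ) • T.K)).D = (2 : ℝ) • T.D := by
    change T.A⁻¹ * ((2 : ℝ) • T.K) * T.A⁻¹ᵀ = _
    rw [Matrix.mul_smul, Matrix.smul_mul, D]
  have eZ : (T.setK ((2 : ℝ) • T.K)).Zc = √2 ^ Fintype.card T.C * T.Zc := by
    change dt (T.setK ((2 : ℝ) • T.K)).D⁻¹ = _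
    rw [eD]
    change dt ((2 : ℝ) • T.D)⁻¹ = _
    rw [inv_smul' h.pd_D two_ne_zero, dt_smul (by norm_num), Real.sqrt_inv, inv_inv, Zc]
  have ec : ∀ j, (T.setK ((2 : ℝ) • T.K)).ct j ≤ T.ct j := fun j => by
    unfold ct
    rw [eD]
    change Po.th ((2 : ℝ) • T.D.submatrix (Subtype.val : {c // T.lev c = j} → T.C)
      (Subtype.val : {c // T.lev c = j} → T.C)) 0 ≤ _
    refine th_mono (h.pd_Dl j) ((h.pd_Dl j).smul (two_pos (α := ℝ))) (fun x => ?_) 0
    rw [qf_smul]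
    linarith [qf_nonneg (h.pd_Dl j) x]
  have a : T.S (Set.indicator {y | r ≤ qf T.K⁻¹ (T.u (zc y))} 1) ≤
      Real.exp (-(Real.pi * r / 2)) * (T.setK ((2 : ℝ) • T.K)).Z := by
    rw [Z, ← tsum_mul_left]
    refine (h.sm (.ind _)).tsum_le_tsum (fun y => ?_) (h2.summable.mul_left _)
    by_cases q : r ≤ qf T.K⁻¹ (T.u (zc y))
    · rw [Set.indicator_of_mem (show y ∈ {y | r ≤ qf T.K⁻¹ (T.u (zc y))} from q), Pi.one_apply, mul_one]
      change gs _ _ ≤ _ * gs ((2 : ℝ) • T.K)⁻¹ (T.u (zc y))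
      rw [inv_smul' h.pd two_ne_zero, gs, gs, qf_smul, ← Real.exp_add, Real.exp_le_exp]
      nlinarith [Real.pi_pos]
    · rw [Set.indicator_of_notMem (show y ∉ {y | r ≤ qf T.K⁻¹ (T.u (zc y))} from q), mul_zero]
      exact (mul_pos (Real.exp_pos _) (wt_pos _ _)).le
  refine a.trans ((mul_le_mul_of_nonneg_left ((Z_le_ct h2 hs).trans (mul_le_mul_of_nonneg_right
    (prod_le_prod (fun j _ => th_nonneg _ _) fun j _ => ec j) h2.Zc_pos.le))
      (Real.exp_pos _).le).trans_eq ?_)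
  rw [eZ, bz]
  ring

end TS

end Crest.Agent.N49.Tw

end
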