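import Crest.Agent.N49.Rf.Dem0

/-!
# Row 49 (helper5): demotion of one coordinate
-/

set_option autoImplicit false

open Matrix MvPolynomial Finset

noncomputable section

namespace Crest.Agent.N49.Tw

open Po Rw Sp

theorem WL.coeff_zero {C : Type} {w : C → ℕ} {d : ℕ} {P : MvPolynomial C ℝ} (h : WL w d P) {c : C}
    (e : d < w c) : coeff (Finsupp.single c 1) P = 0 :=
  coeff_single_eq_zero fun a => (h.vars a).not_gt e

section vmv
variable {C : Type} [Fintype C] [DecidableEq C] {a b : C → ℝ}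

theorem det_vmv (h : b ⬝ᵥ a = 0) : (1 - vecMulVec a b).det = 1 := by
  rw [sub_eq_add_neg, ← neg_vecMulVec, vecMulVec_eq Unit, det_one_add_replicateCol_mul_replicateRow,
    dotProduct_neg, h, neg_zero, add_zero]

theorem inv_vmv (h : b ⬝ᵥ a = 0) : (1 - vecMulVec a b)⁻¹ = 1 + vecMulVec a b :=
  inv_eq_left_inv (by
    rw [Matrix.mul_sub, Matrix.mul_one, Matrix.add_mul, Matrix.one_mul, vecMulVec_mul_vecMulVec, h,
      zero_smul, vecMulVec_zero, add_zero, add_sub_cancel_right])

theorem qf_single (M : Matrix C C ℝ) (c : C) : qf M (Pi.single c 1) = M c c := by simp [qf]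

end vmv

namespace TS
variable (T : TS Unit) (c0 : T.C) (L : MvPolynomial T.C ℝ)

/-- the regression on the coordinate `c0` -/
def dw (c : T.C) : ℝ := if c = c0 then 0 else T.D c c0 / T.D c0 c0
/-- the decoupling matrix -/
def dN : Matrix T.C T.C ℝ := 1 - vecMulVec (T.dw c0) (Pi.single c0 1)
/-- the linear part of `L` -/
def dl0 (c : T.C) : ℝ := if T.lev c = T.lev c0 - 1 then coeff (Finsupp.single c 1) L else 0

/-- the demoted structure -/
abbrev dm : TS Unit where
  C := T.C
  deg c := if c = c0 then Finsupp.single () (T.lev c0 - 1) else T.deg c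
  Φ c := if c = c0 then X c0 - L else ∑ c', MvPolynomial.C ((T.dN c0 * T.A⁻¹) c c') * T.Φ c'
  K := T.dN c0 * T.D * (T.dN c0)ᵀ

theorem dm_lev (c : T.C) : (T.dm c0 L).lev c = if c = c0 then T.lev c0 - 1 else T.lev c := by
  change Finsupp.degree (if c = c0 then _ else _) = _
  split_ifs
  · exact Finsupp.degree_single ..
  · rfl

theorem dm_lev0 : (T.dm c0 L).lev c0 = T.lev c0 - 1 := (T.dm_lev c0 L c0).trans (if_pos rfl)

theorem dm_lev_le (c : T.C) : (T.dm c0 L).lev c ≤ T.lev c := by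
  rw [dm_lev]; split_ifs with e
  · rw [e]; omega
  · rfl

theorem dw0 : T.dw c0 c0 = 0 := if_pos rfl

theorem det_dN : (T.dN c0).det = 1 := det_vmv (by simp [dw0])

theorem dN_mulVec (v : T.C → ℝ) (c : T.C) : (T.dN c0 *ᵥ v) c = v c - T.dw c0 c * v c0 := by
  simp [dN, sub_mulVec, vecMulVec_mulVec, mul_comm]

theorem dm_u (y : T.C → ℝ) : (T.dm c0 L).u y =
    T.dN c0 *ᵥ (y - T.th y) + (T.th y c0 - eval y L) • Pi.single c0 1 := by
  refine funext fun c : T.C => ?_
  change eval y (if c = c0 then _ else _) = _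
  split_ifs with e
  · subst e
    simp [dN_mulVec, dw0]
  · rw [th, sub_sub_cancel, mulVec_mulVec, Pi.add_apply, Pi.smul_apply, Pi.single_eq_of_ne e]
    simp [mulVec, dotProduct, u]

variable {T c0 L}

theorem dm_lev1 {c : T.C} (e : c ≠ c0) : (T.dm c0 L).lev c = T.lev c :=
  (T.dm_lev c0 L c).trans (if_neg e)

theorem Tri.dw_lev (h : T.Tri) {c : T.C} (e : T.lev c ≠ T.lev c0) : T.dw c0 c = 0 := by
  rw [dw, h.blk_D c c0 e, zero_div, ite_self]

theorem Tri.blk_dN (h : T.Tri) : Blk T.lev (T.dN c0) := fun c c' e => by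
  have n : c ≠ c' := fun n => e (n ▸ rfl)
  by_cases q : c' = c0
  · subst q
    simp [dN, n, vecMulVec_apply, h.dw_lev e]
  · simp [dN, n, vecMulVec_apply, q]

theorem Tri.kap_pos (h : T.Tri) (c : T.C) : 0 < T.D c c := h.pd_D.diag_pos

theorem Tri.D_symm (h : T.Tri) (c c' : T.C) : T.D c c' = T.D c' c := by
  simpa using h.pd_D.1.apply c' c

theorem Tri.dm_K (h : T.Tri) (c c' : T.C) : (T.dm c0 L).K c c' =
    if c = c0 ∨ c' = c0 then (if c = c' then T.D c0 c0 else 0) else
      T.D c c' - T.D c c0 * T.D c0 c' / T.D c0 c0 := by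
  have k := (h.kap_pos c0).ne'
  have e : ∀ c, T.dN c0 c = Pi.single c 1 - T.dw c0 c • Pi.single c0 1 := fun c => by
    funext i; simp [dN, vecMulVec_apply, one_apply, Pi.single_apply, eq_comm]
  change (T.dN c0 * T.D * (T.dN c0)ᵀ) c c' = _
  rw [mul_mul_apply, transpose_transpose, e, e]
  simp only [mulVec_sub, mulVec_smul, sub_dotProduct, dotProduct_sub, smul_dotProduct,
    dotProduct_smul, single_dotProduct, mulVec_single_one, col_apply, one_mul, smul_eq_mul, dw]
  by_cases a : c = c0 <;> by_cases b : c' = c0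
  · simp [a, b]
  · simp [a, b, Ne.symm b, h.D_symm c' c0, k]
  · simp [a, b, k]
  · simp only [a, b, if_false, or_self, h.D_symm c' c0]
    field_simp
    ring

theorem Tri.dm_pd (h : T.Tri) : (T.dm c0 L).K.PosDef := by
  have := posDef_conj h.pd_D (B := (T.dN c0)ᵀ) (mulVec_injective_iff_isUnit.2
    ((isUnit_iff_isUnit_det _).2 (by rw [det_transpose, det_dN]; exact isUnit_one)))
  rwa [transpose_transpose] at this

variable (h : T.Tri) (h2 : 2 ≤ T.lev c0) (hL : WL T.lev (T.lev c0 - 1) L)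
include h2

theorem dl00 : T.dl0 c0 L c0 = 0 := if_neg (by omega)

include h hL

theorem Tri.dm_A : (T.dm c0 L).A = 1 - vecMulVec (Pi.single c0 1) (T.dl0 c0 L) := by
  refine funext fun c : T.C => funext fun c' : T.C => ?_
  change (if (T.dm c0 L).lev c = (T.dm c0 L).lev c' then
    coeff (Finsupp.single c' 1) (if c = c0 then _ else _) else 0) = _
  have b := blk_mul (h.blk_dN (c0 := c0)) (blk_inv T.blk_A)
  rw [Matrix.sub_apply, vecMulVec_apply, one_apply]
  by_cases a : c = c0
  · subst a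
    rw [if_pos rfl, coeff_sub, coeff_X, Pi.single_eq_same, one_mul, dm_lev0]
    by_cases q : c = c'
    · subst q
      simp [dm_lev0, dl00 h2, hL.coeff_zero (show _ < T.lev c by omega)]
    · simp [dm_lev1 (Ne.symm q), dl0, q, Finsupp.single_left_inj, eq_comm]
      split_ifs <;> simp
  · rw [if_neg a, Pi.single_eq_of_ne a, zero_mul, sub_zero, dm_lev1 a, coeff_sum]
    simp only [coeff_C_mul]
    by_cases q : c' = c0
    · subst q
      rw [if_neg a, dm_lev0]
      split_ifs with e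
      · refine sum_eq_zero fun i _ => ?_
        by_cases n : T.lev c = T.lev i
        · rw [(h.wl i).coeff_zero (by omega), mul_zero]
        · rw [b c i n, zero_mul]
      · rfl
    · rw [dm_lev1 q]
      split_ifs with e e' e'
      rotate_left 2
      · exact (e (e' ▸ rfl)).elim
      · rfl
      all_goals
        have : ∑ i, (T.dN c0 * T.A⁻¹) c i * coeff (Finsupp.single c' 1) (T.Φ i) =
            (T.dN c0 * T.A⁻¹ * T.A) c c' := sum_congr rfl fun i _ => by
          change _ = (T.dN c0 * T.A⁻¹) c i * T.A i c'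
          by_cases n : T.lev c = T.lev i
          · exact congrArg _ (if_pos (n.symm.trans e)).symm
          · rw [b c i n, zero_mul, zero_mul]
        rw [this, Matrix.mul_assoc, nonsing_inv_mul _ h.unit, Matrix.mul_one]
        simp [dN, vecMulVec_apply, q, one_apply, e']

theorem Tri.dm_det : (T.dm c0 L).A.det = 1 := by
  rw [h.dm_A h2 hL]; exact det_vmv (by simp [dl00 h2])

theorem Tri.dm : (T.dm c0 L).Tri where
  tri := fun c : T.C => by
    have m : ∀ {d : ℕ} {P : MvPolynomial T.C ℝ}, WL T.lev d P → WL (T.dm c0 L).lev d P :=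
      fun H => by simpa using H.rename (f := id) (T.dm_lev_le c0 L)
    change WL (T.dm c0 L).lev _ (if c = c0 then _ else _)
    split_ifs with a
    · subst a
      exact (WL.X le_rfl).sub (by rw [dm_lev0]; exact m hL)
    · refine WL.sum _ fun i _ => ?_
      by_cases n : T.lev c = T.lev i
      · rw [dm_lev1 a, n]; exact (m (h.wl i)).cmul _
      · rw [blk_mul h.blk_dN (blk_inv T.blk_A) c i n, map_zero, zero_mul]; exact WL.zero
  ne := fun (c : T.C) e => by
    have : (T.dm c0 L).lev c = 0 := (Finsupp.degree_eq_zero_iff _).2 e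
    have p := h.lev_pos c
    rw [dm_lev] at this
    split_ifs at this <;> omega
  det := by rw [h.dm_det h2 hL]; exact one_ne_zero
  pd := h.dm_pd
  blk := fun (c c' : T.C) e => by
    by_cases a : c = c0 ∨ c' = c0
    · rw [h.dm_K, if_pos a] at e
      rw [by_contra fun n : ¬ c = c' => e (if_neg n)]
    · rw [dm_lev1 fun n => a (.inl n), dm_lev1 fun n => a (.inr n)]
      exact by_contra fun n => e (blk_mul (blk_mul h.blk_dN h.blk_D) (blk_tr h.blk_dN) c c' n)

theorem Tri.dm_Zc : (T.dm c0 L).Zc = T.Zc := by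
  rw [Zc_eq, h.dm_det h2 hL, abs_one, div_one, Zc, dt_inv, dt_inv, dt, dt]
  change (√(T.dN c0 * T.D * (T.dN c0)ᵀ).det)⁻¹⁻¹ = _
  rw [det_mul, det_mul, det_transpose, det_dN, one_mul, mul_one]

theorem Tri.dm_D {c c' : T.C} (a : c ≠ c0) (b : c' ≠ c0) :
    (T.dm c0 L).D c c' = T.D c c' - T.D c c0 * T.D c0 c' / T.D c0 c0 := by
  have e : ∀ c, c ≠ c0 → (1 + vecMulVec (Pi.single c0 1) (T.dl0 c0 L)) c = Pi.single c 1 :=
    fun c a => by funext i; simp [vecMulVec_apply, one_apply, Pi.single_apply, a, eq_comm]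
  rw [D, h.dm_A h2 hL, inv_vmv (by simp [dl00 h2]), mul_mul_apply, transpose_transpose, e c a, e c' b,
    single_dotProduct, mulVec_single_one, one_mul]
  exact (h.dm_K (L := L) c c').trans (if_neg (not_or.2 ⟨a, b⟩))

omit h2 hL in
theorem Tri.dm_Ki : (T.dm c0 L).K⁻¹ *ᵥ Pi.single c0 1 = (T.D c0 c0)⁻¹ • Pi.single c0 (1 : ℝ) := by
  have e : (T.dm c0 L).K *ᵥ Pi.single c0 1 = T.D c0 c0 • Pi.single c0 (1 : ℝ) := by
    refine funext fun c : T.C => ?_
    rw [mulVec_single_one, col_apply, h.dm_K, if_pos (.inr rfl)]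
    simp [Pi.single_apply]
  have := congrArg ((T.dm c0 L).K⁻¹ *ᵥ ·) e
  simp only [mulVec_mulVec, nonsing_inv_mul _ h.dm_pd.det_pos.ne'.isUnit, one_mulVec,
    mulVec_smul] at this
  rw [eq_comm, inv_smul_eq_iff₀ (h.kap_pos c0).ne']
  exact this

theorem Tri.dm_Di : (T.dm c0 L).D⁻¹ c0 c0 = (T.D c0 c0)⁻¹ := by
  refine (qf_single _ _).symm.trans ?_
  rw [(h.dm h2 hL).D_inv, qf_conj, h.dm_A h2 hL, sub_mulVec, one_mulVec, vecMulVec_mulVec, dotProduct_single, dl00 h2, zero_mul,
    MulOpposite.op_zero, zero_smul, sub_zero, qf, h.dm_Ki]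
  simp

end TS

end Crest.Agent.N49.Tw

end
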