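import Crest.Agent.N49.Rf.Dem1

/-!
# Row 49 (helper5): costs of a demotion and the comparison of the laws
-/

set_option autoImplicit false

open Matrix MvPolynomial Finset

noncomputable section

namespace Crest.Agent.N49.Tw

open Po Rw Sp

theorem abs_exp_sub {Q Q1 η : ℝ} (h : |Q1 - Q| ≤ η) :
    |Real.exp (-(Real.pi * Q1)) - Real.exp (-(Real.pi * Q))| ≤
      (Real.exp (Real.pi * η) - 1) * Real.exp (-(Real.pi * Q)) := by
  obtain ⟨a, b⟩ := abs_le.1 h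
  have e : Real.exp (-(Real.pi * Q1)) - Real.exp (-(Real.pi * Q)) =
      (Real.exp (Real.pi * (Q - Q1)) - 1) * Real.exp (-(Real.pi * Q)) := by
    rw [sub_mul, ← Real.exp_add]; ring_nf
  rw [e, abs_mul, abs_of_pos (Real.exp_pos _)]
  refine mul_le_mul_of_nonneg_right (abs_le.2 ⟨?_, ?_⟩) (Real.exp_pos _).le
  · nlinarith [Real.add_one_le_exp (Real.pi * (Q - Q1)), Real.add_one_le_exp (Real.pi * η),
      Real.pi_pos]
  · exact sub_le_sub_right (Real.exp_le_exp.2 (by nlinarith [Real.pi_pos])) _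

theorem cross_le {κ r δ x e : ℝ} (hκ : 0 < κ) (hδ : 0 ≤ δ) (hx : x ^ 2 ≤ κ * r)
    (he : |e| ≤ δ * √κ) : κ⁻¹ * (2 * |x * e| + e ^ 2) ≤ 2 * δ * √r + δ ^ 2 := by
  have a : |x| ≤ √κ * √r := by rw [← Real.sqrt_mul hκ.le]; exact Real.abs_le_sqrt hx
  have b := mul_le_mul a he (abs_nonneg _) (by positivity)
  have c := mul_self_le_mul_self (abs_nonneg _) he
  have d := Real.mul_self_sqrt hκ.le
  rw [inv_mul_le_iff₀ hκ, abs_mul, ← sq_abs]
  calc _ ≤ 2 * (√κ * √r * (δ * √κ)) + δ * √κ * (δ * √κ) := by nlinarith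
    _ = √κ * √κ * (2 * δ * √r + δ ^ 2) := by ring
    _ = _ := by rw [d]

namespace TS
variable {T : TS Unit} {c0 : T.C} {L : MvPolynomial T.C ℝ}
  (h : T.Tri) (h2 : 2 ≤ T.lev c0) (hL : WL T.lev (T.lev c0 - 1) L)

include h2 in
theorem dm_hi (c : T.C) : T.lev c = T.lev c0 ↔ (T.dm c0 L).lev c = T.lev c0 ∨ c = c0 := by
  rw [dm_lev]; split_ifs with e <;> simp [e]

include h2 in
theorem dm_lo (c : T.C) :
    (T.dm c0 L).lev c = T.lev c0 - 1 ↔ T.lev c = T.lev c0 - 1 ∨ c = c0 := by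
  rw [dm_lev]; split_ifs with e <;> simp [e]

theorem dm_ot {j : ℕ} (a : j ≠ T.lev c0) (b : j ≠ T.lev c0 - 1) (c : T.C) :
    (T.dm c0 L).lev c = j ↔ T.lev c = j := by
  rw [dm_lev]; split_ifs with e
  · simp [e, a.symm, b.symm]
  · rfl

include h2 in
theorem dm_R : (T.dm c0 L).R (T.lev c0) + 1 = T.R (T.lev c0) ∧
    (T.dm c0 L).R (T.lev c0 - 1) = T.R (T.lev c0 - 1) + 1 := by
  simp only [← card_lev]
  rw [← Fintype.card_congr (adj (dm_hi (L := L) h2) (by rw [dm_lev0]; omega)),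
    ← Fintype.card_congr (adj (dm_lo (L := L) h2) (by omega))]
  simp

include h h2 hL

theorem Tri.dm_D' {c c' : T.C} (a : T.lev c ≠ T.lev c0) (b : T.lev c' ≠ T.lev c0) :
    (T.dm c0 L).D c c' = T.D c c' := by
  rw [h.dm_D h2 hL (fun e => a (e ▸ rfl)) fun e => b (e ▸ rfl), h.blk_D c c0 a]
  simp

theorem Tri.dm_blk {j : ℕ} (a : j ≠ T.lev c0) (b : j ≠ T.lev c0 - 1) :
    (T.dm c0 L).D.submatrix (Subtype.val : {c // (T.dm c0 L).lev c = j} → T.C) Subtype.val =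
      (T.D.submatrix (Subtype.val : {c // T.lev c = j} → T.C) Subtype.val).submatrix
        (Equiv.subtypeEquivRight (dm_ot (L := L) a b))
        (Equiv.subtypeEquivRight (dm_ot (L := L) a b)) := by
  ext c c'
  exact h.dm_D' h2 hL (((dm_ot a b _).1 c.2).trans_ne a) (((dm_ot a b _).1 c'.2).trans_ne a)

theorem Tri.dm_ct {j : ℕ} (a : j ≠ T.lev c0) (b : j ≠ T.lev c0 - 1) :
    (T.dm c0 L).R j = T.R j ∧ (T.dm c0 L).ct j ≤ T.ct j :=
  ⟨by rw [← card_lev, ← card_lev, Fintype.card_congr (Equiv.subtypeEquivRight (dm_ot a b))],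
    by rw [ct, h.dm_blk h2 hL a b, th_eqv, ct]⟩

theorem Tri.dm_hi_ct : (T.dm c0 L).ct (T.lev c0) ≤ √(T.D c0 c0) * T.ct (T.lev c0) ∧
    Po.th (of fun _ _ : Unit => T.D c0 c0) 0 ≤ T.ct (T.lev c0) := by
  let e := adj (dm_hi (L := L) h2) (by rw [dm_lev0]; omega)
  have p := (h.pd_Dl (T.lev c0)).submatrix e.injective
  have n : ∀ c : {c // (T.dm c0 L).lev c = T.lev c0}, c.1 ≠ c0 := fun c q => by
    have := c.2
    rw [q, dm_lev0] at this
    omega
  have a := th_schur p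
  rw [th_eqv, dt, det_unique] at a
  refine ⟨le_trans (le_of_eq ?_) ((inv_mul_le_iff₀ (Real.sqrt_pos.2 (h.kap_pos c0))).1 a),
    (th_inr p).trans_eq (th_eqv _ e)⟩
  rw [ct]
  congr 1
  ext c c'
  refine (h.dm_D h2 hL (n c) (n c')).trans ?_
  simp only [schur, Matrix.sub_apply, mul_apply, inv_subsingleton, Fintype.sum_unique,
    diagonal_apply_eq, Ring.inverse_eq_inv']
  change _ = T.D c c' - T.D c c0 * (T.D c0 c0)⁻¹ * T.D c0 c'
  ring

theorem Tri.dm_lo_blk : ∃ (e : {c // T.lev c = T.lev c0 - 1} ⊕ Unit ≃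
    {c // (T.dm c0 L).lev c = T.lev c0 - 1}), (∀ c, (e (.inl c)).1 = c.1) ∧ (e (.inr ())).1 = c0 ∧
    ((((T.dm c0 L).D.submatrix Subtype.val Subtype.val).submatrix e e).toBlocks₁₁ =
      T.D.submatrix Subtype.val Subtype.val) ∧
    (((T.dm c0 L).D.submatrix Subtype.val Subtype.val).submatrix e e)⁻¹.toBlocks₂₂⁻¹ =
      of fun _ _ : Unit => T.D c0 c0 := by
  refine ⟨adj (dm_lo (L := L) h2) (by omega), fun _ => rfl, rfl, ?_, ?_⟩
  · ext c c'
    exact h.dm_D' h2 hL (c.2.trans_ne (by omega)) (c'.2.trans_ne (by omega))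
  · rw [inv_submatrix_equiv, Rw.Bk.sub_inv (fun _ _ e k => e ▸ k) (h.dm h2 hL).blk_D
      (h.dm h2 hL).pd_D.det_pos.ne']
    ext c c'
    simp only [inv_subsingleton, diagonal_apply, if_true, Ring.inverse_eq_inv', of_apply]
    exact inv_eq_iff_eq_inv.2 (h.dm_Di h2 hL)

theorem Tri.dm_lo_ct : (T.dm c0 L).ct (T.lev c0 - 1) ≤ T.ct (T.lev c0) * T.ct (T.lev c0 - 1) := by
  obtain ⟨e, -, -, a, b⟩ := h.dm_lo_blk h2 hL
  have := th_new (((h.dm h2 hL).pd_Dl (T.lev c0 - 1)).submatrix e.injective)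
  rw [th_eqv, a, b] at this
  exact this.trans (mul_le_mul_of_nonneg_right (h.dm_hi_ct h2 hL).2 (th_nonneg _ _))

theorem Tri.dm_g1 {π : T.C → ℤ} (hπ : ∀ c, π c ≠ 0 → T.lev c = 1) :
    (T.dm c0 L).g1 π ≤ T.ct (T.lev c0) * T.g1 π := by
  by_cases q : T.lev c0 - 1 = 1
  · have k := h.dm_lo_blk h2 hL
    rw [q] at k
    obtain ⟨e, e1, e2, a, b⟩ := k
    have := gk_new (((h.dm h2 hL).pd_Dl 1).submatrix e.injective)
      {n | (fun c : {c // T.lev c = 1} => π c.1) ⬝ᵥ n = 0}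
    rw [a, b, inv_submatrix_equiv] at this
    refine le_trans (le_of_eq ?_) (this.trans
      (mul_le_mul_of_nonneg_right (h.dm_hi_ct h2 hL).2 (gk_nonneg _ _)))
    rw [g1, ← gk_eqv _ e]
    congr 1
    ext n
    have z : π c0 = 0 := by_contra fun z => by have := hπ c0 z; omega
    simp only [Set.mem_ofPred_eq, dotProduct, ← e.sum_comp, Fintype.sum_sum_type, e1, e2, z,
      Function.comp, Equiv.symm_apply_apply, Fintype.sum_unique, zero_mul, add_zero]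
  · have a : 1 ≠ T.lev c0 := by omega
    refine le_trans (le_of_eq ?_) (le_mul_of_one_le_left (gk_nonneg _ _) (one_le_ct h _))
    rw [g1, h.dm_blk h2 hL a (Ne.symm q), inv_submatrix_equiv, g1,
      ← gk_eqv _ (Equiv.subtypeEquivRight (dm_ot (L := L) a (Ne.symm q)))]
    congr 1
    ext n
    simp only [Set.mem_ofPred_eq, dotProduct, Function.comp, Equiv.symm_apply_apply,
      ← (Equiv.subtypeEquivRight (dm_ot (L := L) a (Ne.symm q))).sum_comp]
    rfl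

omit h2 hL in
theorem Tri.dm_qf (y : T.C → ℝ) :
    qf (T.dm c0 L).K⁻¹ (T.dN c0 *ᵥ (y - T.th y)) = qf T.K⁻¹ (T.u y) := by
  have u : IsUnit (T.dN c0).det := by rw [det_dN]; exact isUnit_one
  rw [← qf_conj, h.u_eq, ← qf_conj, ← h.D_inv, Matrix.mul_inv_rev, Matrix.mul_inv_rev,
    Matrix.mul_assoc, Matrix.mul_assoc, Matrix.mul_assoc, nonsing_inv_mul _ u, Matrix.mul_one,
    ← Matrix.mul_assoc, mul_nonsing_inv _ (by rwa [det_transpose]), Matrix.one_mul]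

omit h2 hL in
/-- the pointwise comparison -/
theorem Tri.dm_cmp (y : T.C → ℝ) {r δ : ℝ} (hδ : 0 ≤ δ)
    (he : (∀ c, T.lev c < T.lev c0 → T.u y c ^ 2 ≤ r * T.K c c) →
      |T.th y c0 - eval y L| ≤ δ * √(T.D c0 c0))
    (hr : qf T.K⁻¹ (T.u y) < r ∨ qf (T.dm c0 L).K⁻¹ ((T.dm c0 L).u y) < r) :
    |qf (T.dm c0 L).K⁻¹ ((T.dm c0 L).u y) - qf T.K⁻¹ (T.u y)| ≤ 2 * δ * √r + δ ^ 2 := by
  have p := h.dm_pd (c0 := c0) (L := L)
  have k := h.kap_pos c0
  have d : ∀ x a, (a ⬝ᵥ x) ^ 2 ≤ qf (T.dm c0 L).K a * qf (T.dm c0 L).K⁻¹ x := fun x a => by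
    simpa only [inv_inv' p] using dual_sq_le p.inv x a
  have d0 : ∀ x, x c0 ^ 2 ≤ T.D c0 c0 * qf (T.dm c0 L).K⁻¹ x := fun x => by
    have := d x (Pi.single c0 1)
    rwa [single_dotProduct, one_mul, qf_single, h.dm_K, if_pos (.inl rfl), if_pos rfl] at this
  have d1 : ∀ (t : ℝ) c, T.lev c < T.lev c0 → T.u y c ^ 2 ≤ T.K c c *
      qf (T.dm c0 L).K⁻¹ (T.dN c0 *ᵥ (y - T.th y) + t • Pi.single c0 1) := fun t c hc => by
    have a0 : T.A c c0 = 0 := T.blk_A c c0 hc.ne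
    have a1 : (T.dN c0)ᵀ *ᵥ T.A c = T.A c := by
      rw [mulVec_transpose, dN, vecMul_sub, vecMul_one, vecMul_vecMulVec, dotProduct,
        sum_eq_zero, zero_smul, sub_zero]
      intro i _
      by_cases n : T.lev c = T.lev i
      · rw [h.dw_lev (by omega), mul_zero]
      · rw [T.blk_A c i n, zero_mul]
    have a2 : T.A * T.D * T.Aᵀ = T.K := by
      rw [D, Matrix.mul_assoc, Matrix.mul_assoc, ← transpose_mul, mul_nonsing_inv _ h.unit,
        transpose_one, Matrix.mul_one, ← Matrix.mul_assoc, mul_nonsing_inv _ h.unit, Matrix.one_mul]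
    have a3 : qf (T.dm c0 L).K (T.A c) = qf T.D (T.A c) := by
      have := qf_conj T.D (T.dN c0)ᵀ (T.A c)
      rwa [transpose_transpose, a1] at this
    have := d (T.dN c0 *ᵥ (y - T.th y) + t • Pi.single c0 1) (T.A c)
    rw [dotProduct_add, dotProduct_smul, dotProduct_single, a0, zero_mul, smul_zero, add_zero,
      dotProduct_mulVec, ← mulVec_transpose, a1, a3] at this
    rw [h.u_eq, ← a2, mul_mul_apply, transpose_transpose]
    exact this
  have K0 : ∀ c, 0 ≤ T.K c c := fun c => h.pd.diag_pos.le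
  have e : qf (T.dm c0 L).K⁻¹ ((T.dm c0 L).u y) - qf T.K⁻¹ (T.u y) = (T.D c0 c0)⁻¹ *
      (2 * ((T.dN c0 *ᵥ (y - T.th y)) c0 * (T.th y c0 - eval y L)) + (T.th y c0 - eval y L) ^ 2) := by
    rw [dm_u, qf_add p.inv, h.dm_qf, qf_smul_right, mulVec_smul, qf.eq_1 _ (Pi.single c0 1),
      h.dm_Ki]
    simp only [dotProduct_smul, dotProduct_single, Pi.single_eq_same, smul_eq_mul]
    ring
  rcases hr with hr | hr
  · have a := he fun c hc => by
      have := d1 0 c hc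
      rw [zero_smul, add_zero, h.dm_qf] at this
      nlinarith [K0 c]
    have b := d0 (T.dN c0 *ᵥ (y - T.th y))
    rw [h.dm_qf] at b
    refine le_trans ?_ (cross_le k hδ (b.trans (mul_le_mul_of_nonneg_left hr.le k.le)) a)
    rw [e, abs_mul, abs_of_pos (inv_pos.2 k)]
    refine mul_le_mul_of_nonneg_left ((abs_add_le _ _).trans_eq ?_) (inv_pos.2 k).le
    rw [abs_mul, abs_two, abs_sq]
  · have a := he fun c hc => by
      have := d1 (T.th y c0 - eval y L) c hc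
      rw [← dm_u] at this
      nlinarith [K0 c]
    refine le_trans ?_ (cross_le k hδ ((d0 _).trans (mul_le_mul_of_nonneg_left hr.le k.le)) a)
    rw [e, abs_mul, abs_of_pos (inv_pos.2 k)]
    refine mul_le_mul_of_nonneg_left (le_trans (le_of_eq ?_) ((abs_sub
      (2 * ((T.dm c0 L).u y c0 * (T.th y c0 - eval y L))) ((T.th y c0 - eval y L) ^ 2)).trans_eq
      (by rw [abs_mul, abs_two, abs_sq]))) (inv_pos.2 k).le
    rw [dm_u]
    simp only [Pi.add_apply, Pi.smul_apply, Pi.single_eq_same, smul_eq_mul]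
    ring_nf

/-- the comparison of the laws -/
theorem Tri.dm_S {s : ℕ} (hs : ∀ c, T.lev c < s) {g : (T.C → ℤ) → ℝ} {B r δ : ℝ}
    (hg : ∀ y, |g y| ≤ B) (hδ : 0 ≤ δ)
    (he : ∀ y, (∀ c, T.lev c < T.lev c0 → T.u (zc y) c ^ 2 ≤ r * T.K c c) →
      |T.th (zc y) c0 - eval (zc y) L| ≤ δ * √(T.D c0 c0)) :
    |(T.dm c0 L).S g - T.S g| ≤
      B * ((Real.exp (Real.pi * (2 * δ * √r + δ ^ 2)) - 1) * T.Z + bz T.C r *
        (∏ j ∈ range s, T.ct j + ∏ j ∈ range s, (T.dm c0 L).ct j) * T.Zc) := by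
  have h1 := h.dm h2 hL
  have B0 := (abs_nonneg _).trans (hg 0)
  have t := h.tail hs r
  have t1 := h1.tail (fun c => (T.dm_lev_le c0 L c).trans_lt (hs c)) r
  rw [h.dm_Zc h2 hL] at t1
  have x0 : 0 ≤ Real.exp (Real.pi * (2 * δ * √r + δ ^ 2)) - 1 :=
    sub_nonneg.2 (Real.one_le_exp (by positivity))
  have s := (((h.summable.hasSum.mul_left (Real.exp (Real.pi * (2 * δ * √r + δ ^ 2)) - 1)).add
    (h.sm (.ind {y | r ≤ qf T.K⁻¹ (T.u (zc y))})).hasSum).add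
    (h1.sm (.ind {y | r ≤ qf (T.dm c0 L).K⁻¹ ((T.dm c0 L).u (zc y))})).hasSum).mul_left B
  rw [S, S, ← (h1.sm (.of_abs hg)).tsum_sub (h.sm (.of_abs hg)), ← Real.norm_eq_abs]
  refine (tsum_of_norm_bounded s fun y => ?_).trans (mul_le_mul_of_nonneg_left ?_ B0)
  · rw [← sub_mul, norm_mul, mul_comm]
    refine mul_le_mul (hg y) ?_ (norm_nonneg _) B0
    have w := T.wt_pos y
    have w1 := (T.dm c0 L).wt_pos y
    by_cases q : qf T.K⁻¹ (T.u (zc y)) < r ∨ qf (T.dm c0 L).K⁻¹ ((T.dm c0 L).u (zc y)) < r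
    · refine (abs_exp_sub (h.dm_cmp _ hδ (he y) q)).trans ?_
      rw [add_assoc]
      exact le_add_of_nonneg_right (add_nonneg (mul_nonneg w.le (ind_nonneg _ _))
        (mul_nonneg w1.le (ind_nonneg _ _)))
    · obtain ⟨a, b⟩ := not_or.1 q
      rw [Set.indicator_of_mem (show y ∈ {y | r ≤ qf T.K⁻¹ (T.u (zc y))} from not_lt.1 a),
        Set.indicator_of_mem (show y ∈ {y | r ≤ qf (T.dm c0 L).K⁻¹ ((T.dm c0 L).u (zc y))} from
          not_lt.1 b), Real.norm_eq_abs, abs_le]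
      simp only [Pi.one_apply, mul_one]
      constructor <;> nlinarith [mul_nonneg x0 w.le]
  · rw [add_assoc, mul_add (bz _ _), add_mul]
    exact add_le_add le_rfl (add_le_add t t1)

end TS

end Crest.Agent.N49.Tw

end
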