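import Crest.Agent.N49.Rf.Nar

/-!
# Row 49 (helper62): weighted degrees, triangular substitutions, residue classes as exact mixtures
-/

set_option autoImplicit false

open Matrix MvPolynomial Finset

noncomputable section

namespace Crest.Agent.N49.Tw

open Po

/-- weighted degree at most `d` -/
def WL {C R : Type} [CommSemiring R] (w : C → ℕ) (d : ℕ) (P : MvPolynomial C R) : Prop :=
  ∀ m ∈ P.support, Finsupp.weight w m ≤ d

namespace WL

variable {C C' R : Type} [CommRing R] {w : C → ℕ} {w' : C' → ℕ} {d d' : ℕ}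
  {P Q : MvPolynomial C R}

theorem mono (h : WL w d P) (e : d ≤ d') : WL w d' P := fun m hm => (h m hm).trans e
theorem zero : WL w d (0 : MvPolynomial C R) := fun m hm => by simp at hm
theorem monomial {m : C →₀ ℕ} (h : Finsupp.weight w m ≤ d) (a : R) : WL w d (monomial m a) :=
  fun m' hm => by
    classical
    rw [mem_singleton.1 (support_monomial_subset hm)]; exact h
theorem const (a : R) : WL w d (MvPolynomial.C a : MvPolynomial C R) := monomial (by simp) a
theorem one : WL w d (1 : MvPolynomial C R) := const 1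
theorem X {c : C} (h : w c ≤ d) : WL w d (X c : MvPolynomial C R) :=
  monomial (by rwa [Finsupp.weight_single, one_smul]) 1
theorem add (h : WL w d P) (h' : WL w d Q) : WL w d (P + Q) := fun m hm => by
  classical
  exact (mem_union.1 (support_add hm)).elim (h m) (h' m)
theorem neg (h : WL w d P) : WL w d (-P) := fun m hm => h m (by rwa [support_neg] at hm)
theorem sub (h : WL w d P) (h' : WL w d Q) : WL w d (P - Q) := by
  rw [sub_eq_add_neg]; exact h.add h'.neg
theorem mul (h : WL w d P) (h' : WL w d' Q) : WL w (d + d') (P * Q) := fun m hm => by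
  classical
  obtain ⟨a, ha, b, hb, rfl⟩ := mem_add.1 (support_mul _ _ hm)
  rw [map_add]
  exact add_le_add (h a ha) (h' b hb)
theorem cmul (h : WL w d P) (a : R) : WL w d (MvPolynomial.C a * P) := by
  simpa using (const (d := 0) a).mul h
theorem smul (h : WL w d P) (a : R) : WL w d (a • P) := by
  rw [smul_eq_C_mul]; exact h.cmul a
theorem pow (h : WL w d P) (n : ℕ) : WL w (n * d) (P ^ n) := by
  induction n with
  | zero => simpa using one
  | succ n ih => rw [pow_succ, Nat.succ_mul]; exact ih.mul h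
theorem sum {ι : Type*} (s : Finset ι) {F : ι → MvPolynomial C R} (h : ∀ i ∈ s, WL w d (F i)) :
    WL w d (∑ i ∈ s, F i) :=
  sum_induction F (WL w d) (fun _ _ => add) zero h
theorem prod {ι : Type*} (s : Finset ι) {F : ι → MvPolynomial C R} {e : ι → ℕ}
    (h : ∀ i ∈ s, WL w (e i) (F i)) : WL w (∑ i ∈ s, e i) (∏ i ∈ s, F i) := by
  classical
  induction s using Finset.induction_on with
  | empty => simpa using one
  | insert a s ha ih =>
    rw [sum_insert ha, prod_insert ha]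
    exact (h a (mem_insert_self _ _)).mul (ih fun i hi => h i (mem_insert_of_mem hi))
theorem vars (h : WL w d P) {c : C} (hc : c ∈ P.vars) : w c ≤ d := by
  obtain ⟨m, h1, h2⟩ := (mem_vars_iff_mem_support _).1 hc
  exact (Finsupp.le_weight_of_ne_zero' w (Finsupp.mem_support_iff.1 h2)).trans (h m h1)
theorem aeval (h : WL w d P) {s : C → MvPolynomial C' R} (hs : ∀ i ∈ P.vars, WL w' (w i) (s i)) :
    WL w' d (aeval s P) := by
  rw [P.as_sum, map_sum]
  refine sum _ fun m hm => ?_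
  rw [aeval_monomial, Finsupp.prod]
  refine ((prod _ fun i hi => (hs i ((mem_vars_iff_mem_support _).2 ⟨m, hm, hi⟩)).pow
    (m i)).cmul _).mono (le_trans (le_of_eq ?_) (h m hm))
  simp [Finsupp.weight_apply, Finsupp.sum]
theorem rename (h : WL w d P) {f : C → C'} (hf : ∀ i, w' (f i) ≤ w i) : WL w' d (rename f P) := by
  rw [rename_eq_aeval]
  exact h.aeval fun i _ => X (hf i)
theorem map {R' : Type} [CommRing R'] (h : WL w d P) (f : R →+* R') :
    WL w d (MvPolynomial.map f P) := fun m hm => h m (support_map_subset _ _ hm)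

end WL

theorem eval_aeval {C C' : Type} (y : C' → ℝ) (s : C → MvPolynomial C' ℝ) (P : MvPolynomial C ℝ) :
    eval y (aeval s P) = eval (fun c => eval y (s c)) P := by
  rw [← coe_aeval_eq_eval, ← coe_aeval_eq_eval]
  change ((aeval y).comp (aeval _)) _ = aeval _ _
  rw [comp_aeval]
  rfl

theorem coeff_single_eq_zero {C : Type} {P : MvPolynomial C ℝ} {c : C} (h : c ∉ P.vars) :
    coeff (Finsupp.single c 1) P = 0 := by
  by_contra a
  exact h ((mem_vars_iff_mem_support _).2 ⟨_, mem_support_iff.2 a, by simp⟩)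

/-- residue classes, one modulus per coordinate -/
def emb {C : Type} (n : C → ℕ) (r y : C → ℤ) : C → ℤ := fun c => r c + n c * y c

theorem tsum_emb {C : Type} [Fintype C] [DecidableEq C] {n : C → ℕ} (hn : ∀ c, 0 < n c)
    {F : (C → ℤ) → ℝ} (hF : Summable F) :
    ∑' y, F y = ∑ r : ∀ c, Fin (n c), ∑' y, F (emb n (fun c => (r c : ℕ)) y) := by
  have := fun c => NeZero.of_pos (hn c)
  let e : (∀ c, Fin (n c)) × (C → ℤ) ≃ (C → ℤ) := (Equiv.prodComm _ _).trans
    ((Equiv.arrowProdEquivProdArrow C (fun _ => ℤ) fun c => Fin (n c)).symm.trans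
      (Equiv.piCongrRight fun c => (Int.divModEquiv (n c)).symm))
  rw [← e.tsum_eq]
  refine ((e.summable_iff.2 hF).tsum_prod.trans (tsum_fintype _)).trans ?_
  refine sum_congr rfl fun r _ => tsum_congr fun y => congrArg F (funext fun c => ?_)
  simp [e, emb, add_comm, mul_comm]

namespace TS

variable {σ : Type} {T : TS σ}

theorem Tri.wl (h : T.Tri) (c : T.C) : WL T.lev (T.lev c) (T.Φ c) := h.tri c

theorem Tri.vars_low (h : T.Tri) {c c' : T.C} (hc : c' ∈ (T.low c).vars) : T.lev c' < T.lev c := by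
  obtain ⟨m, h1, h2⟩ := (mem_vars_iff_mem_support _).1 hc
  exact h.low_lt (mem_support_iff.1 h1) (Finsupp.mem_support_iff.1 h2)

/-- substitute `s` in the errors -/
def sbs (T : TS σ) (s : T.C → MvPolynomial T.C ℝ) : TS σ where
  C := T.C
  deg := T.deg
  Φ c := aeval s (T.Φ c)
  K := T.K

/-- the linear part of a substitution inside the levels -/
def lin (T : TS σ) (s : T.C → MvPolynomial T.C ℝ) : Matrix T.C T.C ℝ :=
  Matrix.of fun c c' => if T.lev c = T.lev c' then coeff (Finsupp.single c' 1) (s c) else 0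

variable {s : T.C → MvPolynomial T.C ℝ}

theorem sbs_u (T : TS σ) (s : T.C → MvPolynomial T.C ℝ) (y : T.C → ℝ) :
    (T.sbs s).u y = T.u fun c => eval y (s c) := funext fun c : T.C => eval_aeval y s (T.Φ c)

theorem sbs_wt {y y' : T.C → ℤ} (e : ∀ c, eval (zc y) (s c) = y' c) : (T.sbs s).wt y = T.wt y' :=
  congrArg (gs T.K⁻¹) ((T.sbs_u s _).trans (congrArg T.u (funext e)))

theorem Tri.sbs_A (h : T.Tri) (hs : ∀ c, WL T.lev (T.lev c) (s c)) :
    (T.sbs s).A = T.A * T.lin s := by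
  refine funext fun c : T.C => funext fun c' : T.C => ?_
  change (if T.lev c = T.lev c' then coeff (Finsupp.single c' 1) (aeval s (T.Φ c)) else 0) = _
  split_ifs with e
  · rw [show T.Φ c = T.low c + ∑ j, MvPolynomial.C (T.A c j) * X j by rw [low, sub_add_cancel],
      map_add, coeff_add, coeff_single_eq_zero, zero_add, map_sum, coeff_sum, mul_apply]
    · refine sum_congr rfl fun j _ => ?_
      rw [map_mul, aeval_C, aeval_X, algebraMap_eq, coeff_C_mul]
      by_cases e' : T.lev c = T.lev j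
      · rw [lin, of_apply, if_pos (e'.symm.trans e)]
      · rw [T.blk_A c j e', zero_mul, zero_mul]
    · intro a
      obtain ⟨i, h1, h2⟩ := mem_vars_bind₁ s _ a
      have := (hs i).vars h2
      have := h.vars_low h1
      omega
  · exact (blk_mul T.blk_A (fun _ _ e => if_neg e) c c' e).symm

theorem Tri.sbs (h : T.Tri) (hs : ∀ c, WL T.lev (T.lev c) (s c)) (hd : (T.lin s).det ≠ 0) :
    (T.sbs s).Tri where
  tri := fun c : T.C => (h.wl c).aeval fun i _ => hs i
  ne := h.ne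
  det := by
    rw [h.sbs_A hs]
    exact fun e => mul_ne_zero h.det hd ((det_mul _ _).symm.trans e)
  pd := h.pd
  blk := h.blk

theorem Tri.sbs_Zc (h : T.Tri) (hs : ∀ c, WL T.lev (T.lev c) (s c)) :
    (T.sbs s).Zc = T.Zc / |(T.lin s).det| := by
  rw [Zc_eq, Zc_eq, h.sbs_A hs, div_div, ← abs_mul, ← det_mul]
  rfl

theorem Tri.sbs_D (h : T.Tri) (hs : ∀ c, WL T.lev (T.lev c) (s c)) :
    (T.sbs s).D = (T.lin s)⁻¹ * T.D * (T.lin s)⁻¹ᵀ := by
  unfold D
  rw [h.sbs_A hs]
  change (T.A * T.lin s)⁻¹ * T.K * (T.A * T.lin s)⁻¹ᵀ = _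
  rw [Matrix.mul_inv_rev, transpose_mul]
  simp only [Matrix.mul_assoc]

theorem Tri.sbs_th (h : T.Tri) (hs : ∀ c, WL T.lev (T.lev c) (s c)) (y : T.C → ℝ) :
    (T.sbs s).th y = y - (T.lin s)⁻¹ *ᵥ ((fun c => eval y (s c)) - T.th fun c => eval y (s c)) := by
  unfold th
  rw [h.sbs_A hs, sbs_u, sub_sub_cancel]
  change y - (T.A * T.lin s)⁻¹ *ᵥ _ = _
  rw [Matrix.mul_inv_rev, mulVec_mulVec]

theorem Low.sbs {p : T.C → Prop} (hp : T.Low p) (hs : ∀ c, p c → ∀ c' ∈ (s c).vars, p c') :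
    (T.sbs s).Low p := fun (c : T.C) hc (c' : T.C) h' => by
  obtain ⟨i, h1, h2⟩ := mem_vars_bind₁ s _ h'
  exact hs i (hp c hc i h1) c' h2

/-! ### residue classes -/

/-- the substitution `y ↦ r + n y` -/
def rsb (T : TS σ) (n : T.C → ℕ) (r : T.C → ℤ) (c : T.C) : MvPolynomial T.C ℝ :=
  MvPolynomial.C (r c : ℝ) + MvPolynomial.C (n c : ℝ) * X c

/-- the law on the residue class `r` modulo `n` -/
def res (T : TS σ) (n : T.C → ℕ) (r : T.C → ℤ) : TS σ := T.sbs (T.rsb n r)

variable {n : T.C → ℕ}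

theorem rs_wl (T : TS σ) (n : T.C → ℕ) (r : T.C → ℤ) (c : T.C) :
    WL T.lev (T.lev c) (T.rsb n r c) := (WL.const _).add ((WL.X le_rfl).cmul _)

theorem eval_rs (T : TS σ) (n : T.C → ℕ) (r : T.C → ℤ) (y : T.C → ℝ) (c : T.C) :
    eval y (T.rsb n r c) = r c + n c * y c := by simp [rsb]

theorem lin_rs (T : TS σ) (n : T.C → ℕ) (r : T.C → ℤ) :
    T.lin (T.rsb n r) = diagonal fun c => (n c : ℝ) := by
  ext c c'
  rw [lin, of_apply, rsb, coeff_add, coeff_C, if_neg (Finsupp.single_ne_zero.2 one_ne_zero).symm,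
    coeff_C_mul, coeff_X, zero_add, diagonal_apply]
  by_cases e : c = c'
  · simp [e]
  · simp [e, Finsupp.single_left_inj]

theorem res_lev (T : TS σ) (n : T.C → ℕ) (r : T.C → ℤ) : (T.res n r).lev = T.lev := rfl
theorem res_K (T : TS σ) (n : T.C → ℕ) (r : T.C → ℤ) : (T.res n r).K = T.K := rfl
theorem res_R (T : TS σ) (n : T.C → ℕ) (r : T.C → ℤ) : (T.res n r).R = T.R := rfl

theorem res_u (T : TS σ) (n : T.C → ℕ) (r : T.C → ℤ) (y : T.C → ℝ) :
    (T.res n r).u y = T.u fun c => r c + n c * y c :=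
  (T.sbs_u _ y).trans (congrArg T.u (funext (T.eval_rs n r y)))

theorem res_wt (T : TS σ) (n : T.C → ℕ) (r y : T.C → ℤ) : (T.res n r).wt y = T.wt (emb n r y) :=
  sbs_wt fun c => by simp [eval_rs, emb, zc]

theorem Tri.res_A (h : T.Tri) (n : T.C → ℕ) (r : T.C → ℤ) :
    (T.res n r).A = T.A * diagonal fun c => (n c : ℝ) := by
  rw [← T.lin_rs n r]; exact h.sbs_A (T.rs_wl n r)

theorem Tri.res (h : T.Tri) (hn : ∀ c, 0 < n c) (r : T.C → ℤ) : (T.res n r).Tri :=
  h.sbs (T.rs_wl n r) (by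
    rw [lin_rs, det_diagonal]
    exact prod_ne_zero_iff.2 fun c _ => Nat.cast_ne_zero.2 (hn c).ne')

theorem Tri.res_Zc (h : T.Tri) (n : T.C → ℕ) (r : T.C → ℤ) :
    (T.res n r).Zc = T.Zc / ∏ c, (n c : ℝ) := by
  rw [TS.res, h.sbs_Zc (T.rs_wl n r), lin_rs, det_diagonal, abs_of_nonneg (by positivity)]

theorem inv_diag (hn : ∀ c, 0 < n c) :
    (diagonal fun c => (n c : ℝ))⁻¹ = diagonal fun c => (n c : ℝ)⁻¹ :=
  inv_eq_left_inv (by
    rw [diagonal_mul_diagonal, ← diagonal_one]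
    exact congrArg _ (funext fun c => inv_mul_cancel₀ (Nat.cast_ne_zero.2 (hn c).ne')))

theorem Tri.res_D (h : T.Tri) (hn : ∀ c, 0 < n c) (r : T.C → ℤ) :
    (T.res n r).D = diagonal (fun c => (n c : ℝ)⁻¹) * T.D * diagonal fun c => (n c : ℝ)⁻¹ := by
  refine (h.sbs_D (T.rs_wl n r)).trans ?_
  rw [lin_rs, inv_diag hn, diagonal_transpose]

theorem Tri.res_th (h : T.Tri) (hn : ∀ c, 0 < n c) (r : T.C → ℤ) (y : T.C → ℝ) (c : T.C) :
    (T.res n r).th y c = (T.th (fun c => r c + n c * y c) c - r c) / n c := by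
  have := Nat.cast_ne_zero (R := ℝ).2 (hn c).ne'
  refine (congrFun (h.sbs_th (T.rs_wl n r) y) c).trans ?_
  rw [lin_rs, inv_diag hn, funext (T.eval_rs n r y), Pi.sub_apply, mulVec_diagonal, Pi.sub_apply]
  field_simp
  ring

theorem Low.res {p : T.C → Prop} (hp : T.Low p) (n : T.C → ℕ) (r : T.C → ℤ) :
    (T.res n r).Low p := hp.sbs fun c hc c' h' => by
  by_contra a
  have e : c' ≠ c := fun e => a (e ▸ hc)
  rcases mem_union.1 (vars_add_subset _ _ h') with b | b
  · rw [vars_C] at b; simp at b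
  · rcases mem_union.1 (vars_mul _ _ b) with b | b
    · rw [vars_C] at b; simp at b
    · exact e (by simpa [vars_X] using b)

/-- level-wise moduli: the dual theta functions are those of a narrowing -/
theorem Tri.res_ct_eq (h : T.Tri) {ν : ℕ → ℕ} (hν : ∀ l, 0 < ν l) (r : T.C → ℤ) :
    (T.res (fun c => ν (T.lev c)) r).ct = (T.shr fun l => (ν l : ℝ)⁻¹).ct := by
  unfold ct
  rw [h.res_D fun c => hν _, shr_D]
  rfl

theorem Tri.res_ct (h : T.Tri) {ν : ℕ → ℕ} (hν : ∀ l, 0 < ν l) (r : T.C → ℤ) (l : ℕ) :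
    (T.res (fun c => ν (T.lev c)) r).ct l ≤ (ν l : ℝ) ^ T.R l * T.ct l := by
  have := h.shr_ct (κ := fun l => (ν l : ℝ)⁻¹) (l := l) (inv_pos.2 (Nat.cast_pos.2 (hν l)))
    (inv_le_one_of_one_le₀ (Nat.one_le_cast.2 (hν l)))
  rwa [inv_inv, ← h.res_ct_eq hν r] at this

theorem Tri.S_res (h : T.Tri) (hn : ∀ c, 0 < n c) {g : (T.C → ℤ) → ℝ} (hg : Bb g) :
    T.S g = ∑ r : ∀ c, Fin (n c), (T.res n fun c => (r c : ℕ)).S
      fun y => g (emb n (fun c => (r c : ℕ)) y) := by
  rw [S, tsum_emb hn (h.sm hg)]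
  exact sum_congr rfl fun r _ => tsum_congr fun y => congrArg (· * _) (T.res_wt n _ y).symm

/-- **RES** -/
theorem Tri.res_pick (h : T.Tri) (hn : ∀ c, 0 < n c) {g : (T.C → ℤ) → ℝ} (hg : Bb g) :
    ∃ r : T.C → ℤ, (∀ c, 0 ≤ r c ∧ r c < n c) ∧ T.N g ≤ (T.res n r).N fun y => g (emb n r y) := by
  have := fun c => NeZero.of_pos (hn c)
  have p : 0 < ∏ c, (n c : ℝ) := prod_pos fun c _ => Nat.cast_pos.2 (hn c)
  have e : ∑ _r : ∀ c, Fin (n c), T.N g = ∑ r : ∀ c, Fin (n c), (T.res n fun c => (r c : ℕ)).N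
      fun y => g (emb n (fun c => (r c : ℕ)) y) := by
    simp only [N, h.res_Zc]
    rw [← sum_div, ← sum_div, ← h.S_res hn hg, sum_const, card_univ, Fintype.card_pi, nsmul_eq_mul,
      div_div_eq_mul_div, mul_comm]
    simp
  obtain ⟨r, -, hr⟩ := exists_le_of_sum_le univ_nonempty e.le
  exact ⟨_, fun c => ⟨Int.natCast_nonneg _, by exact_mod_cast (r c).2⟩, hr⟩

end TS

end Crest.Agent.N49.Tw

end
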