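import Crest.Agent.N49.Rf.Defs
import Crest.Agent.N49.Rf.Res

/-!
# Row 49 (helper5): the statement of the demotion
-/

set_option autoImplicit false

open Matrix MvPolynomial Finset

noncomputable section

namespace Crest.Agent.N49.Tw.Rf

open Po

/-- **demotion** of the coordinate `k ⬝ y - J y` from the level `l` to the level `l - 1` -/
def DEM : Prop := ∀ (T : TS Unit) (s l : ℕ) (k b π : T.C → ℤ) (J : MvPolynomial T.C ℤ)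
  (L : MvPolynomial T.C ℝ) (e : (T.C → ℤ) → ℝ), T.Tri → (∀ c, T.lev c ≤ s) → 2 ≤ l →
  (∀ c, k c ≠ 0 → T.lev c = l) → (∀ c, b c ≠ 0 → T.lev c = l) → k ⬝ᵥ b = 1 →
  (∀ c, π c ≠ 0 → T.lev c = 1) → (∀ c ∈ J.vars, T.lev c < l) → WL T.lev l J →
  WL T.lev (l - 1) L →
  (∀ y, zc k ⬝ᵥ T.th (zc y) = ((eval y J : ℤ) : ℝ) + eval (zc y) L + e y) →
  ∃ (T1 : TS Unit) (U : (T1.C → ℤ) ≃ (T.C → ℤ)) (π1 : T1.C → ℤ), T1.Tri ∧ (∀ c, T1.lev c ≤ s) ∧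
    (∀ c, π1 c ≠ 0 → T1.lev c = 1) ∧ (∀ y, π1 ⬝ᵥ y = π ⬝ᵥ U y) ∧ T1.Zc = T.Zc ∧
    T1.R l + 1 = T.R l ∧ T1.R (l - 1) = T.R (l - 1) + 1 ∧
    (∀ j, j ≠ l → j ≠ l - 1 → T1.R j = T.R j ∧ T1.ct j ≤ T.ct j) ∧
    T1.ct l ≤ √(qf T.D (zc k)) * T.ct l ∧ T1.ct (l - 1) ≤ T.ct l * T.ct (l - 1) ∧
    T1.g1 π1 ≤ T.ct l * T.g1 π ∧
    ∀ (g : (T.C → ℤ) → ℝ) (B r δ : ℝ), (∀ y, |g y| ≤ B) → 0 ≤ δ →
      (∀ y, (∀ c, T.lev c < l → T.u (zc y) c ^ 2 ≤ r * T.K c c) →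
        |e y| ≤ δ * √(qf T.D (zc k))) →
      |T1.S (fun y => g (U y)) - T.S g| ≤
        B * ((Real.exp (Real.pi * (2 * δ * √r + δ ^ 2)) - 1) * T.Z + bz T.C r *
          (∏ j ∈ range (s + 1), T.ct j + ∏ j ∈ range (s + 1), T1.ct j) * T.Zc)

end Crest.Agent.N49.Tw.Rf

end
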