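import Crest.Agent.N49.Rf.Ev2

/-!
# Row 49 (helper90): one event of the regularisation from the leaves
-/

set_option autoImplicit false

open Matrix MvPolynomial Finset

noncomputable section

namespace Crest.Agent.N49.Tw.Rf

open Po

theorem nr_blk {T : TS Unit} (K1 : T.K = 1) {l n : ℕ} {lam ρ : ℝ} {x : T.C → ℝ} {a y : T.C → ℤ}
    {c : T.C} (hc : T.lev c < l)
    (hy : (T.nr l lam n x a).u (zc y) c ^ 2 ≤ ρ * (T.nr l lam n x a).K c c) :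
    (T.u (zc (emb (T.md l n) a y)) - x) c ^ 2 ≤ ρ * lam ^ 2 := by
  rw [TS.nr_K_one K1, TS.nr_u_zc] at hy
  erw [diagonal_apply_eq, TS.nw_lt hc] at hy
  exact hy

theorem ev2_raw {JB : Jb} (dem : DEM) (pid : PID JB) (g1n : G1N) {s l d q B W P Y h e X Y' : ℕ}
    {V : Ctr} {k0 b : V.T.C → ℤ} {r : ℝ} (A : Set ℤ) (ok : V.Ok s) (K1 : V.T.K = 1) (l2 : 2 ≤ l)
    (ls : l ≤ s) (hk : ∀ F, k0 F ≠ 0 → V.T.lev F = l) (hb : ∀ F, b F ≠ 0 → V.T.lev F = l)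
    (kb : k0 ⬝ᵥ b = 1) (jb : JB V.T l ((d : ℤ) • k0) q r) (d1 : 1 ≤ d) (q1 : 1 ≤ q)
    (dq : d * q ≤ 2 ^ W) (r0 : 0 ≤ r) (r1 : r ≤ 2 ^ W) (cB : Fintype.card V.T.C ≤ B)
    (ctl : V.T.ct l ≤ 2 ^ B) (k1 : 1 ≤ V.T.ct l ^ 2 * qf V.T.D (zc k0))
    (k2 : qf V.T.D (zc k0) ≤ 2 ^ W) (k3 : qf V.T.D (zc k0) ≤ 2 ^ Y')
    (cP : ∀ j < s + 1, V.T.ct j ≤ 2 ^ P) (zP : V.T.Zc ≤ 2 ^ P * V.T.Z)
    (hY : W + s + 2 * B + 2 * h + e + 8 ≤ Y)
    (hh : B + ((s + 1) * (B * (W + Y) + (P + (e + 2)) + W + B) + 1 +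
      (B * (W + Y) + (P + (e + 2))) + e + 3) ≤ 4 ^ h)
    (hX : B * (W + Y) + (e + 2) + (B + 1) ≤ X) : ∃ V', Mv s l X Y' (1 / 2 ^ e) A V V' := by
  have l0 : (0 : ℝ) < 1 / 2 ^ Y := by positivity
  have n0 : 0 < d * q := Nat.mul_pos d1 q1
  have tri := ok.1
  obtain ⟨x, a, hx, nw⟩ := nr_nw g1n (Y := Y) (e := e) A ok l2 n0 dq cB
  have ok2 := ok.nr (l := l) l0 n0 x a
  obtain ⟨J, L, g, hJ, wJ, wL, hid, hg⟩ := pid V.T l d q (d * q) k0 a r x tri l2 hk jb d1 q1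
    dvd_rfl hx
  have qe : qf (V.nr l (1 / 2 ^ Y) (d * q) x a).T.D (zc k0) = qf V.T.D (zc k0) :=
    tri.nr_qf l0 n0 fun c k => (hk c fun z => k (by simp [zc, z])).ge
  have c0 : ∀ j, 0 ≤ V.T.ct j := fun j => zero_le_one.trans (TS.one_le_ct tri j)
  refine (dem_mv dem (V := V.nr l (1 / 2 ^ Y) (d * q) x a) (k0 := k0) (b := b) A
    (J := J) (L := L) (f := fun y => eval (V.T.u (zc (emb (V.T.md l (d * q)) a y)) - x) g)
    (W := W) (Y' := Y') (e := e) ok2 l2 ls hk hb kb hJ wJ wL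
    (fun y => (tri.nr_ph l0 n0 hx y fun c k => (hk c k).ge).trans (hid y))
    (fun y hy => (bulk (p := fun c => V.T.lev c < l) cB ls r0 r1 (c0 l) ctl (qf_nonneg tri.pd_D _)
      k1 hY (fun c hc => nr_blk K1 hc (hy c hc)) (hg _)).trans_eq (congrArg (fun t => _ * √t) qe.symm)) cB
    ((nw.chi l le_rfl).trans_le ctl) (qe.trans_le k2) (qe.trans_le k3) (fun j hj => ?_) ?_ hh).imp
    fun V' mv => add_halves (1 / 2 ^ e : ℝ) ▸ nw.mv ok mv l2 hX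
  · refine (nw.clo j).trans ?_
    rw [pow_add _ (B * (W + Y))]
    exact mul_le_mul_of_nonneg_left ((cP j hj).trans (two_le (by omega))) (by positivity)
  · have u : 1 ≤ 2 ^ P * (V.T.Z / V.T.Zc) := by rwa [← mul_div_assoc, one_le_div tri.Zc_pos]
    have v := u.trans (mul_le_mul_of_nonneg_left nw.z (by positivity))
    rw [← mul_assoc, ← mul_div_assoc, one_le_div ok2.1.Zc_pos, ← pow_add] at v
    exact v.trans (mul_le_mul_of_nonneg_right (two_le (by omega)) ok2.1.Z_pos.le)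

theorem ev1_raw (sl : SL1) {s B W e X Y : ℕ} {V : Ctr} {k0 b : V.T.C → ℤ} (A : Set ℤ) (ok : V.Ok s)
    (ls : 1 ≤ s) (hk : ∀ F, k0 F ≠ 0 → V.T.lev F = 1) (hb : ∀ F, b F ≠ 0 → V.T.lev F = 1)
    (kb : k0 ⬝ᵥ b = 1) (ctl : V.T.ct 1 ≤ 2 ^ B) (k1 : 1 ≤ V.T.ct 1 ^ 2 * qf V.T.D (zc k0))
    (k2 : qf V.T.D (zc k0) ≤ 2 ^ W) (hY : W + 3 ≤ Y) (hX : e + (B + 4) ≤ X) :
    ∃ V', Mv s 1 X Y (1 / 2 ^ e) A V V' := by
  have o : ∀ n : ℕ, (1 : ℝ) ≤ 2 ^ n := fun n => one_le_pow₀ one_le_two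
  obtain ⟨V', a, R1, R2, c1, c2, g, z, dn⟩ := sl s V k0 b A (1 / 2 ^ e) ok hk hb kb (by positivity)
    ((div_le_one (by positivity)).2 (o e))
  have c0 := zero_le_one.trans (TS.one_le_ct ok.1 1)
  have k3 := sqrt_le_two_pow k2
  have k4 : 3 * (1 + √(qf V.T.D (zc k0))) ≤ 2 ^ Y :=
    le_trans (by rw [pow_add]; linarith [o W]) (two_le hY)
  have k5 : (√(qf V.T.D (zc k0)))⁻¹ ≤ 2 ^ B := by
    have u := Real.sqrt_le_sqrt k1
    rw [Real.sqrt_one, Real.sqrt_mul (sq_nonneg _), Real.sqrt_sq c0] at u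
    have p : 0 < √(qf V.T.D (zc k0)) := (Real.sqrt_nonneg _).lt_of_ne' fun z => by
      rw [z, mul_zero] at u; linarith
    exact (inv_le_iff_one_le_mul₀ p).2 (u.trans (mul_le_mul_of_nonneg_right ctl p.le))
  have R0 : ∀ {T : TS Unit}, T.Tri → T.R 0 = 0 := fun h =>
    card_eq_zero.2 (filter_false_of_mem fun c _ => (h.lev_pos c).ne')
  refine ⟨V', a, R1, R2, fun j _ => Rc_le ls R1 (by rw [R0 a.1]; omega) le_rfl
    (fun j u v => R2 j (by omega)) j, c1, c2.trans (mul_le_mul_of_nonneg_right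
      (by linarith [Real.sqrt_nonneg (qf V.T.D (zc k0))]) c0), fun j hj => ?_, ?_, ?_, dn⟩
  · obtain rfl : j = 0 := by omega
    rw [ct_zero a.1, ct_zero ok.1, mul_one]; exact o X
  · rw [if_pos rfl]
    exact g.trans (mul_le_mul_of_nonneg_right k4 (Sp.gk_nonneg _ _))
  · have p := (div_pos a.1.Z_pos a.1.Zc_pos).le
    rw [one_div, inv_mul_le_iff₀ (by positivity), ← mul_assoc] at z
    refine z.trans (mul_le_mul_of_nonneg_right (le_trans ?_ (two_le hX)) p)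
    rw [pow_add _ e]
    refine mul_le_mul_of_nonneg_left ?_ (by positivity)
    rw [pow_add]
    linarith [o B]

theorem num (s K a : ℕ) : ∃ K', ∀ B e, 2 ≤ B → e ≤ a * B → B ^ K + 3 ≤ B ^ K' ∧
    e + (B + 4) ≤ B ^ K' ∧ ∃ Y h, (2 * B ^ K + B) + s + 2 * B + 2 * h + e + 8 ≤ Y ∧
      B + ((s + 1) * (B * (2 * B ^ K + B + Y) + (2 ^ (B + 1) + (e + 2)) + (2 * B ^ K + B) + B) + 1 +
        (B * (2 * B ^ K + B + Y) + (2 ^ (B + 1) + (e + 2))) + e + 3) ≤ 4 ^ h ∧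
      B * (2 * B ^ K + B + Y) + (e + 2) + (B + 1) ≤ B ^ K' := by
  obtain ⟨K2, a2, h2⟩ := exists_exp K (3 * s + a + 40)
  obtain ⟨K3, a3, h3⟩ := exists_exp K2 (a + 10)
  refine ⟨K3, fun B e hB he => ?_⟩
  have b2 := h2 B hB
  have b3 := h3 B hB
  have p1 : B ^ K ≤ B ^ (K + 1) := Nat.pow_le_pow_right (by omega) (by omega)
  have p2 : B ≤ B ^ (K + 1) := Nat.le_self_pow (by omega) _
  have p3 : B ^ (K + 1) ≤ B ^ K2 := Nat.pow_le_pow_right (by omega) a2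
  have p4 : B * B ^ K2 = B ^ (K2 + 1) := (pow_succ' _ _).symm
  have p5 : B ^ K2 ≤ B ^ (K2 + 1) := Nat.pow_le_pow_right (by omega) (by omega)
  have p6 : B ^ (K2 + 1) ≤ 2 ^ (B * (K2 + 1)) := by
    rw [pow_mul]; exact Nat.pow_le_pow_left Nat.lt_two_pow_self.le _
  clear h2 h3
  generalize B ^ (K2 + 1) = v at b3 p4 p5 p6
  generalize B ^ (K + 1) = u at b2 p1 p2 p3
  generalize B ^ K2 = Y at b2 p3 p4 p5
  generalize B ^ K = w at p1 ⊢
  generalize B ^ K3 = x at b3 ⊢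
  have e1 : e ≤ a * u := he.trans (Nat.mul_le_mul_left _ p2)
  have e2 : e ≤ a * v := e1.trans (Nat.mul_le_mul_left _ (p3.trans p5))
  have e3 : e ≤ Y := by nlinarith
  have g1 : B * (2 * w + B + Y) ≤ 4 * v := by nlinarith
  refine ⟨by nlinarith, by nlinarith, Y, B * (K2 + s + 8), by nlinarith, ?_, by nlinarith⟩
  obtain ⟨t, ht⟩ : ∃ t, t = 2 ^ (B * (K2 + 1)) := ⟨_, rfl⟩
  have q1 : 2 ^ (B + 1) ≤ t := ht ▸ Nat.pow_le_pow_right two_pos (by nlinarith)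
  have q2 : (s + 3) * 16 * t ≤ 4 ^ (B * (K2 + s + 8)) := by
    calc (s + 3) * 16 * t ≤ 2 ^ (s + 3) * 2 ^ 4 * t := by
          gcongr
          · exact Nat.lt_two_pow_self.le
          · norm_num
      _ = 2 ^ (s + 3 + 4 + B * (K2 + 1)) := by rw [ht, ← pow_add, ← pow_add]
      _ ≤ 2 ^ (B * (K2 + s + 8)) := Nat.pow_le_pow_right two_pos (by nlinarith)
      _ ≤ _ := Nat.pow_le_pow_left (by norm_num) _
  rw [← ht] at p6
  generalize B * (2 * w + B + Y) = G at *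
  generalize 2 ^ (B + 1) = P at *
  have r1 : G + (P + (e + 2)) + (2 * w + B) + B ≤ 16 * t := by omega
  have r2 := Nat.mul_le_mul_left (s + 1) r1
  nlinarith

/-- **one event** -/
theorem ev_of {JB : Jb} (dem : DEM) (prim : PRIM) (pid : PID JB) (g1n : G1N) (sl : SL1) : EV JB :=
  fun s K a => by
  obtain ⟨K', hK⟩ := num s K a
  refine ⟨K', fun N m e A V c hm he cs K1 ⟨l, hl, k, k0, ks, kq, hq⟩ => ⟨l, hl, ?_⟩⟩
  obtain ⟨l1, l2⟩ := mem_Icc.1 hl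
  obtain ⟨d, k', b, d1, rfl, kb, hk, hb, k1, k2⟩ := prim V.T l k cs.ok.1 k0 ks
  have mo : ∀ {i j}, i ≤ j → bb s m c i ≤ bb s m c j := fun h =>
    Top.bs_mono le_rfl le_rfl h fun _ _ => le_rfl
  have B1 : 2 ≤ bb s m c (2 * s - l) := hm.trans (Top.le_bs _)
  have B2 := mo (Nat.le_succ (2 * s - l))
  have ctl : V.T.ct l ≤ 2 ^ bb s m c (2 * s - l + 1) :=
    (cs.ct l hl).trans (two_le (le_bb (Nat.lt_succ_self _)))
  have k3 := (qf_k0 cs.ok.1 d1 k').trans kq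
  obtain ⟨a1, -, -⟩ := hK _ 0 B1 (Nat.zero_le _)
  obtain ⟨-, a2, Y, h, a3, a4, a5⟩ := hK _ e (B1.trans B2)
    (he.trans (Nat.mul_le_mul_left _ (mo (by omega))))
  have cP := fun j (hj : j < s + 1) => ct_le cs m (2 * s - l + 1) hj
  have zP := cs.z.trans (mul_le_mul_of_nonneg_right
    (two_le (c_le (s := s) m (2 * s - l + 1) (by omega))) cs.ok.1.Z_pos.le)
  have cB : Fintype.card V.T.C ≤ bb s m c (2 * s - l + 1) :=
    (card_eq cs.ok).trans_le ((cs.R 1 (mem_Icc.2 (by omega))).trans (le_bb (by omega)))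
  have B3 := Nat.pow_le_pow_left B2 K
  generalize bb s m c (2 * s - l + 1) = B at *
  generalize bb s m c (2 * s - l) = B' at *
  rcases l1.eq_or_lt with rfl | l1
  · exact ev1_raw sl A cs.ok l2 hk hb kb ctl k1 k3 a1 a2
  · obtain ⟨q, r, q1, q2, r0, r1, jb⟩ := hq l1
    refine ev2_raw (W := 2 * B ^ K + B) dem pid g1n A cs.ok K1 l1 l2 hk hb kb jb d1 q1 ?_ r0
      (r1.trans (two_le (by omega))) cB ctl k1 (k3.trans (two_le (by omega)))
      (k3.trans (two_le (by omega))) cP zP a3 a4 a5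
    have c0 := zero_le_one.trans (TS.one_le_ct cs.ok.1 l)
    have u : (d : ℝ) ^ 2 ≤ (2 ^ B ^ K * 2 ^ B) ^ 2 := by
      rw [mul_pow]
      exact k2.trans (mul_le_mul ((kq.trans (two_le B3)).trans (le_self_pow₀
        (one_le_pow₀ one_le_two) two_ne_zero)) (by gcongr) (by positivity) (by positivity))
    have v : d ≤ 2 ^ B ^ K * 2 ^ B := by
      exact_mod_cast (pow_le_pow_iff_left₀ (Nat.cast_nonneg d) (by positivity) two_ne_zero).1 u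
    refine (Nat.mul_le_mul v q2).trans_eq ?_
    rw [← pow_add, ← pow_add]
    congr 1
    omega

/-- **regularisation from the leaves** -/
theorem reg_of' {JB : Jb} (dem : DEM) (prim : PRIM) (pid : PID JB) (g1n : G1N) (sl : SL1) :
    REG JB := reg_of (ev_of dem prim pid g1n sl)

end Crest.Agent.N49.Tw.Rf

end
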