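import Crest.Agent.N49.Rf.Loop
import Crest.Agent.N49.Rf.Nr
import Crest.Agent.N49.Rf.DemD
import Crest.Agent.N49.Tw.Mas0

/-!
# Row 49 (helper90): one event of the regularisation: interfaces and small lemmas
-/

set_option autoImplicit false

open Matrix MvPolynomial Finset

noncomputable section

namespace Crest.Agent.N49.Tw

open Po

namespace Rf

/-- primitive frequencies -/
def PRIM : Prop := ∀ (T : TS Unit) (l : ℕ) (k : T.C → ℤ), T.Tri → k ≠ 0 →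
  (∀ F, k F ≠ 0 → T.lev F = l) → ∃ (d : ℕ) (k0 b : T.C → ℤ), 1 ≤ d ∧ k = (d : ℤ) • k0 ∧
    k0 ⬝ᵥ b = 1 ∧ (∀ F, k0 F ≠ 0 → T.lev F = l) ∧ (∀ F, b F ≠ 0 → T.lev F = l) ∧
    1 ≤ T.ct l ^ 2 * qf T.D (zc k0) ∧ (d : ℝ) ^ 2 ≤ qf T.D (zc k) * T.ct l ^ 2

/-- the polynomial identity on a residue class -/
def PID (JB : Jb) : Prop := ∀ (T : TS Unit) (l d q n : ℕ) (k0 a : T.C → ℤ) (r : ℝ) (x : T.C → ℝ),
  T.Tri → 2 ≤ l → (∀ F, k0 F ≠ 0 → T.lev F = l) → JB T l ((d : ℤ) • k0) q r → 1 ≤ d → 1 ≤ q →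
  d * q ∣ n → (∀ c, l ≤ T.lev c → x c = 0 ∧ a c = 0) →
  ∃ (J : MvPolynomial T.C ℤ) (L g : MvPolynomial T.C ℝ), (∀ c ∈ J.vars, T.lev c < l) ∧
    WL T.lev l J ∧ WL T.lev (l - 1) L ∧
    (∀ y, zc k0 ⬝ᵥ T.th (zc (emb (T.md l n) a y)) = ((eval y J : ℤ) : ℝ) + eval (zc y) L +
      eval (T.u (zc (emb (T.md l n) a y)) - x) g) ∧
    ∀ v : T.C → ℝ, ∑ c with T.lev c < l, v c ^ 2 ≤ 1 →
      eval v g ^ 2 ≤ r ^ 2 * l * ∑ c with T.lev c < l, v c ^ 2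

/-- the cost of level one under narrowing and residues -/
def G1N : Prop := ∀ (V : Ctr) (s l n : ℕ) (lam : ℝ) (x : V.T.C → ℝ) (r : V.T.C → ℤ), V.Ok s →
  1 < l → 0 < lam → lam ≤ 1 → 0 < n → (V.nr l lam n x r).g1 ≤ (n / lam) ^ V.T.R 1 * V.g1

theorem exists_exp (K u : ℕ) : ∃ K', K + 1 ≤ K' ∧ ∀ B, 2 ≤ B → B ^ (K + 1) * (u + 2 * K') ≤ B ^ K' := by
  refine ⟨K + 1 + (u + 2 * K + 2 + 4), by omega, fun B hB => ?_⟩
  rw [pow_add B (K + 1)]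
  refine Nat.mul_le_mul_left _ (le_trans ?_ (Nat.pow_le_pow_left hB _))
  have := Nat.lt_two_pow_self (n := u + 2 * K + 2)
  rw [pow_add]
  omega

variable {s N : ℕ} {V : Ctr} {c : ℕ → ℕ}

theorem ct_zero {σ : Type} {T : TS σ} (h : T.Tri) : T.ct 0 = 1 := by
  have : IsEmpty {c // T.lev c = 0} := ⟨fun c => (h.lev_pos c.1).ne' c.2⟩
  rw [TS.ct, Po.th, tsum_fintype, Fintype.sum_unique]
  simp [gs, qf, dotProduct]

theorem card_eq (h : V.Ok s) : Fintype.card V.T.C = V.Rc s 1 :=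
  card_eq_sum_card_fiberwise (f := V.T.lev) (t := Icc 1 s) fun c _ =>
    mem_coe.2 (mem_Icc.2 ⟨h.1.lev_pos c, h.2.1 c⟩)

theorem R_le_card {σ : Type} (T : TS σ) (j : ℕ) : T.R j ≤ Fintype.card T.C := card_filter_le _ _

theorem c_le (m : ℕ) {i : ℕ} (j : ℕ) (h : i < 2 * s + 1) : c i ≤ 2 ^ (bb s m c j + 1) :=
  (Top.le_tot h).trans ((Nat.lt_pow_succ_log_self one_lt_two _).le.trans
    (Nat.pow_le_pow_right two_pos (by unfold bb Top.bs; omega)))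

theorem ct_le (h : V.Cs s N c) (m i : ℕ) {j : ℕ} (hj : j < s + 1) :
    V.T.ct j ≤ 2 ^ 2 ^ (bb s m c i + 1) := by
  rcases j.eq_zero_or_pos with rfl | p
  · rw [ct_zero h.ok.1]; exact one_le_pow₀ one_le_two
  · exact (h.ct j (mem_Icc.2 ⟨p, by omega⟩)).trans
      (pow_le_pow_right₀ one_le_two (c_le m i (by omega)))

theorem Rc_le {V' : Ctr} {l : ℕ} (hl : l ≤ s) (h1 : V'.T.R l + 1 = V.T.R l)
    (h2 : V'.T.R (l - 1) ≤ V.T.R (l - 1) + 1) (l0 : 1 ≤ l)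
    (h3 : ∀ j, j ≠ l → j ≠ l - 1 → V'.T.R j = V.T.R j) (j : ℕ) : V'.Rc s j ≤ V.Rc s j := by
  have e : ∀ i ∈ Icc j s, V'.T.R i + (if i = l then 1 else 0) ≤
      V.T.R i + if i = l - 1 then 1 else 0 := fun i _ => by
    by_cases a : i = l
    · subst a; rw [if_pos rfl, if_neg (by omega)]; omega
    · by_cases b : i = l - 1
      · subst b; rw [if_neg a, if_pos rfl]; omega
      · rw [if_neg a, if_neg b, h3 i a b]
  have := sum_le_sum e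
  rw [sum_add_distrib, sum_add_distrib, sum_ite_eq', sum_ite_eq'] at this
  unfold Ctr.Rc
  simp only [mem_Icc] at this
  split_ifs at this <;> omega

/-- from a comparison of the sums to the densities -/
theorem cmp {T T1 : TS Unit} (h : T.Tri) (h1 : T1.Tri) {U : (T1.C → ℤ) → T.C → ℤ} {η : ℝ}
    (η0 : 0 ≤ η) (η1 : η ≤ 1 / 2) (H : ∀ g : (T.C → ℤ) → ℝ, (∀ y, |g y| ≤ 1) →
      |T1.S (fun y => g (U y)) - T.S g| ≤ η * T.Z) (S : Set (T.C → ℤ)) :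
    T.Z ≤ 2 * T1.Z ∧ T.P S - 2 * η ≤ T1.P (U ⁻¹' S) := by
  have a := abs_le.1 (H (fun _ => 1) fun _ => by simp)
  rw [TS.S_one, TS.S_one] at a
  have b := (abs_le.1 (H (S.indicator 1) fun y => by
    rw [abs_of_nonneg (ind_nonneg S y)]; exact ind_le S y)).1
  have p := h.Z_pos
  have p1 := h1.Z_pos
  refine ⟨by nlinarith, ?_⟩
  have e : T.S (S.indicator 1) = T.P S * T.Z := (div_mul_cancel₀ _ p.ne').symm
  have e1 : T1.S (fun y => S.indicator 1 (U y)) = T1.P (U ⁻¹' S) * T1.Z :=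
    (div_mul_cancel₀ _ p1.ne').symm
  rw [e, e1] at b
  have q0 := T1.P_nonneg (U ⁻¹' S)
  have q1 := h1.P_le_one (U ⁻¹' S)
  have f : T1.P (U ⁻¹' S) * T1.Z ≤ (T1.P (U ⁻¹' S) + η) * T.Z := by nlinarith
  exact le_of_mul_le_mul_right (by nlinarith) p

theorem sqrt_le_two_pow {x : ℝ} {a : ℕ} (h : x ≤ 2 ^ a) : √x ≤ 2 ^ a :=
  Real.sqrt_le_iff.2 ⟨by positivity, h.trans (le_self_pow₀ (one_le_pow₀ one_le_two) two_ne_zero)⟩

theorem qf_k0 {T : TS Unit} (h : T.Tri) {d : ℕ} (hd : 1 ≤ d) (k0 : T.C → ℤ) :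
    qf T.D (zc k0) ≤ qf T.D (zc ((d : ℤ) • k0)) := by
  have : zc ((d : ℤ) • k0) = (d : ℝ) • zc k0 := funext fun c => by simp [zc]
  rw [this, qf_smul_right]
  exact le_mul_of_one_le_left (qf_nonneg h.pd_D _) (one_le_pow₀ (Nat.one_le_cast.2 hd))

theorem exp_le {e h : ℕ} :
    Real.exp (Real.pi * (2 * (1 / 2 ^ (h + e + 8)) * √(4 ^ h) + (1 / 2 ^ (h + e + 8)) ^ 2)) - 1 ≤
      1 / 2 ^ e / 8 := by
  have a : √(4 ^ h) = (2 : ℝ) ^ h := by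
    rw [show (4 : ℝ) ^ h = (2 ^ h) ^ 2 by rw [← pow_mul, mul_comm, pow_mul]; norm_num,
      Real.sqrt_sq (by positivity)]
  obtain ⟨t, ht⟩ : ∃ t : ℝ, t = 1 / 2 ^ e := ⟨_, rfl⟩
  have t0 : 0 < t := by rw [ht]; positivity
  have t1 : t ≤ 1 := by rw [ht]; exact (div_le_one (by positivity)).2 (one_le_pow₀ one_le_two)
  have b : 2 * (1 / 2 ^ (h + e + 8)) * (2 : ℝ) ^ h = t / 128 := by
    rw [ht, pow_add, pow_add]; field_simp; norm_num
  have d : (1 : ℝ) / 2 ^ (h + e + 8) ≤ t / 256 := by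
    rw [ht, add_assoc, pow_add, pow_add, div_div, show (2 : ℝ) ^ 8 = 256 by norm_num]
    exact one_div_le_one_div_of_le (by positivity)
      (le_mul_of_one_le_left (by positivity) (one_le_pow₀ one_le_two))
  have d' : ((1 : ℝ) / 2 ^ (h + e + 8)) ^ 2 ≤ t / 256 :=
    (pow_le_pow_left₀ (by positivity) d 2).trans (by nlinarith)
  rw [a, b, ← ht]
  obtain ⟨x, hx⟩ : ∃ x, x = Real.pi * (t / 128 + (1 / 2 ^ (h + e + 8)) ^ 2) := ⟨_, rfl⟩
  have x0 : 0 ≤ x := by rw [hx]; positivity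
  have x1 : x ≤ t / 16 := by
    rw [hx]
    exact (mul_le_mul Real.pi_le_four (add_le_add le_rfl d') (by positivity) (by norm_num)).trans
      (by linarith)
  have := Real.abs_exp_sub_one_le (x := x) (by rw [abs_of_nonneg x0]; linarith)
  rw [abs_of_nonneg x0] at this
  rw [← hx]
  linarith [le_abs_self (Real.exp x - 1)]

end Rf

end Crest.Agent.N49.Tw

end
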