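import Crest.Agent.N49.Rf.Unit

/-!
# Row 49 (helper90): the regularisation loop from one event
-/

set_option autoImplicit false

open Matrix Finset

noncomputable section

namespace Crest.Agent.N49.Tw

open Po

theorem Ctr.Cs.unit {s N : ℕ} {V : Ctr} {c : ℕ → ℕ} (h : V.Cs s N c) :
    ∃ V' : Ctr, V'.Cs s N c ∧ V'.T.K = 1 ∧ V'.T.R = V.T.R ∧ V'.den = V.den := by
  obtain ⟨V', a, b, d, e, f, g, i, j⟩ := h.ok.unit
  refine ⟨V', ⟨a, fun l hl => ?_, fun l hl => e ▸ h.ct l hl, f ▸ h.g, ?_⟩, b, d, j⟩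
  · unfold Ctr.Rc; rw [d]; exact h.R l hl
  · rw [g, i]; exact h.z

namespace Rf

/-- the potential `∑ l * R l` -/
def Ph (s : ℕ) (V : Ctr) : ℕ := ∑ l ∈ Icc 1 s, V.Rc s l

theorem Ph_le {s N : ℕ} {V : Ctr} {c : ℕ → ℕ} (h : V.Cs s N c) : Ph s V ≤ ∑ i ∈ range s, c i := by
  refine (sum_le_sum h.R).trans (le_of_eq ?_)
  refine sum_nbij' (fun l => s - l) (fun i => s - i) ?_ ?_ ?_ ?_ (fun _ _ => rfl) <;>
    simp only [mem_Icc, mem_range] <;> omega

theorem R_le {s N l : ℕ} {V : Ctr} {c : ℕ → ℕ} (h : V.Cs s N c) (hl : l ∈ Icc 1 s) :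
    V.T.R l ≤ c (s - l) :=
  (single_le_sum (f := V.T.R) (fun _ _ => Nat.zero_le _)
    (mem_Icc.2 ⟨le_rfl, (mem_Icc.1 hl).2⟩)).trans (h.R l hl)

theorem le_bb {s m i j : ℕ} {c c' : ℕ → ℕ} (h : j < i) : c' j ≤ Top.bs (2 * s + 1) m c c' i :=
  (single_le_sum (f := c') (fun _ _ => Nat.zero_le _) (mem_range.2 h)).trans (Nat.le_add_left _ _)

variable {s l X Y N : ℕ} {ε : ℝ} {A : Set ℤ} {V V' : Ctr} {c : ℕ → ℕ}

theorem Mv.ph (h : Mv s l X Y ε A V V') (hl : l ∈ Icc 1 s) : Ph s V' < Ph s V := by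
  refine sum_lt_sum h.Rc ⟨l, hl, sum_lt_sum (fun j hj => ?_) ⟨l, ?_, ?_⟩⟩
  · rcases (mem_Icc.1 hj).1.eq_or_lt with e | e
    · have := h.Rl; rw [← e]; omega
    · exact (h.Rhi j e).le
  · exact mem_Icc.2 ⟨le_rfl, (mem_Icc.1 hl).2⟩
  · have := h.Rl; omega

/-- the new costs -/
def nc (s l X Y : ℕ) (c : ℕ → ℕ) (i : ℕ) : ℕ :=
  if i < 2 * s - l then c i else if i = 2 * s - l then c i + Y else c i + X

theorem le_nc (i : ℕ) : c i ≤ nc s l X Y c i := by unfold nc; split_ifs <;> omega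

theorem Mv.cs (h : Mv s l X Y ε A V V') (hl : l ∈ Icc 1 s) (hc : V.Cs s N c) :
    V'.Cs s N (nc s l X Y c) := by
  obtain ⟨l1, l2⟩ := mem_Icc.1 hl
  have p : ∀ {x y : ℝ} {u i : ℕ}, x ≤ 2 ^ u * y → y ≤ 2 ^ c i → x ≤ 2 ^ (c i + u) :=
    fun {x y u i} a b => a.trans (by rw [pow_add, mul_comm]; gcongr)
  refine ⟨h.ok, fun j hj => ((h.Rc j hj).trans (hc.R j hj)).trans (le_nc _), fun j hj => ?_, ?_, ?_⟩
  · obtain ⟨j1, j2⟩ := mem_Icc.1 hj
    rcases lt_trichotomy j l with e | rfl | e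
    · rw [nc, if_neg (by omega), if_neg (by omega)]
      exact p (h.clo j e) (hc.ct j hj)
    · rw [nc, if_neg (lt_irrefl _), if_pos rfl]
      exact p h.cl (hc.ct j hj)
    · rw [nc, if_pos (by omega)]
      exact (h.chi j e).trans (hc.ct j hj)
  · have : nc s l X Y c (2 * s - 1) = c (2 * s - 1) + if l = 1 then Y else X := by
      unfold nc; split_ifs <;> omega
    rw [this]
    exact p ((mul_le_mul_of_nonneg_left h.g (Nat.cast_nonneg N)).trans_eq (mul_left_comm _ _ _)) hc.g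
  · rw [nc, if_neg (by omega), if_neg (by omega), pow_add]
    have a := hc.ok.1.Zc_pos
    have b := h.ok.1.Zc_pos
    have d := h.z
    have e : 1 ≤ 2 ^ c (2 * s) * (V.T.Z / V.T.Zc) := by
      rw [← mul_div_assoc, one_le_div a]; exact hc.z
    have f : 1 ≤ 2 ^ c (2 * s) * (2 ^ X * (V'.T.Z / V'.T.Zc)) := e.trans (by gcongr)
    rwa [← mul_assoc, ← mul_div_assoc, one_le_div b] at f

theorem loss {δ : ℝ} (h0 : 0 ≤ δ) {a b : ℕ} (h : a < b) :
    δ / (b + 1) + δ / 2 ^ (2 * b) ≤ δ / (a + 1) := by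
  have b1 : (1 : ℝ) ≤ b := by exact_mod_cast (by omega)
  have e : (b : ℝ) + 1 ≤ 2 ^ b := by exact_mod_cast Nat.lt_two_pow_self
  have f : (b : ℝ) * (b + 1) ≤ 2 ^ (2 * b) := by
    rw [two_mul, pow_add]; exact mul_le_mul (by linarith) e (by positivity) (by positivity)
  calc δ / (b + 1) + δ / 2 ^ (2 * b) ≤ δ / (b + 1) + δ / (b * (b + 1)) := by gcongr
    _ = δ / b := by field_simp
    _ ≤ _ := by gcongr; exact_mod_cast h

/-- **the loop** -/
theorem reg_of {JB : Jb} (H : EV JB) : REG JB := fun s K j => by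
  obtain ⟨K', H⟩ := H s K (j + 2)
  obtain ⟨E, hE⟩ := Top.arr_loop.{1} (2 * s + 1) (K + K' + 1)
  refine ⟨E, fun N m L A α Rg hm hR v hv ok => ?_⟩
  obtain ⟨V0, a0, b0, -, d0⟩ := hv.1.unit
  have key := hE m L (Ctr × (ℕ → ℕ)) (fun v => v.2)
    (fun v i => if s ≤ i ∧ i < 2 * s then v.1.T.R (2 * s - i) else 0)
    (fun v => v.1.Cs s N v.2 ∧ v.1.T.K = 1 ∧ α ≤ v.1.den A + 1 / 2 ^ (m + j) / (Ph s v.1 + 1))
    (fun v => Rg v.1 v.2) hm (fun v a i _ => ?_) (fun v a ok => ?_) (V0, v.2)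
    ⟨a0, b0, hv.2.trans (d0 ▸ le_add_of_nonneg_right (by positivity))⟩ ok
  · obtain ⟨w, ⟨⟨a, b, d⟩, e⟩, f⟩ := key
    refine ⟨w, ⟨a, b, e, ?_⟩, f⟩
    have : (1 : ℝ) / 2 ^ (m + j) / (Ph s w.1 + 1) ≤ 1 / 2 ^ (m + j) :=
      div_le_self (by positivity) (by simp)
    linarith
  · refine le_trans ?_ (Nat.le_self_pow (by omega) _)
    split_ifs with q
    · exact (R_le a.1 (mem_Icc.2 (by omega))).trans (le_bb (by omega))
    · exact Nat.zero_le _
  · obtain ⟨⟨a, b, d⟩, e⟩ := a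
    have ph := Ph_le a
    have mb : m + Ph s v.1 ≤ bb s m v.2 s := by unfold bb Top.bs; omega
    obtain ⟨l, hl, V', mv⟩ := H N m (m + j + 2 * Ph s v.1) A v.1 v.2 hm (by nlinarith) a b
      (hR _ _ a b (ok.mono (by omega) (by omega)) e)
    obtain ⟨l1, l2⟩ := mem_Icc.1 hl
    obtain ⟨W, a1, b1, c1, d1⟩ := (mv.cs hl a).unit
    have pe : Ph s W = Ph s V' := by unfold Ph Ctr.Rc; rw [c1]
    refine ⟨(W, _), ⟨⟨a1, b1, ?_⟩, 2 * s - l, by omega, ?_, fun i hi => ⟨if_pos hi, ?_⟩⟩,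
      fun i _ => ⟨le_nc i, ?_⟩⟩
    · have := loss (δ := 1 / 2 ^ (m + j)) (by positivity) (mv.ph hl)
      have f := mv.den
      rw [pow_add _ (m + j), ← div_div] at f
      change α ≤ W.den A + 1 / 2 ^ (m + j) / (Ph s W + 1)
      rw [d1, pe]
      linarith
    · have := mv.Rl
      simp only [c1]
      rw [if_pos (by omega), if_pos (by omega), show 2 * s - (2 * s - l) = l by omega]
      omega
    · simp only [c1]
      split_ifs
      · exact (mv.Rhi _ (by omega)).le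
      · exact le_rfl
    · have q : ∀ i' ≤ i, bb s m v.2 i' ^ K' ≤ Top.bs (2 * s + 1) m v.2 (nc s l
          (bb s m v.2 (2 * s - l + 1) ^ K') (bb s m v.2 (2 * s - l) ^ K') v.2) i ^ (K + K' + 1) :=
        fun i' h => (Nat.pow_le_pow_left (Top.bs_mono le_rfl le_rfl h fun _ _ => le_nc _) _).trans
          (Nat.pow_le_pow_right (lt_of_lt_of_le (by omega) (Top.le_bs i)) (by omega))
      change nc _ _ _ _ _ i ≤ _
      rw [nc]
      split_ifs
      · exact Nat.le_add_right _ _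
      · exact Nat.add_le_add_left (q _ (by omega)) _
      · exact Nat.add_le_add_left (q _ (by omega)) _

end Rf

end Crest.Agent.N49.Tw

end
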