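import Crest.Agent.N49.Rf.Pid
import Crest.Agent.N49.Rf.Nr

/-!
# Row 49 (helper13): the polynomial identity after narrowing and residues (input of `DEM`)
-/

set_option autoImplicit false

open Matrix MvPolynomial Finset

noncomputable section

namespace Crest.Agent.N49.Tw.TS

open Po

variable {σ : Type} {T : TS σ}

/-- the hypotheses of `DEM` for `T.nr l lam n x a` -/
theorem Tri.pid_nr (h : T.Tri) (hK : T.K = 1) {l q d n : ℕ} {r lam : ℝ} {k : T.C → ℤ}
    (hl : 0 < l) (hk : ∀ c, k c ≠ 0 → T.lev c = l) (hJ : T.JBc l ((d : ℤ) • k) q r) (hr : 0 ≤ r)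
    (hd : 1 ≤ d) (hq : 1 ≤ q) (h0 : 0 < lam) (n0 : 0 < n) (hn : d * q ∣ n) {x : T.C → ℝ}
    {a : T.C → ℤ} (hx : ∀ c, l ≤ T.lev c → x c = 0 ∧ a c = 0) :
    ∃ (J : MvPolynomial T.C ℤ) (L : MvPolynomial T.C ℝ) (e : (T.C → ℤ) → ℝ),
      (∀ c ∈ J.vars, T.lev c < l) ∧ WL T.lev l J ∧ WL T.lev (l - 1) L ∧
      (∀ y : T.C → ℤ, zc k ⬝ᵥ (T.nr l lam n x a).th (zc y) =
        ((eval y J : ℤ) : ℝ) + eval (zc y) L + e y) ∧
      ∀ ρ : ℝ, 0 ≤ ρ → Fintype.card T.C * ρ * lam ^ 2 ≤ 1 → ∀ y : T.C → ℤ,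
        (∀ c : T.C, T.lev c < l →
          (T.nr l lam n x a).u (zc y) c ^ 2 ≤ ρ * (T.nr l lam n x a).K c c) →
        |e y| ≤ r * √(l * Fintype.card T.C * ρ) * lam := by
  obtain ⟨J, L, g, h1, h2, h3, h4, h5⟩ := h.pid hl hk hJ hd hq (n := n) (by exact_mod_cast hn) a x
  have e : ∀ y, emb (T.md l n) a y = T.embl l n a y := fun y => emb_md hx y
  refine ⟨J, L, fun y => eval ((T.nr l lam n x a).u (zc y)) g, h1, h2,
    fun m hm => Nat.le_sub_one_of_lt (h3 m hm), fun y => ?_, fun ρ p0 p1 y hy => ?_⟩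
  · refine (h.nr_ph h0 n0 hx y fun c hc => (hk c hc).ge).trans ?_
    have := h4 y
    rw [← e] at this
    exact this.trans (congrArg (fun v => _ + eval v g) (nr_u_zc y).symm)
  · obtain ⟨v, hv⟩ : ∃ v : T.C → ℝ, v = (T.nr l lam n x a).u (zc y) := ⟨_, rfl⟩
    have s : ∑ c with T.lev c < l, v c ^ 2 ≤ Fintype.card T.C * ρ * lam ^ 2 := by
      refine (sum_le_card_nsmul _ _ (ρ * lam ^ 2) fun c hc => ?_).trans ?_
      · have c1 := (mem_filter.1 hc).2
        have := hy c c1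
        rw [nr_K_one hK] at this
        erw [diagonal_apply_eq, nw_lt c1] at this
        exact hv ▸ this
      · rw [nsmul_eq_mul, mul_assoc]
        exact mul_le_mul_of_nonneg_right (by exact_mod_cast card_le_univ _) (by positivity)
    have := h5 v (s.trans p1)
    change |eval ((T.nr l lam n x a).u (zc y)) g| ≤ _
    rw [← hv]
    refine abs_le_of_sq_le_sq' ?_ (by positivity) |> abs_le.2
    rw [mul_pow, mul_pow, Real.sq_sqrt (by positivity)]
    calc _ ≤ r ^ 2 * (l * (Fintype.card T.C * ρ * lam ^ 2)) := this.trans (by gcongr)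
      _ = _ := by ring

end Crest.Agent.N49.Tw.TS

end
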