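import Crest.Agent.N49.Rf.Dem2
import Crest.Agent.N49.Rf.Unit
import Crest.Agent.N49.Tw.Dbl
import Crest.Agent.N49.Sp.Sp2

/-!
# Row 49 (helper73): slices along one coordinate of level one
-/

set_option autoImplicit false

open Matrix MvPolynomial Finset

noncomputable section

namespace Crest.Agent.N49.Tw

open Po Rw Sp Db

theorem th_uq {d : Type} [Fintype d] [DecidableEq d] [Unique d] {M : Matrix d d ℝ} (hM : M.PosDef)
    (θ : d → ℝ) : th M⁻¹ θ ≤ 2 * (1 + √(M default default)) := by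
  have k : 0 < M default default := hM.diag_pos
  have := ct_le_of_le hM (T := 1 + M default default) (by linarith) fun x => by
    simp only [qf, dotProduct, mulVec, Fintype.sum_unique]
    nlinarith [sq_nonneg (x default)]
  rw [Fintype.card_unique, pow_one] at this
  refine (th_le hM.inv θ).trans (this.trans (mul_le_mul_of_nonneg_left ?_ zero_le_two))
  rw [Real.sqrt_le_left (by positivity)]
  nlinarith [Real.sq_sqrt k.le, Real.sqrt_nonneg (M default default)]

theorem gk_inl {a b : Type} [Fintype a] [Fintype b] [DecidableEq a] [DecidableEq b]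
    {M : Matrix (a ⊕ b) (a ⊕ b) ℝ} (hM : M.PosDef) {S : Set (a → ℤ)} {S' : Set (a ⊕ b → ℤ)}
    (h : ∀ n ∈ S, Sum.elim n 0 ∈ S') :
    gk (schur M)⁻¹ S ≤ th M.toBlocks₂₂⁻¹ 0 * gk M⁻¹ S' := by
  rw [schur_inv hM]
  refine gk_le_of (a := 1) hM.inv (hM.inv.submatrix Sum.inl_injective) ?_ ?_
  · have i : Function.Injective fun n : a → ℤ => (Sum.elim n 0 : a ⊕ b → ℤ) :=
      fun u v h => funext fun i => congrFun h (.inl i)
    rw [one_mul]
    refine le_trans ?_ (ks_mono_set hM.inv 0 (Set.inter_subset_left (t := Set.range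
      fun n : a → ℤ => (Sum.elim n 0 : a ⊕ b → ℤ))))
    have e : (fun u : a → ℤ => gs M⁻¹ (zc (Sum.elim u 0 : a ⊕ b → ℤ) - 0)) =
        fun u => gs M⁻¹.toBlocks₁₁ (zc u - 0) := funext fun u => by
      simp [gs, qf, dotProduct, mulVec, zc, toBlocks₁₁]
    rw [ks_range _ _ i, e]
    exact ks_mono_set (hM.inv.submatrix Sum.inl_injective) 0 h
  · have := th_new hM.inv
    rwa [inv_inv' hM, ← one_mul (th M⁻¹ 0)] at this

namespace TS
variable (T : TS Unit) (c0 : T.C)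

/-- the decoupled covariance -/
def kd : Matrix T.C T.C ℝ := T.dN c0 * T.D * (T.dN c0)ᵀ

/-- the decoupled copy -/
abbrev sl0 : TS Unit where
  C := T.C
  deg := T.deg
  Φ c := ∑ c', MvPolynomial.C ((T.dN c0 * T.A⁻¹) c c') * T.Φ c'
  K := T.kd c0

/-- the slice `y c0 = a` -/
def slc (a : {c // c = c0} → ℤ) : TS Unit :=
  (T.sl0 c0).cut (fun c : T.C => ¬ c = c0) (mg (· = c0) a 0)

theorem sl0_u (y : T.C → ℝ) : (T.sl0 c0).u y = T.dN c0 *ᵥ (y - T.th y) := by
  refine (T.un_u _ y).trans ?_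
  rw [th, sub_sub_cancel, mulVec_mulVec]

variable {T c0} (h : T.Tri)
include h

theorem Tri.sl0_A : (T.sl0 c0).A = T.dN c0 := by
  refine (un_A (blk_mul h.blk_dN (blk_inv T.blk_A))).trans ?_
  rw [Matrix.mul_assoc, nonsing_inv_mul _ h.unit, Matrix.mul_one]

theorem Tri.sl0 : (T.sl0 c0).Tri where
  tri := fun c : T.C => by
    change WL T.lev (T.lev c) (∑ c', MvPolynomial.C ((T.dN c0 * T.A⁻¹) c c') * T.Φ c')
    refine WL.sum _ fun i _ => ?_
    by_cases n : T.lev c = T.lev i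
    · rw [n]; exact (h.wl i).cmul _
    · rw [blk_mul h.blk_dN (blk_inv T.blk_A) c i n, map_zero, zero_mul]; exact WL.zero
  ne := h.ne
  det := by
    rw [h.sl0_A]
    exact (T.det_dN c0).trans_ne one_ne_zero
  pd := h.dm_pd (L := 0)
  blk := fun (c c' : T.C) e => by_contra fun n =>
    e (blk_mul (blk_mul h.blk_dN h.blk_D) (blk_tr h.blk_dN) c c' n)

theorem Tri.slc (a : {c // c = c0} → ℤ) : (T.slc c0 a).Tri :=
  (h.sl0 (c0 := c0)).cut _ _ (.inr fun (c : T.C) hc (c' : T.C) hc' => by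
    rw [h.sl0_A, not_not.1 hc]
    simp [dN, vecMulVec_apply, dw0, Ne.symm hc'])

theorem Tri.slc_D (a : {c // c = c0} → ℤ) :
    (T.slc c0 a).D = pp (fun c => ¬ c = c0) (T.kd c0) := by
  have : (T.slc c0 a).A = 1 := by
    refine ((h.sl0 (c0 := c0)).A_cut _ _).trans ?_
    rw [h.sl0_A]
    ext c c'
    change T.dN c0 c.1 c'.1 = if c = c' then 1 else 0
    simp [dN, vecMulVec_apply, show c'.1 ≠ c0 from c'.2, one_apply, Subtype.ext_iff]
  rw [D, this, inv_one, transpose_one, Matrix.one_mul, Matrix.mul_one]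
  rfl

theorem Tri.slc_D' (a : {c // c = c0} → ℤ) (c c' : {c // ¬ c = c0}) :
    (T.slc c0 a).D c c' = T.D c c' - T.D c c0 * T.D c0 c' / T.D c0 c0 := by
  rw [h.slc_D]
  exact (h.dm_K (L := 0) c.1 c'.1).trans (if_neg (not_or.2 ⟨c.2, c'.2⟩))

theorem Tri.sl_sep (c c' : T.C) (a : c = c0) (b : ¬ c' = c0) : (T.kd c0) c c' = 0 := by
  refine (h.dm_K (L := 0) c c').trans ?_
  rw [if_pos (.inl a), if_neg fun e : c = c' => b (e ▸ a)]

theorem Tri.sl_kap : pp (· = c0) (T.kd c0) default default = T.D c0 c0 :=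
  (h.dm_K (L := 0) c0 c0).trans ((if_pos (.inl rfl)).trans (if_pos rfl))

theorem Tri.slc_Zc (a : {c // c = c0} → ℤ) : T.Zc = √(T.D c0 c0) * (T.slc c0 a).Zc := by
  have e : T.D.det = T.D c0 c0 * (pp (fun c => ¬ c = c0) (T.kd c0)).det := by
    have := twoBlockTriangular_det' (T.kd c0) (fun c : T.C => c = c0)
      fun c a c' b => h.sl_sep c c' a b
    rw [← h.sl_kap, ← det_unique (pp (· = c0) (T.kd c0))]
    refine Eq.trans ?_ (this.trans (by congr!))
    rw [kd, det_mul, det_mul, det_transpose, det_dN, one_mul, mul_one]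
  rw [Zc, Zc, h.slc_D, dt_inv, dt_inv, dt, dt, inv_inv, inv_inv, e,
    Real.sqrt_mul (h.kap_pos c0).le]
  rfl

theorem Tri.slc_wt (l : T.lev c0 = 1) (a : {c // c = c0} → ℤ) (z : {c // ¬ c = c0} → ℤ) :
    T.wt (mg (· = c0) a z) =
      gs (pp (· = c0) (T.kd c0))⁻¹ (zc a - fun c => T.th 0 c.1) * (T.slc c0 a).wt z := by
  have e : (T.slc c0 a).u (zc z) = fun c : {c // ¬ c = c0} =>
      (T.dN c0 *ᵥ (zc (mg (· = c0) a z) - T.th (zc (mg (· = c0) a z)))) c.1 := funext fun c => by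
    refine ((T.sl0 c0).u_cut _ _ _ c).trans ?_
    rw [← sl0_u, ← (glue_mg (· = c0) a a z 0).1, zc_glue]
    rfl
  have e' : (zc a - fun c => T.th 0 c.1) = fun c : {c // c = c0} =>
      (T.dN c0 *ᵥ (zc (mg (· = c0) a z) - T.th (zc (mg (· = c0) a z)))) c.1 := funext fun c => by
    obtain ⟨c, rfl⟩ := c
    rw [dN_mulVec, dw0, zero_mul, sub_zero, Pi.sub_apply, Pi.sub_apply,
      h.th_low (c := c) (y := zc _) (y' := 0) fun j k => by have := h.lev_pos j; omega]
    simp [zc, mg]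
  have pd : (T.kd c0).PosDef := h.dm_pd (L := 0)
  rw [wt, wt, e, e', gs, ← h.dm_qf (c0 := c0) (L := 0)]
  change Real.exp (-(Real.pi * qf (T.kd c0)⁻¹ _)) = _
  rw [qf_sep (p := (· = c0)) pd h.sl_sep, mul_add, neg_add, Real.exp_add, gs, gs]
  congr!

/-- one slice keeps its share of the mass -/
theorem Tri.slc_pick (l : T.lev c0 = 1) {g : (T.C → ℤ) → ℝ} (hg : Bb g) (p : 0 < T.N g) :
    ∃ a, T.N g ≤ 3 * (1 + (√(T.D c0 c0))⁻¹) * (T.slc c0 a).N fun z => g (mg (· = c0) a z) := by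
  by_contra! q
  have k := Real.sqrt_pos.2 (h.kap_pos c0)
  have pd : (pp (· = c0) (T.kd c0)).PosDef := pd_pp (h.dm_pd (c0 := c0) (L := 0))
  have t := th_uq pd fun c => T.th 0 c.1
  rw [h.sl_kap] at t
  have s := (hasSum_fib (· = c0) (h.sm hg)).mul_left (3 * (1 + (√(T.D c0 c0))⁻¹) / T.Zc)
  have s' := (summable_gs pd.inv fun c => T.th 0 c.1).hasSum.mul_left (T.N g / √(T.D c0 c0))
  have := hasSum_le (fun a => ?_) s s'
  · have e : 3 * (1 + (√(T.D c0 c0))⁻¹) / T.Zc * ∑' y, T.wt y * g y =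
        3 * (1 + (√(T.D c0 c0))⁻¹) * T.N g := by rw [N, S]; ring
    have e' : T.N g / √(T.D c0 c0) * (2 * (1 + √(T.D c0 c0))) =
        2 * (1 + (√(T.D c0 c0))⁻¹) * T.N g := by field_simp; ring
    have := (this.trans (mul_le_mul_of_nonneg_left t (div_pos p k).le))
    rw [e, e'] at this
    nlinarith [mul_pos (inv_pos.2 k) p]
  · have z := (h.slc a).Zc_pos
    simp only [h.slc_wt l, mul_assoc (gs _ _), tsum_mul_left]
    have := mul_le_mul_of_nonneg_right (q a).le (div_pos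
      (gs_pos (pp (· = c0) (T.kd c0))⁻¹ (zc a - fun c => T.th 0 c.1)) k).le
    refine le_trans (le_of_eq ?_) (this.trans_eq (by ring))
    rw [h.slc_Zc a, N, S]
    field_simp
    rfl

theorem Tri.slc_hi (l : T.lev c0 = 1) (a : {c // c = c0} → ℤ) {j : ℕ} (n : 1 < j) :
    (T.slc c0 a).R j = T.R j ∧ (T.slc c0 a).ct j ≤ T.ct j := by
  let e : {c // (T.slc c0 a).lev c = j} ≃ {c // T.lev c = j} :=
    Equiv.subtypeSubtypeEquivSubtype (p := fun c => ¬ c = c0) (q := fun c => T.lev c = j)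
      fun {c} hc q => by rw [q] at hc; omega
  refine ⟨by rw [← card_lev, ← card_lev, Fintype.card_congr e], le_of_eq ?_⟩
  rw [ct, ct, ← th_eqv _ e]
  congr 1
  ext c c'
  refine (h.slc_D' a c.1 c'.1).trans ?_
  rw [h.blk_D c.1.1 c0 (c.2.trans_ne (by omega)), zero_mul, zero_div, sub_zero]
  rfl

theorem Tri.slc_one (l : T.lev c0 = 1) (a : {c // c = c0} → ℤ) (π : T.C → ℤ) :
    (T.slc c0 a).R 1 + 1 = T.R 1 ∧ (T.slc c0 a).ct 1 ≤ √(T.D c0 c0) * T.ct 1 ∧
      (T.slc c0 a).g1 (fun c => π c.1) ≤ 2 * (1 + √(T.D c0 c0)) * T.g1 π := by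
  let e : {c // (T.slc c0 a).lev c = 1} ⊕ Unit ≃ {c // T.lev c = 1} :=
    ((Equiv.subtypeSubtypeEquivSubtypeInter (fun c => ¬ c = c0) fun c => T.lev c = 1).sumCongr
      (Equiv.refl _)).trans (adj (c0 := c0) (fun c => by by_cases q : c = c0 <;> simp [q, l])
        fun q => q.1 rfl)
  have p := (h.pd_Dl 1).submatrix e.injective
  have s : (T.slc c0 a).D.submatrix (Subtype.val : {c // (T.slc c0 a).lev c = 1} → _) Subtype.val =
      schur ((T.D.submatrix (Subtype.val : {c // T.lev c = 1} → _) Subtype.val).submatrix e e) := by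
    ext c c'
    refine (h.slc_D' a c.1 c'.1).trans ?_
    simp only [schur, Matrix.sub_apply, mul_apply, inv_subsingleton, Fintype.sum_unique,
      diagonal_apply_eq, Ring.inverse_eq_inv']
    change _ = T.D c.1.1 c'.1.1 - T.D c.1.1 c0 * (T.D c0 c0)⁻¹ * T.D c0 c'.1.1
    ring
  refine ⟨?_, ?_, ?_⟩
  · rw [← card_lev, ← card_lev, ← Fintype.card_congr e]
    simp
  · have b := th_schur p
    rw [th_eqv, dt, det_unique] at b
    rw [ct, s]
    exact (inv_mul_le_iff₀ (Real.sqrt_pos.2 (h.kap_pos c0))).1 b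
  · rw [g1, s, g1, ← gk_eqv _ e, ← inv_submatrix_equiv]
    refine (gk_inl p fun n hn => ?_).trans
      (mul_le_mul_of_nonneg_right (th_uq (pd_bb p) 0) (gk_nonneg _ _))
    simp only [Set.mem_ofPred_eq, dotProduct, ← e.sum_comp, Fintype.sum_sum_type, Function.comp,
      Equiv.symm_apply_apply, Sum.elim_inl, Sum.elim_inr, Pi.zero_apply, mul_zero, sum_const_zero,
      add_zero]
    exact hn

end TS

end Crest.Agent.N49.Tw

end
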