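import Crest.Agent.N49.Rf.Sl0
import Crest.Agent.N49.Rf.Reg
import Crest.Agent.N49.Tw.Chg

/-!
# Row 49 (helper73): level one slices, and the regularisation loop
-/

set_option autoImplicit false

open Matrix MvPolynomial Finset

noncomputable section

namespace Crest.Agent.N49.Tw

open Po Rw Sp Db La

namespace TS

theorem Iso.g1_le {σ σ' : Type} {T : TS σ} {T' : TS σ'} {f : (T.C → ℤ) → T'.C → ℤ}
    {V : Matrix T'.C T.C ℤ} {B : Matrix T'.C T.C ℝ} {V' : Matrix T.C T'.C ℤ}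
    (h : T.Iso T' f V B V') (π : T'.C → ℤ) : T.g1 (π ᵥ* V) ≤ T'.g1 π := by
  obtain ⟨r, l⟩ := h.sub (· = 1)
  have r' := congrArg rl r
  have l' := congrArg rl l
  rw [rl_mulC, rl_oneC] at r' l'
  have p := h.t'.pd_Dl 1
  have e : (T.D.submatrix (Subtype.val : {c // T.lev c = 1} → T.C) Subtype.val)⁻¹ =
      (rm (V.submatrix (Subtype.val : {c // T'.lev c = 1} → T'.C)
        (Subtype.val : {c // T.lev c = 1} → T.C)))ᵀ *
      (T'.D.submatrix (Subtype.val : {c // T'.lev c = 1} → T'.C) Subtype.val)⁻¹ *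
      rm (V.submatrix (Subtype.val : {c // T'.lev c = 1} → T'.C)
        (Subtype.val : {c // T.lev c = 1} → T.C)) := by
    rw [h.symm.toMor.D_lev 1]
    exact inv_conj l' r' p.det_pos.ne'
  have i : Function.Injective (rm (V.submatrix (Subtype.val : {c // T'.lev c = 1} → T'.C)
      (Subtype.val : {c // T.lev c = 1} → T.C))).mulVec := fun u v q => by
    have := congrArg (rl (V'.submatrix (Subtype.val : {c // T.lev c = 1} → T.C)
      (Subtype.val : {c // T'.lev c = 1} → T'.C)) *ᵥ ·) q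
    simp only [mulVec_mulVec] at this
    erw [l'] at this
    simpa using this
  have := gk_sub p.inv i (b := 1) (by
    erw [← e, one_mul]
    exact (h.pt0 1).ge) {n | (fun c : {c // T'.lev c = 1} => π c.1) ⬝ᵥ n = 0}
  erw [one_mul, ← e] at this
  refine le_trans (le_of_eq ?_) this
  rw [g1]
  congr 1
  ext n
  rw [Set.mem_preimage, Set.mem_ofPred_eq, Set.mem_ofPred_eq, dotProduct_mulVec]
  refine Eq.congr_left (congrArg (· ⬝ᵥ n) (funext fun c => ?_))
  exact (sum_sub' (q := fun c => T'.lev c = 1) (fun j => π j * V j c.1) fun j k => by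
    rw [not_not.1 fun z => k ((h.lv j c.1 z).trans c.2), mul_zero]).symm

/-- a primitive frequency of level `l` is a coordinate -/
theorem Tri.exists_coord {T : TS Unit} (h : T.Tri) {l : ℕ} {k b : T.C → ℤ}
    (hk : ∀ F, k F ≠ 0 → T.lev F = l) (hkb : k ⬝ᵥ b = 1) : ∃ (T' : TS Unit) (U : _) (B : _) (V : _)
      (c0 : T'.C), T'.Iso T (U *ᵥ ·) U B V ∧ T'.lev c0 = l ∧ T'.D c0 c0 = qf T.D (zc k) ∧
        ∀ c, ∃ c', T'.lev c = T.lev c' := by
  obtain ⟨U, V, c0, UV, l0, kV, o⟩ := exists_uni (fun c => T.lev c = l) hk hkb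
  have bl : ∀ c c', T.lev c ≠ T.lev c' → U c c' = 0 := fun c c' n => by
    have := o c c' (by by_contra q; push Not at q; exact n (q.1.trans q.2.symm))
    rw [one_apply_ne fun q : c = c' => n (q ▸ rfl)] at this
    exact this.1
  obtain ⟨S, hS⟩ : ∃ S : T.C → MvPolynomial T.C ℝ, S = fun c =>
      ∑ c', MvPolynomial.C (U c c' : ℝ) * X c' := ⟨_, rfl⟩
  have wS : ∀ c, WL T.lev (T.lev c) (S c) := fun c => by
    rw [hS]
    refine WL.sum _ fun i _ => ?_
    by_cases n : T.lev c = T.lev i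
    · exact (WL.X n.ge).cmul _
    · rw [bl c i n, Int.cast_zero, map_zero, zero_mul]; exact WL.zero
  have eS : ∀ y, (fun c => eval (zc y) (S c)) = zc (U *ᵥ y) := fun y => funext fun c => by
    rw [hS]
    simp [zc, mulVec, dotProduct]
  have lS : T.lin S = rm U := by
    ext c c'
    rw [lin, of_apply, hS]
    split_ifs with n
    · simp only [coeff_sum, coeff_C_mul, coeff_X, Finsupp.single_left_inj one_ne_zero]
      simp
    · simp [bl c c' n]
  have dU : |(rm U).det| = 1 := by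
    rw [← Int.cast_det, ← Int.cast_abs, Int.isUnit_iff_abs_eq.1 (isUnit_det_of_right_inverse UV),
      Int.cast_one]
  have h' := h.sbs wS (by rw [lS]; exact fun z => by simp [z] at dU)
  have I : (T.sbs S).Iso T (U *ᵥ ·) U (1 : Matrix T.C T.C ℝ) V := ⟨.of_lin h' h (fun c' c n => not_not.1 fun q =>
    n (bl c' c q)) (fun (c' c : T.C) n => by
      rw [not_not.1 fun q : c' ≠ c => n (one_apply_ne q)]; rfl)
    (fun y => ((congrArg T.u (eS y).symm).trans (T.sbs_u S _).symm).trans (one_mulVec _).symm)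
    (show T.K = (1 : Matrix T.C T.C ℝ) * T.K * (1 : Matrix T.C T.C ℝ)ᵀ by simp), UV, mul_eq_one_comm.1 UV⟩
  refine ⟨T.sbs S, U, _, V, c0, I, l0, (qf_single _ _).symm.trans ?_, fun c => ⟨c, rfl⟩⟩
  have := I.symm.toMor.qf_D (Pi.single c0 1)
  rw [single_one_vecMul] at this
  refine Eq.trans (congrArg _ (funext fun c => ?_)) (this.trans (congrArg (fun x => qf _ (zc x)) kV))
  simp [zc, Pi.single_apply]
  rfl

end TS

namespace Rf

theorem sl1 : SL1 := by
  intro s V k b A ε ok hk _ hkb e0 e1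
  obtain ⟨T, U, B, W, c0, I, l', eK, lv⟩ := ok.1.exists_coord hk hkb
  have h := I.t
  let f : (T.C → ℤ) → ℝ := fun y => Set.indicator {y | V.x y ∈ A} 1 (U *ᵥ y)
  have f0 : ∀ y, 0 ≤ f y := fun y => Tw.ind_nonneg _ _
  have f1 : ∀ y, f y ≤ 1 := fun y => ind_le _ _
  have bf : Bb f := .of_mem f0 f1
  have n1 : T.N (fun y => f y - T.E f + ε) = ε * (V.T.Z / V.T.Zc) := by
    rw [TS.N, h.S_add (bf.sub (.const _)) (.const _), h.S_sub bf (.const _), TS.S_const,
      TS.S_const, TS.E, mul_div_cancel₀ _ h.Z_pos.ne', sub_self, zero_add, mul_comm, mul_div_assoc,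
      I.Z, I.Zc]
  have p0 : 0 < ε * (V.T.Z / V.T.Zc) := mul_pos e0 (div_pos ok.1.Z_pos ok.1.Zc_pos)
  obtain ⟨a, ha⟩ := h.slc_pick l' (TS.bb_pick f0 f1 (T.E f) ε) (n1 ▸ p0)
  have h' := h.slc (c0 := c0) a
  obtain ⟨r1, c1, g1⟩ := h.slc_one l' a (V.π ᵥ* U)
  rw [eK] at ha c1 g1
  have n2 : (T.slc c0 a).N (fun z => f (mg (· = c0) a z) - T.E f + ε) =
      ((T.slc c0 a).E (fun z => f (mg (· = c0) a z)) - T.E f + ε) *
        ((T.slc c0 a).Z / (T.slc c0 a).Zc) := by
    have := h'.Z_pos.ne'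
    rw [TS.N, h'.S_add ((bf.comp _).sub (.const _)) (.const _), h'.S_sub (bf.comp _) (.const _),
      TS.S_const, TS.S_const, TS.E.eq_1 (TS.slc _ _ _)]
    field_simp
  rw [n1] at ha
  erw [n2] at ha
  have p : 0 < (T.slc c0 a).Z / (T.slc c0 a).Zc := div_pos h'.Z_pos h'.Zc_pos
  have a1 : (T.slc c0 a).E (fun z => f (mg (· = c0) a z)) ≤ 1 :=
    h'.E_le (bf.comp _) fun y => f1 _
  have a0 : 0 ≤ T.E f := TS.E_nonneg f0
  have q : 0 ≤ √(qf V.T.D (zc k)) := Real.sqrt_nonneg _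
  have q' : 0 < 3 * (1 + (√(qf V.T.D (zc k)))⁻¹) := by positivity
  refine ⟨⟨T.slc c0 a, fun c => (V.π ᵥ* U) c.1,
    V.c + ∑ c : {c // c = c0}, (V.π ᵥ* U) c.1 * a c⟩, ⟨h', fun F => (lv F.1).elim fun c e => e.trans_le (ok.2.1 c),
       fun F n => ?_⟩,
    r1.trans (I.R 1), fun j n => (h.slc_hi l' a n).1.trans (I.R j),
    fun j n => (h.slc_hi l' a n).2.trans_eq (I.ct j), ?_, ?_, ?_, ?_⟩
  · obtain ⟨j, -, z⟩ := exists_ne_zero_of_sum_ne_zero n
    exact (I.lv j F.1 (right_ne_zero_of_mul z)).symm.trans (ok.2.2 j (left_ne_zero_of_mul z))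
  · rw [I.ct] at c1
    exact c1.trans (mul_le_mul_of_nonneg_right (by linarith) (th_nonneg _ _))
  · exact g1.trans (mul_le_mul (by linarith) (I.g1_le _) (gk_nonneg _ _) (by positivity))
  · refine ha.trans ((mul_le_mul_of_nonneg_left (mul_le_mul_of_nonneg_right (c := 2)
      (by linarith) p.le) q'.le).trans_eq ?_)
    change _ = _ * ((T.slc c0 a).Z / (T.slc c0 a).Zc)
    ring
  · have := (mul_pos_iff_of_pos_right p).1 ((mul_pos_iff_of_pos_left q').1 (p0.trans_le ha))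
    have d : V.den A = T.E f := (I.E _).symm
    refine le_trans (by linarith) (le_of_eq (congrArg (T.slc c0 a).E
      (funext fun z : {c // ¬ c = c0} → ℤ => ?_)) :
        (T.slc c0 a).E (fun z => f (mg (· = c0) a z)) ≤ _)
    have : V.x (U *ᵥ mg (· = c0) a z) = V.c + ∑ c : {c // c = c0}, (V.π ᵥ* U) c.1 * a c +
        (fun c : {c // ¬ c = c0} => (V.π ᵥ* U) c.1) ⬝ᵥ z := by
      rw [Ctr.x, dotProduct_mulVec, dotProduct, dotProduct, add_assoc,
        ← Fintype.sum_subtype_add_sum_subtype (· = c0)]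
      simp only [mg_pos, mg_neg]
      congr!
    exact Set.indicator_const_eq_indicator_const (Iff.of_eq (congrArg (· ∈ A) this))

/-- **regularisation** -/
theorem reg : REG JBc := reg_sl sl1

end Rf

end Crest.Agent.N49.Tw

end
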